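import Vale.Agent.P078.Cartan.Profile

/-!
The convex profile: the antiderivative of the step polynomial with a small linear correction.
-/

namespace Vale.Agent.P078.Quad

open Polynomial
open Vale.Agent.P078.Cartan (NearStep antider derivative_antider antider_eval_zero step step'
  step'_nonneg monotone_step quarter_le_step)

/-- A convex polynomial lying below the step polynomial on the unit interval and growing linearly
beyond the step. -/
theorem exists_convex_profile {t η γ : ℝ} {f : ℝ[X]} (h : NearStep t η γ f) (hη : 0 < η)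
    (hγ : 0 ≤ γ) :
    ∃ φ : ℝ[X], φ.eval 0 = 0 ∧ derivative φ = f + C γ * X ∧
      ConvexOn ℝ (Set.Icc (0 : ℝ) 1) (fun x => φ.eval x) ∧
      (∀ x ∈ Set.Icc (0 : ℝ) 1, φ.eval x ≤ f.eval x + 3 * γ) ∧
      (∀ x ∈ Set.Icc (0 : ℝ) 1, -2 * γ ≤ φ.eval x) ∧
      (η ≤ t → ∀ x ∈ Set.Icc (0 : ℝ) 1, t ≤ x →
        (x - t) * (1 / 4 - 2 * γ) - 2 * γ ≤ φ.eval x) := by
  refine ⟨antider (f + C γ * X), antider_eval_zero _, derivative_antider _, ?_⟩
  set φ := antider (f + C γ * X) with hφ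
  have hd : ∀ y : ℝ, HasDerivAt (fun y => φ.eval y) (f.eval y + γ * y) y := fun y => by
    have := φ.hasDerivAt y
    rw [hφ, derivative_antider] at this
    simpa [hφ] using this
  have hstep : ∀ y ∈ Set.Icc (0 : ℝ) 1, 0 ≤ step t η y := fun y hy => by
    have := monotone_step (t := t) hη hy.1
    simpa [step] using this
  have hfb : ∀ y ∈ Set.Icc (0 : ℝ) 1, -γ ≤ f.eval y := fun y hy => by
    linarith [(abs_le.1 (h.close hη hy)).1, hstep y hy]
  have mvt : ∀ a b : ℝ, a < b → ∃ ξ ∈ Set.Ioo a b,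
      φ.eval b - φ.eval a = (f.eval ξ + γ * ξ) * (b - a) := by
    intro a b hab
    obtain ⟨ξ, hξ, e⟩ := exists_hasDerivAt_eq_slope (fun y => φ.eval y) _ hab
      φ.continuous.continuousOn fun y _ => hd y
    exact ⟨ξ, hξ, by rw [e, div_mul_cancel₀ _ (sub_ne_zero.2 hab.ne')]⟩
  have h0 : φ.eval 0 = 0 := antider_eval_zero _
  have hlow : ∀ x ∈ Set.Icc (0 : ℝ) 1, -2 * γ ≤ φ.eval x := by
    intro x hx
    rcases hx.1.eq_or_lt with rfl | hx0
    · rw [h0]; linarith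
    obtain ⟨ξ, hξ, e⟩ := mvt 0 x hx0
    have hξ' : ξ ∈ Set.Icc (0 : ℝ) 1 := ⟨hξ.1.le, hξ.2.le.trans hx.2⟩
    rw [h0, sub_zero, sub_zero] at e
    rw [e]
    nlinarith [hfb ξ hξ', mul_nonneg hγ hξ.1.le, hx.1, hx.2]
  refine ⟨?_, ?_, hlow, ?_⟩
  · refine MonotoneOn.convexOn_of_deriv (convex_Icc 0 1) φ.continuous.continuousOn
      (fun y _ => (hd y).differentiableAt.differentiableWithinAt) ?_
    rw [interior_Icc, funext fun y => (hd y).deriv]
    refine MonotoneOn.mono ?_ Set.Ioo_subset_Icc_self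
    have hd2 : ∀ y : ℝ, HasDerivAt (fun y => f.eval y + γ * y) ((derivative f).eval y + γ) y :=
      fun y => by
        simpa using! (f.hasDerivAt y).add ((hasDerivAt_id y).const_mul γ)
    refine monotoneOn_of_hasDerivWithinAt_nonneg (convex_Icc 0 1)
      (fun y _ => (hd2 y).continuousAt.continuousWithinAt)
      (fun y _ => (hd2 y).hasDerivWithinAt) fun y hy => ?_
    rw [interior_Icc] at hy
    linarith [(abs_le.1 (h.deriv y ⟨hy.1.le, hy.2.le⟩)).1, step'_nonneg (t := t) hη y]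
  · intro x hx
    rcases hx.1.eq_or_lt with rfl | hx0
    · rw [h0, h.zero]; linarith
    obtain ⟨ξ, hξ, e⟩ := mvt 0 x hx0
    have hξ' : ξ ∈ Set.Icc (0 : ℝ) 1 := ⟨hξ.1.le, hξ.2.le.trans hx.2⟩
    rw [h0, sub_zero, sub_zero] at e
    rw [e]
    have hξf : f.eval ξ ≤ f.eval x + 2 * γ := by
      linarith [(abs_le.1 (h.close hη hξ')).2, (abs_le.1 (h.close hη hx)).1,
        monotone_step (t := t) hη hξ.2.le]
    have h1 : (f.eval ξ + γ * ξ) * x ≤ (f.eval x + 2 * γ + γ * x) * x :=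
      mul_le_mul_of_nonneg_right (by nlinarith [hξ.2]) hx.1
    nlinarith [mul_nonneg hγ (mul_nonneg (sub_nonneg.2 hx.2) (by linarith [hx.1] : 0 ≤ 2 + x)),
      mul_nonneg (sub_nonneg.2 hx.2) (by linarith [hfb x hx] : 0 ≤ f.eval x + γ)]
  · intro hηt x hx htx
    rcases htx.eq_or_lt with rfl | hlt
    · rw [sub_self, zero_mul, zero_sub]
      linarith [hlow t hx]
    obtain ⟨ξ, hξ, e⟩ := mvt t x hlt
    have ht0 : 0 ≤ t := hη.le.trans hηt
    have hξ' : ξ ∈ Set.Icc (0 : ℝ) 1 := ⟨ht0.trans hξ.1.le, hξ.2.le.trans hx.2⟩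
    have h1 : 1 / 4 - 2 * γ ≤ f.eval ξ + γ * ξ := by
      linarith [(abs_le.1 (h.close hη hξ')).1, quarter_le_step hη hηt hξ.1.le,
        mul_nonneg hγ hξ'.1]
    have h2 := mul_le_mul_of_nonneg_right h1 (sub_nonneg.2 hlt.le)
    linarith [hlow t ⟨ht0, hlt.le.trans hx.2⟩]

end Vale.Agent.P078.Quad
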