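import Vale.Agent.P078.Cartan.Quad.Expected

/-!
States: a colour together with a side. The side `0` uses `G`, the side `1` uses `1 - G`; the
off-diagonal entries at decoupled points of a side are zero.
-/

namespace Vale.Agent.P078.Quad

open Matrix
open scoped ComplexOrder

set_option linter.unusedSectionVars false

variable {ι : Type*} [Fintype ι] [DecidableEq ι] {r : ℕ}

/-- The colour of a state. -/
def colour (s : Fin (r * 2)) : Fin r := (finProdFinEquiv.symm s).1

/-- The side of a state. -/
def side (s : Fin (r * 2)) : Fin 2 := (finProdFinEquiv.symm s).2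

/-- The state of a colour and a side. -/
def state (c : Fin r) (b : Fin 2) : Fin (r * 2) := finProdFinEquiv (c, b)

/-- The law giving both sides of the colour `c` the probability one half. -/
noncomputable def half (c : Fin r) : Fin (r * 2) → ℝ :=
  fun s => if colour s = c then 1 / 2 else 0

/-- The matrix of a side. -/
def base (G : Matrix ι ι ℂ) (b : Fin 2) : Matrix ι ι ℂ := if b = 0 then G else 1 - G

/-- The family of the states, `d b i` meaning that `i` is decoupled on the side `b`. -/
def fam (G : Matrix ι ι ℂ) (d : Fin 2 → ι → Bool) (s : Fin (r * 2)) : Matrix ι ι ℂ :=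
  Matrix.of fun i j =>
    if i ≠ j ∧ (d (side s) i = true ∨ d (side s) j = true) then 0 else base G (side s) i j

theorem colour_state (c : Fin r) (b : Fin 2) : colour (state c b) = c := by
  simp [colour, state]

theorem side_state (c : Fin r) (b : Fin 2) : side (state c b) = b := by simp [side, state]

theorem state_colour_side (s : Fin (r * 2)) : state (colour s) (side s) = s :=
  finProdFinEquiv.apply_symm_apply s

theorem sum_state (F : Fin (r * 2) → ℝ) : ∑ s, F s = ∑ c : Fin r, ∑ b : Fin 2, F (state c b) := by
  rw [← Fintype.sum_prod_type', ← finProdFinEquiv.sum_comp F]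
  rfl

theorem isLaw_half (c : Fin r) :
    (∀ s, 0 ≤ half c s) ∧ ∑ s, half c s = 1 := by
  refine ⟨fun s => by unfold half; split_ifs <;> norm_num, ?_⟩
  rw [sum_state]
  simp [half, colour_state, Finset.sum_ite_eq']

theorem uniform_eq_half (s : Fin (r * 2)) :
    uniformLaw Unit (r * 2) () s = ∑ c : Fin r, (1 / r : ℝ) * half c s := by
  simp [uniformLaw, half]
  ring

theorem fam_diag (G : Matrix ι ι ℂ) (d : Fin 2 → ι → Bool) (s : Fin (r * 2)) (i : ι) :
    fam G d s i i = base G (side s) i i := by
  simp [fam]

end Vale.Agent.P078.Quad
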