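import Vale.Agent.P078.Cartan.Quad.Local
import Vale.Agent.P078.Cartan.Quad.State
import Vale.Agent.P078.Cartan.Window

/-!
The final state: when the other side is decoupled at every point, the averaged polynomial is the
characteristic polynomial of an affine image of the pinched matrix.
-/

namespace Vale.Agent.P078.Quad

open Matrix Polynomial Function
open scoped ComplexOrder

set_option linter.unusedSectionVars false

variable {ι : Type*} [Fintype ι] [DecidableEq ι] {r : ℕ}

/-- The constant of the affine change of variable of a side. -/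
noncomputable def cst (b : Fin 2) : ℝ := if b = 0 then 1 / 4 else 3 / 4

/-- The slope of the affine change of variable of a side. -/
noncomputable def slope (b : Fin 2) : ℝ := if b = 0 then 1 / 2 else -(1 / 2)

/-- The polynomial of the pinched matrix that computes `f` on the final roots. -/
noncomputable def aff (b : Fin 2) (f : ℝ[X]) : ℝ[X] :=
  f.comp (C (slope b) * X + C (cst b)) - C (f.eval (cst b))

theorem aff_eval (b : Fin 2) (f : ℝ[X]) (x : ℝ) :
    (aff b f).eval x = f.eval (slope b * x + cst b) - f.eval (cst b) := by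
  simp [aff]

theorem aff_eval_zero (b : Fin 2) (f : ℝ[X]) : (aff b f).eval 0 = 0 := by
  simp [aff_eval]

theorem natDegree_aff (b : Fin 2) (f : ℝ[X]) : (aff b f).natDegree = f.natDegree := by
  have hs : slope b ≠ 0 := by unfold slope; split_ifs <;> norm_num
  rw [aff, natDegree_sub_C, natDegree_comp,
    natDegree_add_C, natDegree_C_mul hs, natDegree_X, mul_one]

/-- Vanishing entries outside `S` do not see the entries of the rows in `S` at columns outside
`S`. -/
theorem det_congr_outside {A B : Matrix ι ι ℂ} (S : Finset ι)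
    (hA : ∀ i, i ∉ S → ∀ j ∈ S, A i j = 0) (hB : ∀ i, i ∉ S → ∀ j ∈ S, B i j = 0)
    (hin : ∀ i ∈ S, ∀ j ∈ S, A i j = B i j)
    (hout : ∀ i, i ∉ S → ∀ j, j ∉ S → A i j = B i j) : A.det = B.det := by
  rw [twoBlockTriangular_det A (fun i => i ∈ S) hA, twoBlockTriangular_det B (fun i => i ∈ S) hB]
  congr 2
  · ext i j
    exact hin i i.2 j j.2
  · ext i j
    exact hout i i.2 j j.2

/-- The average over the sides of the pinched determinant, by linearity in each row. -/
theorem sum_sides_det (H : Matrix ι ι ℂ) (z h : ℂ) :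
    ∑ S : Finset ι, (Matrix.scalar ι z - Matrix.of fun i j =>
        if i ∈ S ∧ j ∈ S then H i j else if i = j then h else 0).det
      = (2 : ℂ) ^ Fintype.card ι *
        (Matrix.scalar ι z - ((1 / 2 : ℂ) • H + (h / 2) • (1 : Matrix ι ι ℂ))).det := by
  set u : ι → ι → ℂ := fun i j => (if i = j then z else 0) - H i j
  set v : ι → ι → ℂ := fun i j => if i = j then z - h else 0
  have h1 : ∀ S : Finset ι, (Matrix.scalar ι z - Matrix.of fun i j =>
        if i ∈ S ∧ j ∈ S then H i j else if i = j then h else 0).det
      = Matrix.det (Matrix.of (S.piecewise u v)) := by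
    intro S
    refine det_congr_outside S (fun i hi j hj => ?_) (fun i hi j hj => ?_)
      (fun i hi j hj => ?_) (fun i hi j hj => ?_)
    · have hij : i ≠ j := fun e => hi (e ▸ hj)
      simp [hi, hij, diagonal_apply]
    · have hij : i ≠ j := fun e => hi (e ▸ hj)
      simp [Finset.piecewise_eq_of_notMem _ _ _ hi, v, hij]
    · simp [hi, hj, u, diagonal_apply]
    · rcases eq_or_ne i j with rfl | hij
      · simp [hi, v, diagonal_apply]
      · simp [hi, v, hij, diagonal_apply]
  have h2 := (detRowAlternating (n := ι) (R := ℂ)).toMultilinearMap.map_add_univ u v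
  have h3 : Matrix.of (u + v) = (2 : ℂ) •
      (Matrix.scalar ι z - ((1 / 2 : ℂ) • H + (h / 2) • (1 : Matrix ι ι ℂ))) := by
    ext i j
    rcases eq_or_ne i j with rfl | hij
    · simp [u, v]
      ring
    · simp [u, v, hij]
  rw [Finset.sum_congr rfl fun S _ => h1 S]
  refine Eq.trans h2.symm ?_
  show Matrix.det (Matrix.of (u + v)) = _
  rw [h3, det_smul]

theorem pinch_state (G : Matrix ι ι ℂ) (hd : ∀ i, G i i = 1 / 2) (κ : ι → Fin r) (b : Fin 2)
    (σ : ι → Fin 2) :
    pinch (fam G fun b' (_ : ι) => decide (b' ≠ b)) (fun i => state (κ i) (σ i))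
      = Matrix.of fun i j => if i ∈ Finset.univ.filter (fun k => σ k = b) ∧
          j ∈ Finset.univ.filter (fun k => σ k = b) then Cartan.pinch (base G b) κ i j
          else if i = j then 1 / 2 else 0 := by
  ext i j
  have hst : state (κ i) (σ i) = state (κ j) (σ j) ↔ κ i = κ j ∧ σ i = σ j := by
    simp [state]
  have hbase : ∀ c : Fin 2, base G c i i = 1 / 2 := fun c => by
    unfold base
    split_ifs
    · exact hd i
    · rw [Matrix.sub_apply, one_apply_eq, hd]; norm_num
  simp only [pinch, Cartan.pinch, fam, Matrix.of_apply, hst, side_state, Finset.mem_filter,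
    Finset.mem_univ, true_and, decide_eq_true_eq, or_self]
  rcases eq_or_ne i j with rfl | hij
  · simp [hbase]
  · by_cases hi : σ i = b <;> by_cases hj : σ j = b <;> by_cases hk : κ i = κ j <;>
      simp [hi, hj, hk, hij, eq_comm (a := b)]

/-- The expected polynomial of the final state. -/
theorem echar_final {G : Matrix ι ι ℂ} (hd : ∀ i, G i i = 1 / 2) (κ : ι → Fin r) (b : Fin 2) :
    echar (fam G fun b' (_ : ι) => decide (b' ≠ b)) (fun i => half (κ i))
      = ((1 / 2 : ℂ) • Cartan.pinch (base G b) κ + (1 / 4 : ℂ) • (1 : Matrix ι ι ℂ)).charpoly := by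
  refine Polynomial.funext fun z => ?_
  simp only [echar, eval_finsetSum, eval_mul, eval_C, eval_charpoly]
  set D : (ι → Fin (r * 2)) → ℂ := fun s =>
    (Matrix.scalar ι z - pinch (fam G fun b' (_ : ι) => decide (b' ≠ b)) s).det
  have hsplit : ∑ s : ι → Fin (r * 2), Cartan.weight (fun i => half (κ i)) s * D s
      = ∑ σ : ι → Fin 2, (1 / 2 : ℂ) ^ Fintype.card ι * D fun i => state (κ i) (σ i) := by
    symm
    refine Finset.sum_bij_ne_zero (fun σ _ _ => fun i => state (κ i) (σ i))
      (fun σ _ _ => Finset.mem_univ _) (fun σ _ _ σ' _ _ h => ?_) (fun s _ hs => ?_)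
      (fun σ _ _ => ?_)
    · funext i
      simpa [side_state] using congrArg side (congrFun h i)
    · have hcol : ∀ i, colour (s i) = κ i := fun i => by
        by_contra hne
        refine hs (mul_eq_zero_of_left ?_ _)
        exact Finset.prod_eq_zero (Finset.mem_univ i) (by simp [half, hne])
      have e : (fun i => state (κ i) (side (s i))) = s := funext fun i => by
        rw [← hcol i, state_colour_side]
      refine ⟨fun i => side (s i), Finset.mem_univ _, ?_, e⟩
      rw [e]
      have hw : Cartan.weight (fun i => half (κ i)) s = (1 / 2 : ℂ) ^ Fintype.card ι := by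
        simp [Cartan.weight, half, hcol]
      rwa [hw] at hs
    · simp [Cartan.weight, half, colour_state]
  rw [hsplit, ← Finset.mul_sum]
  simp only [D, pinch_state G hd κ b]
  have hbij : Bijective fun σ : ι → Fin 2 => Finset.univ.filter fun k => σ k = b := by
    refine ⟨fun σ σ' h => funext fun k => ?_, fun S => ?_⟩
    · have hk : σ k = b ↔ σ' k = b := by
        simpa using congrArg (fun S : Finset ι => k ∈ S) h
      rcases eq_or_ne (σ k) b with h1 | h1
      · rw [h1, hk.1 h1]
      · have h2 : σ' k ≠ b := fun e => h1 (hk.2 e)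
        omega
    · refine ⟨fun k => if k ∈ S then b else (if b = 0 then 1 else 0), ?_⟩
      ext k
      by_cases hk : k ∈ S
      · simp [hk]
      · simp only [Finset.mem_filter, Finset.mem_univ, true_and, hk, if_false, iff_false]
        split_ifs with hb
        · rw [hb]; decide
        · exact Ne.symm hb
  rw [Fintype.sum_bijective _ hbij (fun σ => _) (fun S => (Matrix.scalar ι z - Matrix.of fun i j =>
      if i ∈ S ∧ j ∈ S then Cartan.pinch (base G b) κ i j else if i = j then (1 / 2 : ℂ) else 0).det)
    fun σ => rfl]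
  rw [sum_sides_det, ← mul_assoc, ← mul_pow]
  norm_num

/-- The roots of an affine image of a Hermitian matrix. -/
theorem charpoly_affine {H : Matrix ι ι ℂ} (hH : H.IsHermitian) (c a : ℝ) :
    ((c : ℂ) • H + (a : ℂ) • (1 : Matrix ι ι ℂ)).charpoly
      = ∏ i, (X - C ((c * hH.eigenvalues i + a : ℝ) : ℂ)) := by
  set U : Matrix ι ι ℂ := (hH.eigenvectorUnitary : Matrix ι ι ℂ)
  have e : (c : ℂ) • H + (a : ℂ) • (1 : Matrix ι ι ℂ)
      = U * diagonal (fun i => ((c * hH.eigenvalues i + a : ℝ) : ℂ)) * star U := by
    have hU : U * star U = 1 := Unitary.coe_mul_star_self _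
    conv_lhs => rw [hH.spectral_theorem, Unitary.conjStarAlgAut_apply]
    have e2 : diagonal (fun i => ((c * hH.eigenvalues i + a : ℝ) : ℂ))
        = (c : ℂ) • diagonal (RCLike.ofReal ∘ hH.eigenvalues)
          + (a : ℂ) • (1 : Matrix ι ι ℂ) := by
      ext i j
      rcases eq_or_ne i j with rfl | hij <;> simp [*]
    rw [e2, mul_add, add_mul, mul_smul_comm, smul_mul_assoc, mul_smul_comm, smul_mul_assoc,
      mul_one, hU]
  rw [e, charpoly_mul_comm, ← mul_assoc, Unitary.coe_star_mul_self, one_mul, charpoly_diagonal]

theorem slope_cst_conv {G : Matrix ι ι ℂ} (κ : ι → Fin r) (b : Fin 2) :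
    (1 / 2 : ℂ) • Cartan.pinch (base G b) κ + (1 / 4 : ℂ) • (1 : Matrix ι ι ℂ)
      = (slope b : ℂ) • Cartan.pinch G κ + (cst b : ℂ) • (1 : Matrix ι ι ℂ) := by
  unfold base slope cst
  split_ifs
  · push_cast; rfl
  · rw [Cartan.pinch_one_sub]
    push_cast
    module

/-- In the final state the potential is a potential of the pinched matrix. -/
theorem potential_final {G : Matrix ι ι ℂ} (hG : G.IsHermitian) (hd : ∀ i, G i i = 1 / 2)
    (κ : ι → Fin r) (b : Fin 2) (f : ℝ[X]) :
    potential (fam G fun b' (_ : ι) => decide (b' ≠ b)) (fun i => half (κ i)) f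
      = Cartan.potential G (fun i => Cartan.dirac (κ i)) (aff b f)
        + Fintype.card ι * f.eval (cst b) := by
  have hH : (Cartan.pinch G κ).IsHermitian := Cartan.isHermitian_pinch hG κ
  have hroots : roots (fam G fun b' (_ : ι) => decide (b' ≠ b)) (fun i => half (κ i))
      = Finset.univ.val.map fun i => slope b * hH.eigenvalues i + cst b := by
    rw [roots, echar_final hd κ b, slope_cst_conv, charpoly_affine hH,
      roots_prod _ _ (Finset.prod_ne_zero_iff.2 fun i _ => X_sub_C_ne_zero _)]
    simp only [roots_X_sub_C, Multiset.bind_singleton, Multiset.map_map, Function.comp_def,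
      Complex.ofReal_re]
  have hwt : ∀ t : ι → Fin r, Cartan.weight (fun i => Cartan.dirac (κ i)) t
      = if t = κ then 1 else 0 := fun t => by
    split_ifs with h
    · subst h; simp [Cartan.weight, Cartan.dirac]
    · obtain ⟨i, hi⟩ := Function.ne_iff.1 h
      exact Finset.prod_eq_zero (Finset.mem_univ i) (by simp [Cartan.dirac, hi])
  have hroots' : Cartan.roots G (fun i => Cartan.dirac (κ i))
      = Finset.univ.val.map fun i => hH.eigenvalues i := by
    rw [Cartan.roots, show Cartan.echar G (fun i => Cartan.dirac (κ i))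
      = (Cartan.pinch G κ).charpoly by simp [Cartan.echar, hwt, apply_ite C],
      hH.roots_charpoly_eq_eigenvalues, Multiset.map_map]
    rfl
  rw [potential, Cartan.potential, hroots, hroots', Multiset.map_map, Multiset.map_map]
  show ∑ i, f.eval (slope b * hH.eigenvalues i + cst b) = ∑ i, (aff b f).eval (hH.eigenvalues i) + _
  simp only [aff_eval, Finset.sum_sub_distrib, Finset.sum_const, Finset.card_univ, nsmul_eq_mul]
  ring

end Vale.Agent.P078.Quad
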