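import Vale.Agent.P078.Cartan.Quad.Expected
import Vale.Agent.P078.Cartan.Barrier

/-!
The root bound for uniform states of a family.
-/

namespace Vale.Agent.P078.Quad

open Polynomial

/-- Roots of the expected characteristic polynomial of a family with uniform states. -/
theorem familyRootBound : FamilyRootBound := by
  intro n R hR G α hα hG hG1 hdiag x hx heval
  have hp : ∀ s : Fin n → Fin R, pinch G s = Cartan.pinchFam G s := fun s => rfl
  simp only [echar, eval_finsetSum, eval_mul, eval_C, Vale.Agent.P078.Cartan.weight,
    Vale.Agent.P078.Cartan.uniformLaw, Finset.prod_const, ← Finset.mul_sum, hp] at heval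
  rcases mul_eq_zero.1 heval with h | h
  · exact pow_ne_zero _ (Complex.ofReal_ne_zero.2
      (one_div_ne_zero (Nat.cast_ne_zero.2 hR.ne'))) h
  · exact Cartan.familyRootBound hR G hα hG hG1 hdiag hx h

end Vale.Agent.P078.Quad
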