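import Vale.Agent.P078.Cartan.Quad.Batch
import Vale.Agent.P078.Cartan.Quad.RootBound
import Vale.Agent.P078.Cartan.Quad.Final
import Vale.Agent.P078.Cartan.Quad.Convex

/-!
The two-sided core theorem: one colouring for both spectral sides, at distance `2 / √r + 1 / r`
from one half.
-/

namespace Vale.Agent.P078.Quad

open Polynomial Function Filter Topology
open scoped ComplexOrder Real
open Vale.Agent.P078.Cartan (OrbitModel mob NearStep exists_nearStep)

/-- The two-sided core statement for windows with all diagonal entries one half. -/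
def QuadCoreStatement : Prop :=
  ∀ (Ω : Type) [TopologicalSpace Ω] [CompactSpace Ω] [T2Space Ω] [TotallyDisconnectedSpace Ω]
    (L r : ℕ) (t δ : ℝ) (O : OrbitModel Ω L (1 / 2)), 0 < r →
    (∀ w ω, O.ent w w ω = 1 / 2) → 1 / 2 + 2 / Real.sqrt r + 1 / r < t → 0 < δ →
    ∃ κ : Ω → Fin r, IsLocallyConstant κ ∧
      (∃ f : ℝ[X], (∀ x ∈ Set.Icc (0 : ℝ) 1, -δ ≤ f.eval x) ∧
        (∀ x ∈ Set.Icc t 1, 1 ≤ f.eval x) ∧
        ∃ D : C(Ω, ℝ), (∀ ω, D ω = O.polyDiag κ f ω) ∧ O.μ D ≤ δ) ∧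
      (∃ f : ℝ[X], (∀ x ∈ Set.Icc (0 : ℝ) 1, -δ ≤ f.eval x) ∧
        (∀ x ∈ Set.Icc (0 : ℝ) (1 - t), 1 ≤ f.eval x) ∧
        ∃ D : C(Ω, ℝ), (∀ ω, D ω = O.polyDiag κ f ω) ∧ O.μ D ≤ δ)

theorem mob_card_mul {X : Type*} [DecidableEq X] (c : ℝ) {W : Finset X} {v : X} (hv : v ∈ W) :
    ∑ S ∈ W.powerset with v ∈ S, mob (fun T => c * (T.card : ℝ)) S / S.card = c := by
  have h : ∀ S : Finset X, v ∈ S → S ≠ {v} → mob (fun T => c * (T.card : ℝ)) S = 0 := by
    intro S hvS hne
    have e : mob (fun T => c * (T.card : ℝ)) S =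
        mob (fun T => ∑ x ∈ S, if x ∈ T then c else 0) S := by
      refine Cartan.mob_congr fun T hT => ?_
      rw [← Finset.sum_filter, Finset.sum_const, nsmul_eq_mul,
        Finset.filter_mem_eq_inter, Finset.inter_eq_right.2 hT]
      ring
    rw [e, Cartan.mob_sum]
    refine Finset.sum_eq_zero fun x hx => ?_
    obtain ⟨y, hy, hyx⟩ : ∃ y ∈ S, y ≠ x := by
      by_contra hcon
      push Not at hcon
      refine hne (Finset.eq_singleton_iff_unique_mem.2 ⟨hvS, fun y hy => ?_⟩)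
      rw [hcon y hy, hcon v hvS]
    exact Cartan.mob_eq_zero_of_insensitive hy fun T _ => by simp [Ne.symm hyx]
  rw [Finset.sum_eq_single {v}]
  · have e : mob (fun T : Finset X => c * (T.card : ℝ)) {v} = c := by
      rw [← LawfulSingleton.insert_empty_eq (x := v),
        Cartan.mob_insert _ (Finset.notMem_empty v)]
      simp [mob]
    simp [e]
  · intro S hS hne
    rw [h S (Finset.mem_filter.1 hS).2 hne, zero_div]
  · intro hn
    exact absurd (by simp [hv]) hn

theorem sqrt_bound {r : ℕ} (hr : 0 < r) :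
    (1 / Real.sqrt (r * 2 : ℕ) + Real.sqrt (1 / 2)) ^ 2 =
      1 / 2 + 1 / Real.sqrt r + 1 / (2 * r) := by
  have h2 : 0 < Real.sqrt 2 := Real.sqrt_pos.2 two_pos
  have hr' : (0 : ℝ) < Real.sqrt r := Real.sqrt_pos.2 (Nat.cast_pos.2 hr)
  have e2 := Real.sq_sqrt (show (0 : ℝ) ≤ 2 by norm_num)
  have er := Real.sq_sqrt (Nat.cast_nonneg r : (0 : ℝ) ≤ r)
  push_cast
  rw [Real.sqrt_mul (Nat.cast_nonneg r), Real.sqrt_div zero_le_one, Real.sqrt_one]
  calc (1 / (Real.sqrt r * Real.sqrt 2) + 1 / Real.sqrt 2) ^ 2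
      = 1 / Real.sqrt 2 ^ 2 + 2 / (Real.sqrt r * Real.sqrt 2 ^ 2) +
          1 / (Real.sqrt r ^ 2 * Real.sqrt 2 ^ 2) := by field_simp; ring
    _ = _ := by rw [e2, er]; field_simp

theorem natDegree_le_profile {f φ : ℝ[X]} {γ : ℝ} (h : derivative φ = f + C γ * X)
    (hφ : 0 < φ.natDegree) : f.natDegree ≤ φ.natDegree := by
  rcases le_or_gt f.natDegree 1 with h1 | h1
  · exact h1.trans hφ
  · have e : (f + C γ * X).natDegree = f.natDegree := by
      refine natDegree_add_eq_left_of_natDegree_lt ?_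
      exact (natDegree_C_mul_le _ _).trans_lt (by simpa using h1)
    have := natDegree_derivative_lt hφ.ne'
    rw [h, e] at this
    exact this.le

section

variable {Ω : Type} [TopologicalSpace Ω] [CompactSpace Ω] [T2Space Ω] [TotallyDisconnectedSpace Ω]
  [DecidableEq Ω]
  {L : ℕ} {α : ℝ} (O : OrbitModel Ω L α) {r : ℕ}

/-- The end state of a side: the trace of a polynomial of the pinched element. -/
theorem exists_final (hO : HalfDiag O) {κ : Ω → Fin r} (hκ : IsLocallyConstant κ) (b : Fin 2)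
    {φ : ℝ[X]} (hφ0 : φ.eval 0 = 0) {w : Ω → Fin (r * 2) → ℝ} (hwc : IsLocallyConstant w)
    (hw : IsLaw w) (hwκ : ∀ ω, w ω = half (κ ω)) {d : Fin 2 → Ω → Bool}
    (hdc : ∀ b', IsLocallyConstant (d b')) (hd : ∀ b' ω, d b' ω = decide (b' ≠ b)) :
    ∃ D : C(Ω, ℝ),
      (∀ ω, D ω = O.polyDiag κ (φ.comp (C (slope b) * X + C (cst b))) ω) ∧
      O.μ D = O.μ (shareC O hO hwc hw hdc hφ0 φ.natDegree) := by
  set g := aff b φ with hg
  have hg0 : g.eval 0 = 0 := aff_eval_zero b φ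
  have hgm : g.natDegree = φ.natDegree := natDegree_aff b φ
  let u : Ω → Fin r → ℝ := fun ω => Cartan.dirac (κ ω)
  have huc : IsLocallyConstant u := hκ.comp Cartan.dirac
  have hu : IsLaw u := fun ω => ⟨fun c => by simp only [u, Cartan.dirac]; split_ifs <;> simp,
    by simp [u, Cartan.dirac]⟩
  obtain ⟨F, hF, hμF⟩ := O.exists_det_transport hκ hg0 huc hu fun _ => rfl
  have hkey : ∀ T, O.SameOrbit T →
      V O w d φ T = O.V u g T + φ.eval (cst b) * (T.card : ℝ) := by
    intro T hT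
    obtain ⟨ψ, ω, hψ⟩ := O.exists_labels hT
    have hinj : Injective fun a : T => O.act (ψ a) ω := fun a b e =>
      Subtype.ext (by simpa [hψ] using e)
    have himg : (Finset.univ.image fun a : T => O.act (ψ a) ω) = T := by
      ext x; simp [hψ]
    have h1 := V_eq O w d φ ψ ω hinj
    have h2 := O.V_eq u g ψ ω hinj
    rw [himg] at h1 h2
    rw [h1, h2, famAt, show (fun b' (a : T) => d b' (O.act (ψ a) ω)) =
        fun b' (_ : T) => decide (b' ≠ b) from funext fun b' => funext fun a => hd b' _,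
      show (fun a : T => w (O.act (ψ a) ω)) = fun a : T => half (κ (O.act (ψ a) ω)) from
        funext fun a => hwκ _,
      potential_final (O.posSemidef_lblMat hinj).1.1 (fun _ => hO _ _) _ b φ, Fintype.card_coe,
      mul_comm]
  have hshare : shareC O hO hwc hw hdc hφ0 φ.natDegree =
      O.shareC huc hu hg0 g.natDegree + ContinuousMap.const Ω (φ.eval (cst b)) := by
    ext ω
    rw [ContinuousMap.add_apply, ContinuousMap.const_apply, shareC_apply, O.shareC_apply, hgm,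
      ← mob_card_mul (φ.eval (cst b)) (O.self_mem_ball ω φ.natDegree), ← Finset.sum_add_distrib]
    refine Finset.sum_congr rfl fun S hS => ?_
    simp only [Finset.mem_filter, Finset.mem_powerset] at hS
    rw [← add_div, ← Cartan.mob_add]
    congr 1
    exact Cartan.mob_congr fun T hT => hkey T (O.sameOrbit_of_subset_ball (hT.trans hS.1))
  refine ⟨F + ContinuousMap.const Ω (φ.eval (cst b)), fun ω => ?_, ?_⟩
  · have e : φ.comp (C (slope b) * X + C (cst b)) = g + C (φ.eval (cst b)) := by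
      simp [hg, aff]
    rw [O.polyDiag_eq κ _ ω g.natDegree (by rw [e, natDegree_add_C]), ContinuousMap.add_apply,
      ContinuousMap.const_apply, hF, O.Ψ_ball, e]
    simp only [Cartan.diagVal, map_add, aeval_C, Matrix.add_apply, Complex.add_re,
      Matrix.algebraMap_eq_diagonal, Matrix.diagonal_apply_eq]
    simp
  · rw [map_add, O.μ_const, hμF, hshare, map_add, O.μ_const]

end

/-- The polynomial measuring the tail of one side. -/
noncomputable def sidePoly (k : ℝ) (φ : ℝ[X]) (b : Fin 2) : ℝ[X] :=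
  C k * φ.comp (C (slope b) * X + C (cst b))

/-- The scalar data of the construction. -/
structure Data (r : ℕ) (t δ : ℝ) where
  /-- The position of the step. -/
  t₁ : ℝ
  /-- A bound above all uniform roots and below the step. -/
  t₀ : ℝ
  /-- The width of the step. -/
  η : ℝ
  /-- The error of the approximation. -/
  γ : ℝ
  /-- The scaling. -/
  k : ℝ
  /-- The approximate step. -/
  f : ℝ[X]
  /-- The convex profile. -/
  φ : ℝ[X]
  bound : (1 / Real.sqrt (r * 2 : ℕ) + Real.sqrt (1 / 2)) ^ 2 ≤ t₀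
  lt : t₀ < t₁
  η_pos : 0 < η
  γ_pos : 0 < γ
  k_nonneg : 0 ≤ k
  near : NearStep t₁ η γ f
  φ_zero : φ.eval 0 = 0
  conv : ConvexOn ℝ (Set.Icc (0 : ℝ) 1) fun x => φ.eval x
  φ_le : ∀ x ∈ Set.Icc (0 : ℝ) 1, φ.eval x ≤ f.eval x + 3 * γ
  deg : f.natDegree ≤ φ.natDegree
  low : ∀ (b : Fin 2), ∀ x ∈ Set.Icc (0 : ℝ) 1, -δ ≤ (sidePoly k φ b).eval x
  high₀ : ∀ x ∈ Set.Icc t 1, 1 ≤ (sidePoly k φ 0).eval x
  high₁ : ∀ x ∈ Set.Icc (0 : ℝ) (1 - t), 1 ≤ (sidePoly k φ 1).eval x
  small : k * (γ + η / (π * (t₁ - t₀) ^ 2) + 6 * γ) ≤ δ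

theorem slope_cst_mem (b : Fin 2) {x : ℝ} (hx : x ∈ Set.Icc (0 : ℝ) 1) :
    slope b * x + cst b ∈ Set.Icc (0 : ℝ) 1 := by
  simp only [slope, cst]
  split_ifs <;> exact ⟨by linarith [hx.1, hx.2], by linarith [hx.1, hx.2]⟩

theorem exists_data {r : ℕ} (hr : 0 < r) {t δ : ℝ} (ht : 1 / 2 + 2 / Real.sqrt r + 1 / r < t)
    (hδ : 0 < δ) : Nonempty (Data r t δ) := by
  have hpi := Real.pi_pos
  have hr' : (0 : ℝ) < Real.sqrt r := Real.sqrt_pos.2 (Nat.cast_pos.2 hr)
  set s := (1 / Real.sqrt (r * 2 : ℕ) + Real.sqrt (1 / 2)) ^ 2 with hs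
  set T := (t + 1 / 2) / 2 with hT
  have hsT : s < T := by
    rw [hs, sqrt_bound hr, hT]
    have e1 : 2 / Real.sqrt r = 2 * (1 / Real.sqrt r) := by ring
    have e2 : 1 / (r : ℝ) = 2 * (1 / (2 * r)) := by field_simp
    linarith
  have hs0 : 0 ≤ s := sq_nonneg _
  set t₁ := (s + T) / 2 with ht₁
  set t₀ := (s + t₁) / 2 with ht₀
  have hst₀ : s ≤ t₀ := by linarith
  have ht₀₁ : t₀ < t₁ := by linarith
  have ht₁T : t₁ < T := by linarith
  have ht₁0 : 0 < t₁ := by linarith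
  have hthalf : 1 / 2 < t := by
    have : 0 ≤ 2 / Real.sqrt r + 1 / (r : ℝ) := by positivity
    linarith
  set c₀ := (T - t₁) / 10 with hc₀
  have hc₀0 : 0 < c₀ := by rw [hc₀]; linarith
  have hd2 : 0 < π * (t₁ - t₀) ^ 2 := by
    have : 0 < t₁ - t₀ := by linarith
    positivity
  set γ := min (1 / 40) (min ((T - t₁) / 20) (c₀ * δ / 20)) with hγdef
  set η := min t₁ (c₀ * δ * (π * (t₁ - t₀) ^ 2) / 2) with hηdef
  have hγ : 0 < γ := lt_min (by norm_num) (lt_min (by linarith) (by positivity))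
  have hγ1 : γ ≤ 1 / 40 := min_le_left _ _
  have hγ2 : γ ≤ (T - t₁) / 20 := (min_le_right _ _).trans (min_le_left _ _)
  have hγ3 : γ ≤ c₀ * δ / 20 := (min_le_right _ _).trans (min_le_right _ _)
  have hη : 0 < η := lt_min ht₁0 (by positivity)
  have hη2 : η / (π * (t₁ - t₀) ^ 2) ≤ c₀ * δ / 2 := by
    rw [div_le_iff₀ hd2]
    exact (min_le_right _ _).trans (le_of_eq (by ring))
  by_cases hT1 : 1 < T
  · -- no spectrum beyond the threshold
    have hf : NearStep (s + 3) γ γ (0 : ℝ[X]) := ⟨by simp, fun x hx => by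
      rw [derivative_zero, eval_zero, zero_sub, abs_neg,
        abs_of_nonneg (Cartan.step'_nonneg hγ x)]
      refine (Cartan.step'_le (t₀ := 1) hγ (by linarith) hx.2).trans (div_le_self hγ.le ?_)
      nlinarith [Real.pi_gt_three, sq_nonneg (s + 3 - 1)]⟩
    refine ⟨⟨s + 3, s + 1, γ, γ, 0, 0, 0, by linarith, by linarith, hγ, hγ, le_rfl, hf, by simp,
      by simpa using convexOn_const (0 : ℝ) (convex_Icc (0 : ℝ) 1),
      fun x _ => by simp [hγ.le], le_rfl, fun b x _ => by simp [sidePoly, hδ.le],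
      fun x hx => ?_, fun x hx => ?_, by simp [hδ.le]⟩⟩
    · exfalso; linarith [hx.1, hx.2]
    · exfalso; linarith [hx.1, hx.2]
  push Not at hT1
  obtain ⟨f, hf⟩ := exists_nearStep (t := t₁) hη hγ
  obtain ⟨φ, hφ0, hφd, hconv, hφle, hφlow, hφbig⟩ := exists_convex_profile hf hη hγ.le
  have hbig : ∀ x ∈ Set.Icc T 1, c₀ ≤ φ.eval x := fun x hx => by
    have h1 := hφbig (min_le_left _ _) x ⟨by linarith [hx.1], hx.2⟩ (by linarith [hx.1])
    have h2 : (T - t₁) * (1 / 5) ≤ (x - t₁) * (1 / 4 - 2 * γ) :=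
      mul_le_mul (by linarith [hx.1]) (by linarith) (by norm_num) (by linarith [hx.1])
    linarith
  have hφdeg : 0 < φ.natDegree := by
    by_contra h
    have h' : φ.natDegree = 0 := by omega
    have h1 := hbig 1 ⟨hT1, le_rfl⟩
    rw [eq_C_of_natDegree_eq_zero h', eval_C] at h1
    rw [eq_C_of_natDegree_eq_zero h', eval_C] at hφ0
    linarith
  have he : ∀ (b : Fin 2) (x : ℝ),
      (sidePoly (1 / c₀) φ b).eval x = φ.eval (slope b * x + cst b) / c₀ := fun b x => by
    simp only [sidePoly, eval_mul, eval_C, eval_comp, eval_add, eval_X]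
    rw [one_div, inv_mul_eq_div]
  refine ⟨⟨t₁, t₀, η, γ, 1 / c₀, f, φ, hst₀, ht₀₁, hη, hγ, (by positivity), hf, hφ0, hconv, hφle,
    natDegree_le_profile hφd hφdeg, fun b x hx => ?_, fun x hx => ?_, fun x hx => ?_, ?_⟩⟩
  · rw [he, le_div_iff₀ hc₀0]
    have h1 := hφlow _ (slope_cst_mem b hx)
    nlinarith
  · have hx' : x ∈ Set.Icc (0 : ℝ) 1 := ⟨by linarith [hx.1], hx.2⟩
    rw [he, le_div_iff₀ hc₀0, one_mul]
    refine hbig _ ⟨?_, (slope_cst_mem 0 hx').2⟩
    rw [show slope 0 = 1 / 2 from if_pos rfl, show cst 0 = 1 / 4 from if_pos rfl, hT]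
    linarith [hx.1]
  · have hx' : x ∈ Set.Icc (0 : ℝ) 1 := ⟨hx.1, by linarith [hx.2]⟩
    rw [he, le_div_iff₀ hc₀0, one_mul]
    refine hbig _ ⟨?_, (slope_cst_mem 1 hx').2⟩
    simp only [slope, cst, show (1 : Fin 2) ≠ 0 by decide, if_false, hT]
    linarith [hx.2]
  · rw [one_div, inv_mul_eq_div, div_le_iff₀ hc₀0]
    nlinarith

section

variable {Ω : Type} [TopologicalSpace Ω] [CompactSpace Ω] [T2Space Ω] [TotallyDisconnectedSpace Ω]
  [DecidableEq Ω]
  {L : ℕ} {α : ℝ} (O : OrbitModel Ω L α) {r : ℕ}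

theorem shareC_congr (hO : HalfDiag O) {w w' : Ω → Fin (r * 2) → ℝ} (h : w = w')
    {d : Fin 2 → Ω → Bool} (hwc : IsLocallyConstant w) (hw : IsLaw w)
    (hwc' : IsLocallyConstant w') (hw' : IsLaw w') (hdc : ∀ b, IsLocallyConstant (d b))
    {f : ℝ[X]} (hf : f.eval 0 = 0) (m : ℕ) :
    shareC O hO hwc hw hdc hf m = shareC O hO hwc' hw' hdc hf m := by
  subst h
  rfl

theorem isLaw_half_comp (κ : Ω → Fin r) : IsLaw fun ω => half (κ ω) := fun _ => isLaw_half _

/-- From a colouring with a small increment to the trace bound of a side. -/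
theorem side_bound (hO : HalfDiag O) {κ : Ω → Fin r} (hκ : IsLocallyConstant κ) (b : Fin 2)
    {t δ : ℝ} (P : Data r t δ) {N : ℕ} {B : Ω → Fin N} (hB : IsLocallyConstant B)
    (hsep : ∀ u v, v ∈ O.ball u P.φ.natDegree → B u = B v → u = v)
    (hsmall : ∀ (hdc : ∀ b' : Fin 2, IsLocallyConstant fun _ : Ω => (fun _ : Fin 2 => false) b'),
      O.μ (shareC O hO (hκ.comp half) (isLaw_half_comp κ) hdc P.near.zero P.φ.natDegree) ≤
        P.γ + P.η / (π * (P.t₁ - P.t₀) ^ 2) + 3 * P.γ) :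
    ∃ D : C(Ω, ℝ), (∀ ω, D ω = O.polyDiag κ (sidePoly P.k P.φ b) ω) ∧ O.μ D ≤ δ := by
  set m := P.φ.natDegree
  have hwc : IsLocallyConstant fun ω => half (κ ω) := hκ.comp half
  have hw := isLaw_half_comp κ
  let d₀ : Fin 2 → Ω → Bool := fun b' _ => (fun _ : Fin 2 => false) b'
  have hd₀ : ∀ b', IsLocallyConstant (d₀ b') := fun _ => IsLocallyConstant.const _
  set E := P.γ + P.η / (π * (P.t₁ - P.t₀) ^ 2) + 6 * P.γ
  have hφshare : O.μ (shareC O hO hwc hw hd₀ P.φ_zero m) ≤ E := by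
    have h1 := μ_share_compare O hO P.near.zero P.φ_zero (c := 3 * P.γ) P.φ_le P.deg le_rfl
      hwc hw hd₀
    have h2 := hsmall hd₀
    linarith
  have dec : ∀ J : Finset (Fin N), ∃ (d : Fin 2 → Ω → Bool)
      (hdc : ∀ b', IsLocallyConstant (d b')),
      (∀ b' ω, d b' ω = (decide (B ω ∈ J) && decide (b' ≠ b))) ∧
      O.μ (shareC O hO hwc hw hdc P.φ_zero m) ≤ E := by
    intro J
    induction J using Finset.induction_on with
    | empty => exact ⟨d₀, hd₀, fun b' ω => by simp [d₀], hφshare⟩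
    | @insert i J hi ih =>
      obtain ⟨d, hdc, hd, hle⟩ := ih
      let d' : Fin 2 → Ω → Bool := fun b' ω => decide (B ω ∈ insert i J) && decide (b' ≠ b)
      have hdc' : ∀ b', IsLocallyConstant (d' b') := fun b' =>
        hB.comp fun j => decide (j ∈ insert i J) && decide (b' ≠ b)
      refine ⟨d', hdc', fun _ _ => rfl, le_trans ?_ hle⟩
      refine μ_decouple_step_le O hO P.φ_zero P.conv le_rfl hB hsep i b hwc hw hdc hdc'
        fun b' ω => ?_
      simp only [d', hd, Finset.mem_insert, Bool.decide_or]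
      cases decide (B ω = i) <;> cases decide (B ω ∈ J) <;> cases decide (b' ≠ b) <;> rfl
  obtain ⟨d, hdc, hd, hdle⟩ := dec Finset.univ
  obtain ⟨D, hD, hμD⟩ := exists_final O hO hκ b P.φ_zero hwc hw (fun _ => rfl) hdc
    fun b' ω => by simp [hd]
  refine ⟨P.k • D, fun ω => ?_, ?_⟩
  · rw [ContinuousMap.smul_apply, hD, smul_eq_mul, sidePoly]
    set g₀ := P.φ.comp (C (slope b) * X + C (cst b))
    rcases eq_or_ne P.k 0 with hk | hk
    · rw [hk, map_zero, zero_mul, zero_mul, O.polyDiag_eq _ 0 ω 0 natDegree_zero]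
      simp [Cartan.diagVal]
    · rw [O.polyDiag_eq _ (C P.k * g₀) ω g₀.natDegree (natDegree_C_mul hk),
        O.polyDiag_eq _ g₀ ω g₀.natDegree rfl]
      simp only [Cartan.diagVal, map_mul, aeval_C, Matrix.algebraMap_eq_diagonal,
        Matrix.diagonal_mul]
      simp
  · rw [map_smul, smul_eq_mul, hμD]
    exact (mul_le_mul_of_nonneg_left hdle P.k_nonneg).trans P.small

end

/-- The two-sided core theorem. -/
theorem quadCoreStatement : QuadCoreStatement := by
  intro Ω _ _ _ _ L r t δ O hr hO ht hδ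
  classical
  obtain ⟨P⟩ := exists_data hr ht hδ
  set m := P.φ.natDegree
  obtain ⟨N, B, hBc, hsep⟩ := O.exists_batches m
  let d₀ : Fin 2 → Ω → Bool := fun b _ => (fun _ : Fin 2 => false) b
  have hd₀ : ∀ b, IsLocallyConstant (d₀ b) := fun b => IsLocallyConstant.const _
  have main : ∀ J : Finset (Fin N), ∃ (w : Ω → Fin (r * 2) → ℝ) (hwc : IsLocallyConstant w)
      (hw : IsLaw w), (∀ ω, B ω ∈ J → ∃ c, w ω = half c) ∧
      (∀ ω, B ω ∉ J → w ω = uniformLaw Unit (r * 2) ()) ∧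
      O.μ (shareC O hO hwc hw hd₀ P.near.zero m) ≤ P.γ + P.η / (π * (P.t₁ - P.t₀) ^ 2) +
        3 * P.γ * ∑ j ∈ J, O.μ (OrbitModel.batchC hBc j) := by
    intro J
    induction J using Finset.induction_on with
    | empty =>
      have hwc : IsLocallyConstant fun _ : Ω => uniformLaw Unit (r * 2) () :=
        IsLocallyConstant.const _
      have hw : IsLaw fun _ : Ω => uniformLaw Unit (r * 2) () :=
        fun _ => Cartan.isLaw_uniform (Nat.mul_pos hr two_pos) ()
      have h0 := μ_share_uniform_le O hO familyRootBound P.near P.η_pos hr P.bound P.lt m hwc hw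
        hd₀
      refine ⟨fun _ : Ω => uniformLaw Unit (r * 2) (), hwc, hw,
        fun ω h => absurd h (Finset.notMem_empty _), fun ω _ => rfl, ?_⟩
      rw [Finset.sum_empty, mul_zero, add_zero]
      exact h0
    | @insert i J hi ih =>
      obtain ⟨w, hwc, hw, hhalf, hunif, hle⟩ := ih
      obtain ⟨v, hvc, hv, hsame, hnew, hle'⟩ := exists_colour_step O hO hr P.near P.η_pos P.γ_pos
        P.deg hBc hsep i hwc hw hd₀ fun ω h => hunif ω (h ▸ hi)
      refine ⟨v, hvc, hv, fun ω hω => ?_, fun ω hω => ?_, ?_⟩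
      · rcases eq_or_ne (B ω) i with h | h
        · exact hnew ω h
        · rw [hsame ω h]
          exact hhalf ω ((Finset.mem_insert.1 hω).resolve_left h)
      · rw [Finset.mem_insert, not_or] at hω
        rw [hsame ω hω.1]
        exact hunif ω hω.2
      · rw [Finset.sum_insert hi]
        linarith
  obtain ⟨w, hwc, hw, hhalf, -, hle⟩ := main Finset.univ
  have : Nonempty (Fin r) := ⟨⟨0, hr⟩⟩
  let pick : (Fin (r * 2) → ℝ) → Fin r := fun v =>
    if h : ∃ c, v = half c then h.choose else Classical.arbitrary _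
  have hpick : w = fun ω => half (pick (w ω)) := funext fun ω => by
    have h := hhalf ω (Finset.mem_univ _)
    simp only [pick, dif_pos h]
    exact h.choose_spec
  have hsum : ∑ j, O.μ (OrbitModel.batchC hBc j) = 1 := by
    rw [← map_sum, OrbitModel.sum_batchC hBc, O.μ_one]
  rw [hsum, mul_one] at hle
  have hκ : IsLocallyConstant (pick ∘ w) := hwc.comp pick
  have hsmall : ∀ hdc : ∀ b' : Fin 2, IsLocallyConstant fun _ : Ω => (fun _ : Fin 2 => false) b',
      O.μ (shareC O hO (hκ.comp half) (isLaw_half_comp (pick ∘ w)) hdc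
      P.near.zero m) ≤ P.γ + P.η / (π * (P.t₁ - P.t₀) ^ 2) + 3 * P.γ := fun hdc => by
    rw [shareC_congr (r := r) (w := fun ω => half ((pick ∘ w) ω)) (w' := w) O hO hpick.symm
      _ _ hwc hw]
    exact hle
  exact ⟨pick ∘ w, hκ,
    ⟨_, P.low 0, P.high₀, side_bound O hO hκ 0 P hBc hsep hsmall⟩,
    ⟨_, P.low 1, P.high₁, side_bound O hO hκ 1 P hBc hsep hsmall⟩⟩

end Vale.Agent.P078.Quad
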