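import Vale.Agent.P078.Cartan.Quad.RandomRule
import Vale.Agent.P078.Cartan.Quad.Core

/-!
The random core: colours read off an arbitrary assignment of permutations at finitely many
translates, equivariantly, with trace bounds that hold for every assignment.
-/

namespace Vale.Agent.P078.Quad

open Polynomial Function Filter Topology
open scoped ComplexOrder
open Vale.Agent.P078.Cartan (OrbitModel NearStep exists_nearStep)
open Vale.Agent.P078.Cartan.OrbitModel (wordsLE mem_wordsLE)

set_option linter.unusedSectionVars false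

/-- The statement of the random core. -/
def RandomCoreStatement : Prop :=
  ∀ (Ω : Type) [TopologicalSpace Ω] [CompactSpace Ω] [T2Space Ω] [TotallyDisconnectedSpace Ω]
    (L r : ℕ) (t δ : ℝ) (O : OrbitModel Ω L (1 / 2)), 0 < r →
    (∀ w ω, O.ent w w ω = 1 / 2) → 1 / 2 + 2 / Real.sqrt r + 1 / r < t → 0 < δ →
    ∃ f g : ℝ[X],
      ((∀ x ∈ Set.Icc (0 : ℝ) 1, -δ ≤ f.eval x) ∧ ∀ x ∈ Set.Icc t 1, 1 ≤ f.eval x) ∧
      ((∀ x ∈ Set.Icc (0 : ℝ) 1, -δ ≤ g.eval x) ∧
        ∀ x ∈ Set.Icc (0 : ℝ) (1 - t), 1 ≤ g.eval x) ∧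
      ∃ (M : ℕ) (words : Fin M → List (Fin L))
        (F : Ω → (Fin M → Equiv.Perm (Fin r)) → Fin r),
        IsLocallyConstant F ∧
        (∀ ω (σ : Equiv.Perm (Fin r)) (p : Fin M → Equiv.Perm (Fin r)),
          F ω (fun j => σ * p j) = σ (F ω p)) ∧
        ∀ π : Ω → Equiv.Perm (Fin r), IsLocallyConstant π →
          IsLocallyConstant (fun ω => F ω fun j => π (O.act (words j) ω)) ∧
          (∃ D : C(Ω, ℝ), (∀ ω, D ω =
              O.polyDiag (fun u => F u fun j => π (O.act (words j) u)) f ω) ∧ O.μ D ≤ δ) ∧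
          (∃ D : C(Ω, ℝ), (∀ ω, D ω =
              O.polyDiag (fun u => F u fun j => π (O.act (words j) u)) g ω) ∧ O.μ D ≤ δ)

section

variable {Ω : Type} [TopologicalSpace Ω] [CompactSpace Ω] [T2Space Ω] [TotallyDisconnectedSpace Ω]
  [DecidableEq Ω]
  {L : ℕ} {α : ℝ} (O : OrbitModel Ω L α) {r : ℕ} [NeZero r]

/-- The colours after the first batches: a point of a batch takes the first good colour, given
the colours of the earlier batches in its window. -/
noncomputable def col (m : ℕ) {N : ℕ} (B : Ω → Fin N) (G : Ω → Rule L r) :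
    ℕ → Ω → (List (Fin L) → Equiv.Perm (Fin r)) → Option (Fin r)
  | 0, _, _ => none
  | k + 1, ω, q => if (B ω : ℕ) = k then
      some (pick (q []) (G ω fun x =>
        if x ∈ wordsLE L m then col m B G k (O.act x ω) (fun y => q (y ++ x)) else none))
    else col m B G k ω q

variable {m N : ℕ} {B : Ω → Fin N} {G : Ω → Rule L r}

theorem col_none : ∀ k (ω : Ω) (q : List (Fin L) → Equiv.Perm (Fin r)),
    k ≤ (B ω : ℕ) → col O m B G k ω q = none
  | 0, _, _, _ => rfl
  | k + 1, ω, q, h => by
    rw [col, if_neg (by omega)]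
    exact col_none k ω q (by omega)

theorem col_some : ∀ k (ω : Ω) (q : List (Fin L) → Equiv.Perm (Fin r)),
    (B ω : ℕ) < k → ∃ c, col O m B G k ω q = some c
  | 0, _, _, h => absurd h (Nat.not_lt_zero _)
  | k + 1, ω, q, h => by
    rw [col]
    split_ifs with h'
    · exact ⟨_, rfl⟩
    · exact col_some k ω q (by omega)

theorem col_congr : ∀ k (ω : Ω) (q q' : List (Fin L) → Equiv.Perm (Fin r)),
    (∀ x, x.length ≤ k * m → q x = q' x) → col O m B G k ω q = col O m B G k ω q'
  | 0, _, _, _, _ => rfl
  | k + 1, ω, q, q', h => by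
    have hk : (k + 1) * m = k * m + m := Nat.succ_mul k m
    rw [col, col, h [] (Nat.zero_le _),
      col_congr k ω q q' fun x hx => h x (by omega),
      show (fun x => if x ∈ wordsLE L m then col O m B G k (O.act x ω) (fun y => q (y ++ x))
        else none) = fun x => if x ∈ wordsLE L m then col O m B G k (O.act x ω)
          (fun y => q' (y ++ x)) else none from funext fun x => by
        split_ifs with hx
        · exact col_congr k _ _ _ fun y hy =>
            h _ (by rw [List.length_append]; have := mem_wordsLE.1 hx; omega)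
        · rfl]

theorem col_equivariant (hG : ∀ ω, (G ω).Equivariant) (σ : Equiv.Perm (Fin r)) :
    ∀ k (ω : Ω) (q : List (Fin L) → Equiv.Perm (Fin r)),
      col O m B G k ω (fun x => σ * q x) = (col O m B G k ω q).map σ
  | 0, _, _ => rfl
  | k + 1, ω, q => by
    rw [col, col, col_equivariant hG σ k ω q]
    split_ifs
    · rw [Option.map_some, ← pick_map, ← hG ω σ]
      refine congrArg (fun P => some (pick (σ * q []) (G ω P))) (funext fun x => ?_)
      split_ifs
      · exact col_equivariant hG σ k _ _
      · rfl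
    · rfl

theorem isLocallyConstant_col (hB : IsLocallyConstant B) (hG : IsLocallyConstant G) :
    ∀ k, IsLocallyConstant (col O m B G k)
  | 0 => IsLocallyConstant.const _
  | k + 1 => by
    have ih := isLocallyConstant_col hB hG k
    rw [IsLocallyConstant.iff_eventually_eq]
    intro ω₀
    filter_upwards [hB.eventually_eq ω₀, hG.eventually_eq ω₀, ih.eventually_eq ω₀,
      (wordsLE L m).eventually_all.2 fun x _ =>
        (ih.comp_continuous (O.continuous_act x)).eventually_eq ω₀] with ω h1 h2 h3 h4
    funext q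
    rw [col, col, h1, h2, h3]
    split_ifs
    · refine congrArg (fun P => some (pick (q []) (G ω₀ P))) (funext fun x => ?_)
      split_ifs with hx
      · exact congrFun (h4 x hx) _
      · rfl
    · rfl

/-- The laws after `k` batches for an assignment of permutations. -/
noncomputable def stageW (m : ℕ) {N : ℕ} (B : Ω → Fin N) (G : Ω → Rule L r)
    (π : Ω → Equiv.Perm (Fin r)) (k : ℕ) (ω : Ω) : Fin (r * 2) → ℝ :=
  lawOf (col O m B G k ω fun x => π (O.act x ω))

theorem isLaw_stageW (hr : 0 < r) (π : Ω → Equiv.Perm (Fin r)) (k : ℕ) :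
    IsLaw (stageW O m B G π k) := fun _ => isLaw_lawOf hr _

theorem isLocallyConstant_stageW (hB : IsLocallyConstant B) (hG : IsLocallyConstant G)
    {π : Ω → Equiv.Perm (Fin r)} (hπ : IsLocallyConstant π) (k : ℕ) :
    IsLocallyConstant (stageW O m B G π k) := by
  rw [IsLocallyConstant.iff_eventually_eq]
  intro ω₀
  filter_upwards [(isLocallyConstant_col O hB hG k).eventually_eq ω₀,
    (wordsLE L (k * m)).eventually_all.2 fun x _ =>
      (hπ.comp_continuous (O.continuous_act x)).eventually_eq ω₀] with ω h1 h2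
  unfold stageW
  rw [h1]
  exact congrArg lawOf (col_congr O k ω₀ _ _ fun x hx => h2 x (mem_wordsLE.2 hx))

/-- The rule keeps the traced averaged increment small, whatever the permutations are. -/
theorem μ_stage_le (hO : HalfDiag O) (hr : 0 < r) {t t₀ η γ : ℝ} {f : ℝ[X]}
    (hf : NearStep t η γ f) (hη : 0 < η)
    (ht₀ : (1 / Real.sqrt (r * 2 : ℕ) + Real.sqrt (1 / 2)) ^ 2 ≤ t₀) (ht : t₀ < t)
    (hm : f.natDegree ≤ m) (hB : IsLocallyConstant B)
    (hsep : ∀ u v, v ∈ O.ball u m → B u = B v → u = v) (hG : IsLocallyConstant G)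
    (hgood : ∀ ω (P : Pattern L r) (w : Ω → Fin (r * 2) → ℝ),
      (∀ x ∈ wordsLE L m, w (O.act x ω) = lawOf (P x)) → P [] = none →
      (G ω P).Nonempty ∧ ∀ c ∈ G ω P,
        V O (update w ω (half c)) noDec f (O.ball ω m) - V O w noDec f (O.ball ω m) ≤ 3 * γ)
    {π : Ω → Equiv.Perm (Fin r)} (hπ : IsLocallyConstant π) :
    ∀ k ≤ N, O.μ (shareC O hO (isLocallyConstant_stageW O (m := m) hB hG hπ k)
        (isLaw_stageW O (m := m) (B := B) (G := G) hr π k) isLocallyConstant_noDec hf.zero m) ≤
      γ + η / (Real.pi * (t - t₀) ^ 2) +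
      3 * γ * ∑ j ∈ Finset.univ.filter (fun j : Fin N => (j : ℕ) < k),
        O.μ (OrbitModel.batchC hB j) := by
  intro k
  induction k with
  | zero =>
    intro _
    have hwc : IsLocallyConstant fun _ : Ω => uniformLaw Unit (r * 2) () :=
      IsLocallyConstant.const _
    have hw : IsLaw fun _ : Ω => uniformLaw Unit (r * 2) () :=
      fun _ => Cartan.isLaw_uniform (Nat.mul_pos hr two_pos) ()
    rw [show (Finset.univ.filter fun j : Fin N => (j : ℕ) < 0) = ∅ from
      Finset.filter_false_of_mem fun j _ => Nat.not_lt_zero _, Finset.sum_empty, mul_zero,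
      add_zero]
    exact μ_share_uniform_le O hO familyRootBound hf hη hr ht₀ ht m hwc hw isLocallyConstant_noDec
  | succ k ih =>
    intro hk
    set i : Fin N := ⟨k, hk⟩ with hi
    have hsplit : (Finset.univ.filter fun j : Fin N => (j : ℕ) < k + 1) =
        insert i (Finset.univ.filter fun j : Fin N => (j : ℕ) < k) := by
      ext j
      simp only [Finset.mem_filter, Finset.mem_univ, true_and, Finset.mem_insert, hi, Fin.ext_iff]
      omega
    rw [hsplit, Finset.sum_insert (by simp [hi])]
    have hsame : ∀ ω, B ω ≠ i → stageW O m B G π (k + 1) ω = stageW O m B G π k ω := fun ω h => by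
      rw [stageW, stageW, col, if_neg fun e => h (Fin.ext e)]
    have step := μ_share_le_of_batch O hO hf.zero hm hB hsep i
      (isLocallyConstant_stageW O hB hG hπ k) (isLaw_stageW O hr π k) isLocallyConstant_noDec
      (isLocallyConstant_stageW O hB hG hπ (k + 1)) (isLaw_stageW O hr π (k + 1))
      isLocallyConstant_noDec (fun ω h => ⟨hsame ω h, fun _ => rfl⟩) (c := 3 * γ) fun ω hω => ?_
    · linarith [ih (Nat.le_of_succ_le hk)]
    · have hBω : (B ω : ℕ) = k := by rw [hω, hi]
      set P : Pattern L r := fun x => if x ∈ wordsLE L m then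
        col O m B G k (O.act x ω) (fun y => π (O.act (y ++ x) ω)) else none with hPdef
      have hP : ∀ x ∈ wordsLE L m, stageW O m B G π k (O.act x ω) = lawOf (P x) := fun x hx => by
        simp only [stageW, hPdef, if_pos hx, O.act_append]
      have hP0 : P [] = none := by
        simp only [hPdef,
          if_pos (mem_wordsLE.2 (Nat.zero_le m) : ([] : List (Fin L)) ∈ wordsLE L m)]
        exact col_none O k _ _ (le_of_eq hBω.symm)
      obtain ⟨hne, hle⟩ := hgood ω P (stageW O m B G π k) hP hP0
      have hval : stageW O m B G π (k + 1) ω = half (pick (π ω) (G ω P)) := by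
        rw [stageW, col, if_pos hBω]
        rfl
      have e2 : V O (stageW O m B G π (k + 1)) noDec f (O.ball ω m) =
          V O (update (stageW O m B G π k) ω (half (pick (π ω) (G ω P)))) noDec f (O.ball ω m) :=
        V_congr O (fun a ha => by
          rcases eq_or_ne a ω with rfl | h
          · rw [update_self]; exact hval
          · rw [update_of_ne h]
            exact hsame a fun hBa => h (hsep ω a ha (hω.trans hBa.symm)).symm) (fun _ _ _ => rfl) f
      rw [e2]
      exact hle _ (pick_mem (π ω) hne)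

end

/-- An equivariant rule takes every colour equally often on every set of assignments that is
invariant under renaming the colours. -/
theorem card_rule_eq {M r : ℕ} (F : (Fin M → Equiv.Perm (Fin r)) → Fin r)
    (hF : ∀ (σ : Equiv.Perm (Fin r)) (p : Fin M → Equiv.Perm (Fin r)),
      F (fun j => σ * p j) = σ (F p))
    (A : Finset (Fin M → Equiv.Perm (Fin r)))
    (hA : ∀ (σ : Equiv.Perm (Fin r)) p, p ∈ A → (fun j => σ * p j) ∈ A) (c : Fin r) :
    r * (A.filter fun p => F p = c).card = A.card := by
  have h : ∀ d : Fin r, (A.filter fun p => F p = d).card = (A.filter fun p => F p = c).card := by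
    intro d
    refine Finset.card_nbij' (fun p j => Equiv.swap d c * p j) (fun p j => Equiv.swap d c * p j)
      ?_ ?_ (fun p _ => funext fun j => ?_) (fun p _ => funext fun j => ?_)
    · intro p hp
      simp only [Finset.coe_filter, Set.mem_ofPred_eq] at hp ⊢
      exact ⟨hA _ _ hp.1, by rw [hF, hp.2, Equiv.swap_apply_left]⟩
    · intro p hp
      simp only [Finset.coe_filter, Set.mem_ofPred_eq] at hp ⊢
      exact ⟨hA _ _ hp.1, by rw [hF, hp.2, Equiv.swap_apply_right]⟩
    · simp only [← mul_assoc, Equiv.swap_mul_self, one_mul]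
    · simp only [← mul_assoc, Equiv.swap_mul_self, one_mul]
  rw [Finset.card_eq_sum_card_fiberwise (f := F) (s := A) (t := Finset.univ)
    fun p _ => Finset.mem_univ _]
  simp [h]

/-- The random core. -/
theorem randomCoreStatement : RandomCoreStatement := by
  intro Ω _ _ _ _ L r t δ O hr hO ht hδ
  classical
  have : NeZero r := ⟨hr.ne'⟩
  obtain ⟨P⟩ := exists_data hr ht hδ
  set m := P.φ.natDegree
  obtain ⟨N, B, hBc, hsep⟩ := O.exists_batches m
  obtain ⟨G, hGc, hG⟩ := exists_locConst_choice
    (fun (R : Rule L r) ω => R.Equivariant ∧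
      ∀ (Q : Pattern L r) (w : Ω → Fin (r * 2) → ℝ),
        (∀ x ∈ wordsLE L m, w (O.act x ω) = lawOf (Q x)) → Q [] = none →
        (R Q).Nonempty ∧ ∀ c ∈ R Q, V O (update w ω (half c)) noDec P.f (O.ball ω m)
          - V O w noDec P.f (O.ball ω m) ≤ 3 * P.γ)
    fun ω => by
      obtain ⟨R, hR, hev⟩ := exists_rule O hO hr P.near P.η_pos P.γ_pos m ω
      exact ⟨R, hev.mono fun y hy => ⟨hR, hy⟩⟩
  -- the words and the rule
  set W : Finset (List (Fin L)) := wordsLE L (N * m) with hW
  let ext : (Fin W.card → Equiv.Perm (Fin r)) → List (Fin L) → Equiv.Perm (Fin r) := fun p x =>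
    if h : x ∈ W then p (W.equivFin ⟨x, h⟩) else 1
  let words : Fin W.card → List (Fin L) := fun j => W.equivFin.symm j
  let F : Ω → (Fin W.card → Equiv.Perm (Fin r)) → Fin r := fun ω p =>
    (col O m B G N ω (ext p)).getD 0
  have hsome : ∀ ω q, ∃ c, col O m B G N ω q = some c := fun ω q => col_some O N ω q (B ω).2
  have hF : IsLocallyConstant F :=
    (isLocallyConstant_col O hBc hGc N).comp fun h p => (h (ext p)).getD 0
  have hFeq : ∀ ω (σ : Equiv.Perm (Fin r)) p, F ω (fun j => σ * p j) = σ (F ω p) := by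
    intro ω σ p
    have e : col O m B G N ω (ext fun j => σ * p j) =
        col O m B G N ω (fun x => σ * ext p x) := col_congr O N ω _ _ fun x hx => by
      simp only [ext, dif_pos (show x ∈ W from mem_wordsLE.2 hx)]
    obtain ⟨c, hc⟩ := hsome ω (ext p)
    simp only [F, e, col_equivariant O (fun ω => (hG ω).1) σ N, hc, Option.map_some,
      Option.getD_some]
  refine ⟨sidePoly P.k P.φ 0, sidePoly P.k P.φ 1, ⟨P.low 0, P.high₀⟩, ⟨P.low 1, P.high₁⟩,
    W.card, words, F, hF, hFeq, fun π hπ => ?_⟩
  set κ : Ω → Fin r := fun ω => F ω fun j => π (O.act (words j) ω) with hκdef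
  have hwκ : stageW O m B G π N = fun ω => half (κ ω) := funext fun ω => by
    obtain ⟨c, hc⟩ := hsome ω fun x => π (O.act x ω)
    have e : col O m B G N ω (ext fun j => π (O.act (words j) ω)) = some c := by
      rw [← hc]
      refine col_congr O N ω _ _ fun x hx => ?_
      simp only [ext, words, dif_pos (show x ∈ W from mem_wordsLE.2 hx), Equiv.symm_apply_apply]
    simp [hκdef, F, stageW, hc, e, lawOf]
  have hκ : IsLocallyConstant κ := by
    rw [IsLocallyConstant.iff_eventually_eq]
    intro ω₀
    filter_upwards [hF.eventually_eq ω₀, eventually_all.2 fun j =>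
      (hπ.comp_continuous (O.continuous_act (words j))).eventually_eq ω₀] with ω h1 h2
    simp only [Function.comp_apply] at h2
    simp only [hκdef, h1, h2]
  have hle := μ_stage_le O hO hr P.near P.η_pos P.bound P.lt P.deg hBc hsep hGc
    (fun ω => (hG ω).2) hπ N le_rfl
  rw [Finset.filter_true_of_mem fun j _ => j.2, ← map_sum, OrbitModel.sum_batchC hBc, O.μ_one,
    mul_one, shareC_congr O hO hwκ _ _ (hκ.comp half) (isLaw_half_comp κ)] at hle
  exact ⟨hκ, side_bound O hO hκ 0 P hBc hsep fun _ => hle,
    side_bound O hO hκ 1 P hBc hsep fun _ => hle⟩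

end Vale.Agent.P078.Quad
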