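import Vale.Agent.P078.Cartan.Quad.Window
import Vale.Agent.P078.Cartan.Arrow

/-!
The density of the expected roots at one point: the sum of the residues of `f` times the
logarithmic derivative in that coordinate. It is positive, sums to the potential and is local.
-/

namespace Vale.Agent.P078.Quad

open Matrix Polynomial Function
open scoped ComplexOrder
open Vale.Agent.P078.Cartan (Graded locGraded contGraded Loc mob PickLike pickLike_decomp RealPoly
  realPoly_of_eval_im den maskE_apply isHermitian_mask det_updateRow_single_congr)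

set_option linter.unusedSectionVars false

variable {ι : Type*} [Fintype ι] [DecidableEq ι] {r : ℕ}

/-! ### The residue functional -/

/-- The coefficient just below the degree of the remainder modulo `P`. -/
noncomputable def rem (P a : ℂ[X]) : ℂ := (a %ₘ P).coeff (P.natDegree - 1)

/-- A real polynomial over the complex numbers. -/
noncomputable def cast' (f : ℝ[X]) : ℂ[X] := f.map Complex.ofRealHom

theorem rem_add (P a b : ℂ[X]) : rem P (a + b) = rem P a + rem P b := by
  rw [rem, add_modByMonic, coeff_add]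
  rfl

theorem rem_C_mul (P a : ℂ[X]) (c : ℂ) : rem P (C c * a) = c * rem P a := by
  rw [rem, ← smul_eq_C_mul, smul_modByMonic, coeff_smul, smul_eq_mul]
  rfl

theorem rem_sum {κ : Type*} (P : ℂ[X]) (s : Finset κ) (a : κ → ℂ[X]) :
    rem P (∑ k ∈ s, a k) = ∑ k ∈ s, rem P (a k) := by
  classical
  induction s using Finset.induction_on with
  | empty => simp [rem]
  | @insert k s hk ih => rw [Finset.sum_insert hk, Finset.sum_insert hk, rem_add, ih]

theorem rem_mul_self {P : ℂ[X]} (hP : P.Monic) (a : ℂ[X]) : rem P (a * P) = 0 := by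
  rw [rem, (modByMonic_eq_zero_iff_dvd hP).2 (dvd_mul_left P a), coeff_zero]

/-- A common factor cancels. -/
theorem rem_cancel {b c : ℂ[X]} (hb : b.Monic) (hc : c.Monic) (hb0 : 0 < b.natDegree) (a : ℂ[X]) :
    rem (b * c) (a * c) = rem b a := by
  have hbc := hb.mul hc
  have hdeg : ((a %ₘ b) * c).degree < (b * c).degree := by
    rw [degree_mul, degree_mul]
    exact WithBot.add_lt_add_right (by simp [hc.ne_zero]) (degree_modByMonic_lt a hb)
  have h := (div_modByMonic_unique (a /ₘ b) ((a %ₘ b) * c) hbc ⟨by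
    have := modByMonic_add_div a b
    calc (a %ₘ b) * c + b * c * (a /ₘ b) = ((a %ₘ b) + b * (a /ₘ b)) * c := by ring
      _ = a * c := by rw [this], hdeg⟩).2
  rw [rem, h, hb.natDegree_mul hc, show b.natDegree + c.natDegree - 1 =
    (b.natDegree - 1) + c.natDegree by omega]
  have hle : (a %ₘ b).natDegree ≤ b.natDegree - 1 := by
    have := natDegree_modByMonic_lt a hb (fun e => by simp [e] at hb0)
    omega
  rw [coeff_mul_add_eq_of_natDegree_le hle le_rfl, hc.coeff_natDegree, mul_one, rem]

theorem monic_prod_X_sub {n : ℕ} (t : Fin n → ℝ) (s : Finset (Fin n)) :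
    (∏ l ∈ s, (X - C (t l : ℂ))).Monic := monic_prod_of_monic _ _ fun _ _ => monic_X_sub_C _

theorem natDegree_prod_X_sub {n : ℕ} (t : Fin n → ℝ) (s : Finset (Fin n)) :
    (∏ l ∈ s, (X - C (t l : ℂ))).natDegree = s.card := by
  rw [natDegree_prod_of_monic _ _ fun _ _ => monic_X_sub_C _]
  simp only [natDegree_X_sub_C, Finset.sum_const, smul_eq_mul, mul_one]

/-- The residue at a root. -/
theorem rem_erase {n : ℕ} (t : Fin n → ℝ) (k : Fin n) (f : ℝ[X]) :
    rem (∏ l, (X - C (t l : ℂ))) (cast' f * ∏ l ∈ Finset.univ.erase k, (X - C (t l : ℂ))) =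
      (f.eval (t k) : ℝ) := by
  set E := ∏ l ∈ Finset.univ.erase k, (X - C (t l : ℂ))
  have hP : ∏ l, (X - C (t l : ℂ)) = (X - C (t k : ℂ)) * E :=
    (Finset.mul_prod_erase _ _ (Finset.mem_univ k)).symm
  have hv : (cast' f).eval ((t k : ℝ) : ℂ) = ((f.eval (t k) : ℝ) : ℂ) := by
    rw [cast', eval_map]
    exact (eval₂_at_apply Complex.ofRealHom (t k))
  obtain ⟨g, hg⟩ := X_sub_C_dvd_sub_C_eval (a := ((t k : ℝ) : ℂ)) (p := cast' f)
  have e : cast' f * E = g * ∏ l, (X - C (t l : ℂ)) + C ((cast' f).eval ((t k : ℝ) : ℂ)) * E := by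
    rw [hP]
    linear_combination E * hg
  rw [e, rem_add, rem_mul_self (monic_prod_X_sub t _), zero_add, rem_C_mul, hv]
  have hd : E.degree < (∏ l, (X - C (t l : ℂ))).degree := by
    rw [degree_eq_natDegree (monic_prod_X_sub t _).ne_zero,
      degree_eq_natDegree (monic_prod_X_sub t _).ne_zero, natDegree_prod_X_sub,
      natDegree_prod_X_sub, Finset.card_erase_of_mem (Finset.mem_univ k)]
    have := Finset.card_pos.2 ⟨k, Finset.mem_univ k⟩
    exact_mod_cast Nat.sub_lt this one_pos
  have hc : E.coeff ((∏ l, (X - C (t l : ℂ))).natDegree - 1) = 1 := by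
    rw [natDegree_prod_X_sub, ← Finset.card_erase_of_mem (Finset.mem_univ k),
      ← natDegree_prod_X_sub]
    exact (monic_prod_X_sub t _).coeff_natDegree
  rw [rem, (modByMonic_eq_self_iff (monic_prod_X_sub t _)).2 hd, hc, mul_one]

/-! ### The density -/

/-- The expected characteristic polynomial of the rest, divided by `X`. -/
noncomputable def minor (G : Fin r → Matrix ι ι ℂ) (w : ι → Fin r → ℝ) (i : ι) : ℂ[X] :=
  (echar (maskEF G i) w).divX

/-- The density of the expected roots at `i`, applied to `f`. -/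
noncomputable def Phi (G : Fin r → Matrix ι ι ℂ) (w : ι → Fin r → ℝ) (f : ℝ[X]) (i : ι) : ℝ :=
  (rem (echar G w) (cast' f * minor G w i)).re

theorem echar_maskEF_coeff_zero (G : Fin r → Matrix ι ι ℂ) (w : ι → Fin r → ℝ) (i : ι) :
    (echar (maskEF G i) w).coeff 0 = 0 := by
  rw [coeff_zero_eq_eval_zero, echar_eval, Fdet_maskE, zero_mul]

theorem X_mul_minor (G : Fin r → Matrix ι ι ℂ) (w : ι → Fin r → ℝ) (i : ι) :
    X * minor G w i = echar (maskEF G i) w := by
  have := X_mul_divX_add (echar (maskEF G i) w)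
  rwa [echar_maskEF_coeff_zero, map_zero, add_zero] at this

theorem Phi_add (G : Fin r → Matrix ι ι ℂ) (w : ι → Fin r → ℝ) (f g : ℝ[X]) (i : ι) :
    Phi G w (f + g) i = Phi G w f i + Phi G w g i := by
  simp only [Phi, cast', Polynomial.map_add, add_mul, rem_add, Complex.add_re]

theorem Phi_C_mul (G : Fin r → Matrix ι ι ℂ) (w : ι → Fin r → ℝ) (f : ℝ[X]) (c : ℝ) (i : ι) :
    Phi G w (C c * f) i = c * Phi G w f i := by
  simp only [Phi, cast', Polynomial.map_mul, map_C, mul_assoc, rem_C_mul]
  simp

theorem Phi_one (G : Fin r → Matrix ι ι ℂ) {w : ι → Fin r → ℝ} (hw : IsLaw w) (i : ι) :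
    Phi G w 1 i = 1 := by
  have hn : 0 < Fintype.card ι := Fintype.card_pos_iff.2 ⟨i⟩
  have hcoef : (minor G w i).coeff (Fintype.card ι - 1) = 1 := by
    rw [minor, coeff_divX, Nat.sub_add_cancel hn, echar_coeff_card _ hw]
  have hdeg : (minor G w i).degree < (echar G w).degree := by
    rw [degree_eq_natDegree (echar_monic G hw).ne_zero, echar_natDegree G hw]
    refine (degree_lt_iff_coeff_zero _ _).2 fun k hk => ?_
    rw [minor, coeff_divX]
    exact coeff_eq_zero_of_natDegree_lt (by rw [echar_natDegree _ hw]; omega)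
  simp only [Phi, cast', Polynomial.map_one, one_mul, rem, echar_natDegree G hw,
    (modByMonic_eq_self_iff (echar_monic G hw)).2 hdeg, hcoef, Complex.one_re]

/-- Positivity. -/
theorem Phi_nonneg {G : Fin r → Matrix ι ι ℂ} (hG : ∀ c, (G c).IsHermitian) {w : ι → Fin r → ℝ}
    (hw : IsLaw w) {f : ℝ[X]} (hf : ∀ s ∈ roots G w, 0 ≤ f.eval s) (i : ι) :
    0 ≤ Phi G w f i := by
  classical
  set R := roots G w
  obtain ⟨n, t, ht⟩ : ∃ (n : ℕ) (t : Fin n → ℝ), Finset.univ.val.map t = R :=
    ⟨R.toList.length, R.toList.get, by rw [Fin.univ_val_map, List.ofFn_get, Multiset.coe_toList]⟩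
  have hn : n = Fintype.card ι := by
    rw [← card_roots G hw]
    change _ = Multiset.card R
    rw [← ht]
    simp
  have hm : ∀ c, (maskEF G i c).IsHermitian := fun c => isHermitian_mask (hG c) _
  have hP : echar G w = ∏ l, (X - C (t l : ℂ)) := by
    refine Polynomial.funext fun x => ?_
    rw [echar_eval_eq hG hw, Cartan.rootProd, ← show Finset.univ.val.map t = roots G w from ht,
      Multiset.map_map, eval_prod]
    simp [List.prod_ofFn]
  have hden : den R = echar G w := by
    rw [hP, ← ht, den, Multiset.map_map]; rfl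
  have hreal : RealPoly (minor G w i) := by
    refine mul_left_cancel₀ (X_ne_zero : (X : ℂ[X]) ≠ 0) ?_
    conv_lhs => rw [show (X : ℂ[X]) = (X : ℂ[X]).map (starRingEnd ℂ) by simp, ← Polynomial.map_mul]
    rw [X_mul_minor]
    exact realPoly_of_eval_im fun x => by
      rw [echar_eval_eq hm hw, Cartan.rootProd]
      induction roots (maskEF G i) w using Multiset.induction_on with
      | empty => simp
      | cons a s ih => simp [Multiset.map_cons, Complex.mul_im, ih]
  have hpick : PickLike R (minor G w i) := by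
    refine ⟨0, fun z hz => ?_⟩
    have hz0 : z ≠ 0 := fun e => by simp [e] at hz
    have h : 0 < (z * (echar G w).eval z / (echar (maskEF G i) w).eval z).im := by
      rw [echar_eval, echar_eval]; exact ratio_pos hG hw i fun _ => hz
    rw [← X_mul_minor, eval_mul, eval_X, mul_div_mul_left _ _ hz0] at h
    rw [hden]
    rw [← inv_div, Complex.inv_im]
    exact div_nonpos_of_nonpos_of_nonneg (by linarith) (Complex.normSq_nonneg _)
  have hdeg : (minor G w i).degree < n := by
    refine (degree_lt_iff_coeff_zero _ _).2 fun k hk => ?_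
    rw [minor, coeff_divX]
    exact coeff_eq_zero_of_natDegree_lt (by rw [echar_natDegree _ hw]; omega)
  obtain ⟨ρ, hρ, e⟩ := Cartan.PickLike.residues t (minor G w i)
    (ht ▸ pickLike_decomp R _ hreal hpick) hdeg
  rw [Phi, e, Finset.mul_sum, rem_sum, hP, Complex.re_sum]
  refine Finset.sum_nonneg fun k _ => ?_
  rw [mul_left_comm, rem_C_mul, rem_erase, ← Complex.ofReal_mul, Complex.ofReal_re]
  exact mul_nonneg (hρ k) (hf _ (by
    change t k ∈ R
    rw [← ht]; exact Multiset.mem_map_of_mem t (Finset.mem_univ k)))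

theorem det_updateRow_single_congr' {R : Type*} [CommRing R] {M N : Matrix ι ι R} {i : ι}
    (h : ∀ j k, j ≠ i → k ≠ i → M j k = N j k) :
    (M.updateRow i (Pi.single i 1)).det = (N.updateRow i (Pi.single i 1)).det := by
  rw [← det_transpose, ← det_transpose (N.updateRow _ _), det_apply, det_apply]
  refine Finset.sum_congr rfl fun σ _ => ?_
  congr 1
  by_cases hσ : σ i = i
  · refine Finset.prod_congr rfl fun j _ => ?_
    rcases eq_or_ne j i with rfl | hj
    · simp [hσ]
    · simp only [transpose_apply, updateRow_apply, if_neg hj]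
      exact h j (σ j) hj fun e => hj (σ.injective (e.trans hσ.symm))
  · have h0 : ∀ A : Matrix ι ι R,
        ∏ j, (A.updateRow i (Pi.single i 1))ᵀ (σ j) j = 0 := fun A => by
      refine Finset.prod_eq_zero (Finset.mem_univ i) ?_
      simp [hσ]
    rw [h0, h0]

theorem X_mul_derivative_charpoly (P : Matrix ι ι ℂ) :
    X * derivative P.charpoly = ∑ i, (maskE P i).charpoly := by
  have hd : derivative P.charpoly = ∑ i, (P.charmatrix.updateRow i (Pi.single i 1)).det := by
    rw [Matrix.charpoly, ← det_transpose P.charmatrix]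
    conv_rhs => enter [2, i]; rw [← det_transpose]
    simp only [det_apply, derivative_sum]
    rw [Finset.sum_comm]
    refine Finset.sum_congr rfl fun σ _ => ?_
    rw [Units.smul_def, derivative_smul, derivative_prod_finset, ← Finset.smul_sum]
    congr 1
    refine Finset.sum_congr rfl fun i _ => ?_
    rw [← Finset.mul_prod_erase _ _ (Finset.mem_univ i), mul_comm]
    congr 1
    · simp only [transpose_apply, updateRow_self, charmatrix_apply, diagonal_apply]
      rcases eq_or_ne i (σ i) with h | h
      · rw [← h]; simp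
      · simp [h, Ne.symm h]
    · exact Finset.prod_congr rfl fun j hj => by
        simp [updateRow_ne (Finset.ne_of_mem_erase hj)]
  rw [hd, Finset.mul_sum]
  refine Finset.sum_congr rfl fun i _ => ?_
  have h1 : (maskE P i).charmatrix = (maskE P i).charmatrix.updateRow i
      ((X : ℂ[X]) • (Pi.single i 1 : ι → ℂ[X])) := by
    ext j k
    rcases eq_or_ne j i with rfl | hj
    · rw [updateRow_self]
      rcases eq_or_ne j k with rfl | hk
      · simp [charmatrix_apply, maskE_apply]
      · simp [charmatrix_apply, maskE_apply, hk]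
    · rw [updateRow_ne hj]
  rw [Matrix.charpoly, h1, det_updateRow_smul,
    det_updateRow_single_congr' (M := (maskE P i).charmatrix) (N := P.charmatrix) fun j k hj hk => by
      simp [charmatrix_apply, maskE_apply, hj, hk]]

/-- The densities sum to the potential. -/
theorem sum_Phi {G : Fin r → Matrix ι ι ℂ} (hG : ∀ c, (G c).IsHermitian) {w : ι → Fin r → ℝ}
    (hw : IsLaw w) (f : ℝ[X]) : ∑ i, Phi G w f i = potential G w f := by
  classical
  set R := roots G w
  obtain ⟨n, t, ht⟩ : ∃ (n : ℕ) (t : Fin n → ℝ), Finset.univ.val.map t = R :=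
    ⟨R.toList.length, R.toList.get, by rw [Fin.univ_val_map, List.ofFn_get, Multiset.coe_toList]⟩
  have hP : echar G w = ∏ l, (X - C (t l : ℂ)) := by
    refine Polynomial.funext fun x => ?_
    rw [echar_eval_eq hG hw, Cartan.rootProd, ← show Finset.univ.val.map t = roots G w from ht,
      Multiset.map_map, eval_prod]
    simp [List.prod_ofFn]
  have hsum : ∑ i, minor G w i = derivative (echar G w) := by
    refine mul_left_cancel₀ (X_ne_zero : (X : ℂ[X]) ≠ 0) ?_
    simp only [Finset.mul_sum, X_mul_minor, echar, derivative_sum, derivative_C_mul,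
      pinch_maskE]
    rw [Finset.sum_comm]
    refine Finset.sum_congr rfl fun s _ => ?_
    rw [mul_left_comm, X_mul_derivative_charpoly, Finset.mul_sum]
  simp only [Phi]
  rw [← Complex.re_sum, ← rem_sum, ← Finset.mul_sum, hsum, hP, derivative_prod_finset,
    Finset.mul_sum, rem_sum, Complex.re_sum, potential,
    ← show Finset.univ.val.map t = roots G w from ht, Multiset.map_map]
  refine Finset.sum_congr rfl fun k _ => ?_
  simp [rem_erase]

theorem maskEF_maskF (G : Fin r → Matrix ι ι ℂ) (U : Finset ι) (i : ι) :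
    maskEF (maskF G U) i = maskF (maskEF G i) U := by
  funext c
  ext a b
  simp only [maskEF, maskF, mask, maskE, Matrix.of_apply]
  split_ifs <;> rfl

theorem maskEF_maskF_of_notMem (G : Fin r → Matrix ι ι ℂ) {U : Finset ι} {i : ι} (h : i ∉ U) :
    maskEF (maskF G U) i = maskF G U := by
  funext c
  ext a b
  simp only [maskEF, maskF, maskE_apply, mask, Matrix.of_apply]
  by_cases hh : a ∈ U ∧ b ∈ U
  · rw [if_pos ⟨fun e => h (e ▸ hh.1), fun e => h (e ▸ hh.2)⟩]
  · simp [hh]

theorem cast'_eq_X_mul {f : ℝ[X]} (hf : f.eval 0 = 0) : cast' f = X * cast' f.divX := by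
  have h0 : f.coeff 0 = 0 := by rw [coeff_zero_eq_eval_zero, hf]
  conv_lhs => rw [← X_mul_divX_add f, h0, map_zero, add_zero]
  simp [cast']

theorem Phi_eq_rem (G : Fin r → Matrix ι ι ℂ) (w : ι → Fin r → ℝ) {f : ℝ[X]} (hf : f.eval 0 = 0)
    (i : ι) : Phi G w f i = (rem (echar G w) (cast' f.divX * echar (maskEF G i) w)).re := by
  rw [Phi, cast'_eq_X_mul hf, mul_comm X, mul_assoc, X_mul_minor]

theorem Phi_mask_of_notMem (G : Fin r → Matrix ι ι ℂ) {w : ι → Fin r → ℝ} (hw : IsLaw w)
    {f : ℝ[X]} (hf : f.eval 0 = 0) {U : Finset ι} {i : ι} (h : i ∉ U) :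
    Phi (maskF G U) w f i = 0 := by
  rw [Phi_eq_rem _ _ hf, maskEF_maskF_of_notMem G h, rem_mul_self (echar_monic _ hw),
    Complex.zero_re]

/-- A point decomposition factors the expected characteristic polynomial. -/
theorem echar_split (G : Fin r → Matrix ι ι ℂ) (w : ι → Fin r → ℝ) (p : ι → Prop)
    [DecidablePred p] (h : ∀ c a b, p a → ¬p b → G c a b = 0 ∧ G c b a = 0) :
    echar G w =
      echar (fun c => (G c).submatrix (fun a : {a // p a} => (a : ι))
          fun a : {a // p a} => (a : ι)) (fun a : {a // p a} => w a) *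
        echar (fun c => (G c).submatrix (fun a : {a // ¬p a} => (a : ι))
          fun a : {a // ¬p a} => (a : ι)) (fun a : {a // ¬p a} => w a) := by
  let e := Equiv.sumCompl p
  rw [← echar_fromBlocks, ← echar_reindex G w e]
  congr 1
  · ext c (a | a) (b | b)
    · simp [e]
    · simpa [e] using (h c _ _ a.2 b.2).1
    · simpa [e] using (h c _ _ b.2 a.2).2
    · simp [e]
  · ext (a | a) <;> rfl

theorem echar_mask_union (G : Fin r → Matrix ι ι ℂ) {w : ι → Fin r → ℝ} (hw : IsLaw w)
    {A B : Finset ι} (hd : Disjoint A B)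
    (h : ∀ c, ∀ a ∈ A, ∀ b ∈ B, G c a b = 0 ∧ G c b a = 0) :
    echar (maskF G (A ∪ B)) w * X ^ Fintype.card ι =
      echar (maskF G A) w * echar (maskF G B) w := by
  have hAB : ∀ {x}, x ∈ B → x ∉ A := fun hx hx' => Finset.disjoint_left.1 hd hx' hx
  have key := fun (U : Finset ι) (hU : ∀ c a b, a ∈ A → b ∉ A →
      (maskF G U c) a b = 0 ∧ (maskF G U c) b a = 0) =>
    echar_split (maskF G U) w (fun a => a ∈ A) hU
  rw [key (A ∪ B), key A, key B]
  · have e1 : (fun c => (maskF G B c).submatrix (fun a : {a // a ∈ A} => (a : ι))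
        (fun a : {a // a ∈ A} => (a : ι))) = 0 := by
      ext c a b
      simp only [maskF, mask, submatrix_apply, Matrix.of_apply, Matrix.zero_apply, Pi.zero_apply]
      rw [if_neg fun hh => hAB hh.1 a.2]
    have e2 : (fun c => (maskF G A c).submatrix (fun a : {a // a ∉ A} => (a : ι))
        (fun a : {a // a ∉ A} => (a : ι))) = 0 := by
      ext c a b; simp [maskF, mask, a.2]
    have e3 : (fun c => (maskF G (A ∪ B) c).submatrix (fun a : {a // a ∈ A} => (a : ι))
        (fun a : {a // a ∈ A} => (a : ι))) = fun c => (maskF G A c).submatrix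
          (fun a : {a // a ∈ A} => (a : ι)) fun a : {a // a ∈ A} => (a : ι) := by
      ext c a b; simp [maskF, mask, a.2, b.2]
    have e4 : (fun c => (maskF G (A ∪ B) c).submatrix (fun a : {a // a ∉ A} => (a : ι))
        (fun a : {a // a ∉ A} => (a : ι))) = fun c => (maskF G B c).submatrix
          (fun a : {a // a ∉ A} => (a : ι)) fun a : {a // a ∉ A} => (a : ι) := by
      ext c a b; simp [maskF, mask, a.2, b.2]
    have hz : ∀ {μ : Type _} {_ : Fintype μ} {_ : DecidableEq μ} (v : μ → Fin r → ℝ), IsLaw v →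
        echar (0 : Fin r → Matrix μ μ ℂ) v = X ^ Fintype.card μ := fun v hv => echar_zero hv
    rw [e1, e2, e3, e4, hz _ (fun a => hw _), hz _ (fun a => hw _)]
    have : Fintype.card ι = Fintype.card {a // a ∈ A} + Fintype.card {a // a ∉ A} := by
      rw [← Fintype.card_sum, Fintype.card_congr (Equiv.sumCompl fun a => a ∈ A)]
    rw [this, pow_add]
    simp only [Fintype.card_eq_nat_card]
    ring
  all_goals intro c a b ha hb
  all_goals simp only [maskF, mask, Matrix.of_apply, Finset.mem_union]
  all_goals constructor <;> split_ifs with hh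
  all_goals first
    | rfl
    | exact (h c a ha b (hh.2.resolve_left hb)).1
    | exact (h c a ha b (hh.1.resolve_left hb)).2
    | exact absurd ha (hAB hh.1)
    | exact absurd ha (hAB hh.2)
    | exact absurd hh.2 hb
    | exact absurd hh.1 hb

/-- Additivity of the density across a gap. -/
theorem Phi_mask_union {G : Fin r → Matrix ι ι ℂ} {w : ι → Fin r → ℝ} (hw : IsLaw w)
    {A B : Finset ι} (hd : Disjoint A B)
    (h : ∀ c, ∀ a ∈ A, ∀ b ∈ B, G c a b = 0 ∧ G c b a = 0) {f : ℝ[X]} (hf : f.eval 0 = 0)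
    (i : ι) :
    Phi (maskF G (A ∪ B)) w f i = Phi (maskF G A) w f i + Phi (maskF G B) w f i := by
  suffices key : ∀ A B : Finset ι, Disjoint A B →
      (∀ c, ∀ a ∈ A, ∀ b ∈ B, G c a b = 0 ∧ G c b a = 0) → i ∈ A →
      Phi (maskF G (A ∪ B)) w f i = Phi (maskF G A) w f i by
    by_cases hA : i ∈ A
    · rw [key A B hd h hA, Phi_mask_of_notMem G hw hf (Finset.disjoint_left.1 hd hA), add_zero]
    by_cases hB : i ∈ B
    · rw [Finset.union_comm, key B A hd.symm (fun c a ha b hb => (h c b hb a ha).symm) hB,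
        Phi_mask_of_notMem G hw hf hA, zero_add]
    · rw [Phi_mask_of_notMem G hw hf (by simp [hA, hB]), Phi_mask_of_notMem G hw hf hA,
        Phi_mask_of_notMem G hw hf hB, add_zero]
  intro A B hd h hA
  have hn : 0 < Fintype.card ι := Fintype.card_pos_iff.2 ⟨i⟩
  have hm := fun U => echar_monic (maskF G U) hw
  have h1 := echar_mask_union G hw hd h
  have h' : ∀ c, ∀ a ∈ A, ∀ b ∈ B, maskEF G i c a b = 0 ∧ maskEF G i c b a = 0 := by
    intro c a ha b hb
    obtain ⟨h₁, h₂⟩ := h c a ha b hb
    simp only [maskEF, maskE_apply, h₁, h₂, ite_self, and_self]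
  have eU := fun U => maskEF_maskF G U i
  have eB : maskF (maskEF G i) B = maskF G B := by
    rw [← eU]; exact maskEF_maskF_of_notMem G (Finset.disjoint_left.1 hd hA)
  have h2 : echar (maskEF (maskF G (A ∪ B)) i) w * X ^ Fintype.card ι =
      echar (maskEF (maskF G A) i) w * echar (maskF G B) w := by
    rw [eU, eU, ← eB]
    exact echar_mask_union (maskEF G i) hw hd h'
  rw [Phi_eq_rem (maskF G (A ∪ B)) w hf i, Phi_eq_rem (maskF G A) w hf i]
  have hd₀ : ∀ U, 0 < (echar (maskF G U) w).natDegree := fun U => by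
    rw [echar_natDegree _ hw]; exact hn
  have c1 := rem_cancel (hm (A ∪ B)) (monic_X_pow (Fintype.card ι)) (hd₀ (A ∪ B))
    (cast' f.divX * echar (maskEF (maskF G (A ∪ B)) i) w)
  have c2 := rem_cancel (hm A) (hm B) (hd₀ A) (cast' f.divX * echar (maskEF (maskF G A) i) w)
  rw [mul_assoc, h2, h1] at c1
  rw [mul_assoc] at c2
  exact congrArg Complex.re (c1.symm.trans c2)

/-! ### Bounded support and continuity -/

theorem modByMonic_X_mul {P : ℂ[X]} (hP : P.Monic) {n : ℕ} (hn : P.natDegree = n) (hn0 : 0 < n)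
    (a : ℂ[X]) :
    (X * a) %ₘ P = X * (a %ₘ P) - C ((a %ₘ P).coeff (n - 1)) * P := by
  refine (div_modByMonic_unique (X * (a /ₘ P) + C ((a %ₘ P).coeff (n - 1))) _ hP ⟨?_, ?_⟩).2
  · linear_combination (X : ℂ[X]) * modByMonic_add_div a P
  · rw [degree_eq_natDegree hP.ne_zero, hn]
    refine (degree_lt_iff_coeff_zero _ _).2 fun k hk => ?_
    have hle : ∀ j, n ≤ j → (a %ₘ P).coeff j = 0 := fun j hj =>
      coeff_eq_zero_of_degree_lt ((degree_modByMonic_lt a hP).trans_le (by
        rw [degree_eq_natDegree hP.ne_zero, hn]; exact_mod_cast hj))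
    obtain ⟨j, rfl⟩ : ∃ j, k = j + 1 := ⟨k - 1, by omega⟩
    rw [coeff_sub, coeff_X_mul, coeff_C_mul]
    rcases eq_or_lt_of_le hk with h | h
    · rw [← h, ← hn, hP.coeff_natDegree, hn, show j = n - 1 by omega, mul_one, sub_self]
    · rw [hle j (by omega), coeff_eq_zero_of_natDegree_lt (p := P) (by omega), mul_zero, sub_zero]

/-- The remainders of powers of `X` times a polynomial are graded. -/
theorem rem_pow_mem {Y : Type*} (Q : Graded Y) {n : ℕ} (hn : 0 < n) (P m : Y → ℂ[X])
    (hP : ∀ y, (P y).Monic) (hPn : ∀ y, (P y).natDegree = n) (hm : ∀ y, (m y).degree < n)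
    (hPc : ∀ j ≤ n, Q.mem j fun y => (P y).coeff (n - j))
    (hmc : ∀ j < n, Q.mem j fun y => (m y).coeff (n - 1 - j)) :
    ∀ k, Q.mem k fun y => rem (P y) (X ^ k * m y) := by
  suffices h : ∀ k j, j < n → Q.mem (k + j) fun y => ((X ^ k * m y) %ₘ P y).coeff (n - 1 - j) by
    intro k
    have := h k 0 hn
    simpa [rem, hPn] using this
  intro k
  induction k with
  | zero =>
    intro j hj
    have e : ∀ y, (X ^ 0 * m y) %ₘ P y = m y := fun y => by
      rw [pow_zero, one_mul, (modByMonic_eq_self_iff (hP y)).2]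
      rw [degree_eq_natDegree (hP y).ne_zero, hPn]
      exact hm y
    simp only [Nat.zero_add, e]
    exact hmc j hj
  | succ k ih =>
    intro j hj
    have e : ∀ y, (X ^ (k + 1) * m y) %ₘ P y =
        X * ((X ^ k * m y) %ₘ P y) - C (((X ^ k * m y) %ₘ P y).coeff (n - 1)) * P y := fun y => by
      rw [pow_succ', mul_assoc, modByMonic_X_mul (hP y) (hPn y) hn]
    have h2 : Q.mem (k + 1 + j) fun y =>
        (-1 : ℂ) * (((X ^ k * m y) %ₘ P y).coeff (n - 1) * (P y).coeff (n - (j + 1))) :=
      Q.const_mul _ (Q.mul (by omega) (ih 0 hn) (hPc (j + 1) hj))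
    by_cases hj1 : j + 1 < n
    · have h1 := ih (j + 1) hj1
      rw [show k + (j + 1) = k + 1 + j by omega] at h1
      convert Q.add h1 h2 using 1
      ext y
      rw [e, coeff_sub, show n - 1 - j = (n - 1 - (j + 1)) + 1 by omega, coeff_X_mul, coeff_C_mul,
        show n - (j + 1) = (n - 1 - (j + 1)) + 1 by omega]
      ring
    · convert Q.add (Q.zero _) h2 using 1
      ext y
      rw [e, coeff_sub, show n - 1 - j = 0 by omega, mul_coeff_zero, coeff_X_zero, zero_mul,
        coeff_C_mul, show n - (j + 1) = 0 by omega]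
      ring

theorem Phi_eq_sum (G : Fin r → Matrix ι ι ℂ) (w : ι → Fin r → ℝ) (f : ℝ[X]) (i : ι) :
    Phi G w f i = (∑ k ∈ Finset.range (f.natDegree + 1),
      (f.coeff k : ℂ) * rem (echar G w) (X ^ k * minor G w i)).re := by
  have : cast' f * minor G w i = ∑ k ∈ Finset.range (f.natDegree + 1),
      C (f.coeff k : ℂ) * (X ^ k * minor G w i) := by
    conv_lhs => rw [cast', f.as_sum_range_C_mul_X_pow]
    simp only [Polynomial.map_sum, Polynomial.map_mul, map_C, Polynomial.map_pow, map_X,
      Finset.sum_mul, mul_assoc]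
    rfl
  simp only [Phi, this, rem_sum, rem_C_mul]

theorem coeff_echar (G : Fin r → Matrix ι ι ℂ) {w : ι → Fin r → ℝ} (hw : IsLaw w) {j : ℕ}
    (hj : j ≤ Fintype.card ι) :
    (echar G w).coeff (Fintype.card ι - j) = (-1) ^ j * (echar G w).roots.esymm j := by
  rw [esymm_roots_eq G hw hj, ← mul_assoc, ← pow_add]
  simp [← two_mul, pow_mul]

/-- Bounded support of the density. -/
theorem Phi_mob_eq_zero (G : Fin r → Matrix ι ι ℂ) {w : ι → Fin r → ℝ} (hw : IsLaw w)
    (f : ℝ[X]) (i : ι) {S : Finset ι} (hS : f.natDegree < S.card) :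
    mob (fun U => Phi (maskF G U) w f i) S = 0 := by
  have hn : 0 < Fintype.card ι := Fintype.card_pos_iff.2 ⟨i⟩
  simp only [Phi_eq_sum]
  refine Loc.mob_eq_zero ?_ hS
  refine (locGraded ι).sum _ fun k hk => (locGraded ι).const_mul _
    (Loc.mono (Nat.lt_succ_iff.1 (Finset.mem_range.1 hk)) ?_)
  refine rem_pow_mem (locGraded ι) hn _ _ (fun U => echar_monic _ hw)
    (fun U => echar_natDegree _ hw) (fun U => ?_) (fun j hj => ?_) (fun j hj => ?_) k
  · refine (degree_lt_iff_coeff_zero _ _).2 fun k hk => ?_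
    rw [minor, coeff_divX]
    exact coeff_eq_zero_of_natDegree_lt (by rw [echar_natDegree _ hw]; omega)
  · simp only [coeff_echar _ hw hj]
    exact (locGraded ι).const_mul _ (esymm_mask_mem G hw j)
  · simp only [minor, coeff_divX, show Fintype.card ι - 1 - j + 1 = Fintype.card ι - j by omega,
      maskEF_maskF, coeff_echar _ hw hj.le]
    exact (locGraded ι).const_mul _ (esymm_mask_mem (maskEF G i) hw j)

theorem continuous_coeff_echar {Y : Type*} [TopologicalSpace Y] {G : Y → Fin r → Matrix ι ι ℂ}
    (hc : Continuous G) (w : ι → Fin r → ℝ) (d : ℕ) :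
    Continuous fun y => (echar (G y) w).coeff d := by
  have hpc : ∀ s : ι → Fin r, Continuous fun y => (pinch (G y) s).charpoly.coeff d := by
    intro s
    have : Continuous fun y => pinch (G y) s := by
      refine continuous_matrix fun a b => ?_
      simp only [pinch, Matrix.of_apply]
      split_ifs
      · exact ((continuous_apply (s a)).comp hc).matrix_elem a b
      · exact continuous_const
    have e : ∀ y, (pinch (G y) s).charpoly.coeff d =
        MvPolynomial.eval (fun ab : ι × ι => pinch (G y) s ab.1 ab.2)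
          ((Matrix.charpoly.univ ℂ ι).coeff d) := fun y => by
      have := Matrix.charpoly.univ_coeff_eval₂Hom ι (RingHom.id ℂ)
        (fun ab : ι × ι => pinch (G y) s ab.1 ab.2) d
      exact this.symm
    simp only [e]
    exact (MvPolynomial.continuous_eval _).comp (continuous_pi fun ab =>
      this.matrix_elem ab.1 ab.2)
  simp only [echar, finsetSum_coeff, coeff_C_mul]
  exact continuous_finsetSum _ fun s _ => continuous_const.mul (hpc s)

/-- Continuity of the density. -/
theorem continuous_Phi {Y : Type*} [TopologicalSpace Y] {G : Y → Fin r → Matrix ι ι ℂ}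
    (hc : Continuous G) {w : ι → Fin r → ℝ} (hw : IsLaw w) (f : ℝ[X]) (i : ι) :
    Continuous fun y => Phi (G y) w f i := by
  have hn : 0 < Fintype.card ι := Fintype.card_pos_iff.2 ⟨i⟩
  simp only [Phi_eq_sum]
  refine Complex.continuous_re.comp (continuous_finsetSum _ fun k _ => continuous_const.mul ?_)
  have hE : Continuous fun y => maskEF (G y) i := continuous_pi fun c => continuous_matrix
    fun a b => by
      simp only [maskEF, maskE_apply]
      split_ifs
      · exact ((continuous_apply c).comp hc).matrix_elem a b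
      · exact continuous_const
  refine rem_pow_mem (contGraded Y) hn _ _ (fun y => echar_monic _ hw)
    (fun y => echar_natDegree _ hw) (fun y => ?_) (fun j _ => continuous_coeff_echar hc w _)
    (fun j _ => ?_) k
  · refine (degree_lt_iff_coeff_zero _ _).2 fun k hk => ?_
    rw [minor, coeff_divX]
    exact coeff_eq_zero_of_natDegree_lt (by rw [echar_natDegree _ hw]; omega)
  · show Continuous fun y => _
    simp only [minor, coeff_divX]
    exact continuous_coeff_echar hE w _

end Vale.Agent.P078.Quad
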