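import Vale.Agent.P078.Cartan.Quad.Local
import Vale.Agent.P078.Cartan.Profile

/-!
Estimates for one point of a family: choices of laws, and the start from uniform laws.
-/

namespace Vale.Agent.P078.Quad

open Polynomial Function
open scoped Real ComplexOrder
open Vale.Agent.P078.Cartan (maskE_apply posSemidef_mask NearStep step step' hasDerivAt_step
  continuous_step' step'_nonneg step'_le sum_step_eq isLaw_uniform isLaw_dirac_update argSum)

set_option linter.unusedSectionVars false

variable {ι : Type*} [Fintype ι] [DecidableEq ι] {r : ℕ} {t η γ : ℝ} {f : ℝ[X]}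

theorem posSemidef_maskEF {G : Fin r → Matrix ι ι ℂ} (hG : ∀ c, (G c).PosSemidef)
    (hG1 : ∀ c, (1 - G c).PosSemidef) (i : ι) :
    (∀ c, (maskEF G i c).PosSemidef) ∧ ∀ c, (1 - maskEF G i c).PosSemidef :=
  ⟨fun c => (posSemidef_mask (hG c) (hG1 c) _).1, fun c => (posSemidef_mask (hG c) (hG1 c) _).2⟩

theorem isLaw_update {w : ι → Fin r → ℝ} (hw : IsLaw w) (i : ι) {a : Fin r → ℝ}
    (ha : (∀ c, 0 ≤ a c) ∧ ∑ c, a c = 1) : IsLaw (update w i a) := fun j => by
  rcases eq_or_ne j i with rfl | h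
  · rw [update_self]; exact ha
  · rw [update_of_ne h]; exact hw j

theorem lead_update (G : Fin r → Matrix ι ι ℂ) {w : ι → Fin r → ℝ} (hw : IsLaw w) (i : ι)
    (z : ι → ℂ) {a : Fin r → ℝ} (ha : (∀ c, 0 ≤ a c) ∧ ∑ c, a c = 1) :
    lead G (update w i a) i z = lead G w i z := by
  obtain ⟨c, -⟩ : ∃ c, w i c ≠ 0 := by
    by_contra h
    push Not at h
    simpa [h] using (hw i).2
  rw [← lead_dirac G (isLaw_update hw i ha) i z c, update_idem, lead_dirac G hw i z c]

theorem Fdet_update_sum (G : Fin r → Matrix ι ι ℂ) (w : ι → Fin r → ℝ) (i : ι) (z : ι → ℂ)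
    (a : Fin r → ℝ) : Fdet G (update w i a) z =
      ∑ c, (a c : ℂ) * Fdet G (update w i (dirac c)) z := by
  conv_lhs => rw [Fdet_split G _ i]
  simp only [update_self, update_idem]

theorem roots_maskE_update {G : Fin r → Matrix ι ι ℂ} {w : ι → Fin r → ℝ} (hw : IsLaw w) (i : ι)
    {a : Fin r → ℝ} (ha : (∀ c, 0 ≤ a c) ∧ ∑ c, a c = 1) :
    roots (maskEF G i) (update w i a) = roots (maskEF G i) w := by
  have : echar (maskEF G i) (update w i a) = echar (maskEF G i) w :=
    Polynomial.funext fun x => by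
      rw [echar_eval, echar_eval, Fdet_maskE, Fdet_maskE, lead_update G hw i _ ha]
  rw [roots, roots, this]

variable {K : Type*} [Fintype K]

/-- Some law among those averaging to the present one does not increase the argument potential. -/
theorem exists_law_le {G : Fin r → Matrix ι ι ℂ} (hG : ∀ c, (G c).IsHermitian)
    {w : ι → Fin r → ℝ} (hw : IsLaw w) (i : ι) (p : K → ℝ) (u : K → Fin r → ℝ)
    (hp : ∀ k, 0 ≤ p k) (hu : ∀ k, (∀ c, 0 ≤ u k c) ∧ ∑ c, u k c = 1)
    (hcomb : ∀ c, w i c = ∑ k, p k * u k c) {z : ℂ} (hz : 0 < z.im) :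
    ∃ k, argSum (roots G (update w i (u k))) z ≤ argSum (roots G w) z := by
  set v : K → ℂ := fun k => z * Fdet G (update w i (u k)) (fun _ => z) /
      Fdet (maskEF G i) (update w i (u k)) (fun _ => z) with hv
  set y : ℂ := z * Fdet G w (fun _ => z) / Fdet (maskEF G i) w (fun _ => z) with hy
  have hden : ∀ k, Fdet (maskEF G i) (update w i (u k)) (fun _ => z) =
      Fdet (maskEF G i) w (fun _ => z) := fun k => by
    rw [Fdet_maskE, Fdet_maskE, lead_update G hw i _ (hu k)]
  have hcomb' : y = ∑ k, (p k : ℂ) * v k := by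
    simp only [hv, hy, hden]
    have e : Fdet G w (fun _ => z) = ∑ k, (p k : ℂ) * Fdet G (update w i (u k)) (fun _ => z) := by
      simp only [Fdet_update_sum G w i _ (u _), Finset.mul_sum]
      rw [Finset.sum_comm, Fdet_split G w i]
      refine Finset.sum_congr rfl fun c _ => ?_
      rw [hcomb, Complex.ofReal_sum, Finset.sum_mul]
      exact Finset.sum_congr rfl fun k _ => by push_cast; ring
    rw [e, Finset.mul_sum, Finset.sum_div]
    exact Finset.sum_congr rfl fun k _ => by ring
  have hvpos : ∀ k, 0 < (v k).im := fun k =>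
    ratio_pos hG (isLaw_update hw i (hu k)) i fun _ => hz
  have hupos : 0 < y.im := ratio_pos hG hw i fun _ => hz
  have key : ∃ k, Complex.arg (v k) ≤ Complex.arg y := by
    by_contra hcon
    push Not at hcon
    set a := Complex.arg y with ha
    have hval : ∀ x : ℂ, (x * Complex.exp (-(a : ℂ) * Complex.I)).im =
        ‖x‖ * Real.sin (Complex.arg x - a) := by
      intro x
      conv_lhs => rw [← Complex.norm_mul_exp_arg_mul_I x]
      rw [mul_assoc, ← Complex.exp_add, Complex.im_ofReal_mul]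
      congr 1
      rw [show (Complex.arg x : ℂ) * Complex.I + -(a : ℂ) * Complex.I =
        ((Complex.arg x - a : ℝ) : ℂ) * Complex.I by push_cast; ring,
        Complex.exp_ofReal_mul_I_im]
    have hpos : ∀ k, 0 < (v k * Complex.exp (-(a : ℂ) * Complex.I)).im := by
      intro k
      rw [hval]
      refine mul_pos (norm_pos_iff.2 fun e => ?_) (Real.sin_pos_of_pos_of_lt_pi ?_ ?_)
      · have := hvpos k; simp [e] at this
      · linarith [hcon k]
      · have h1 : Complex.arg (v k) ≤ π := Complex.arg_le_pi _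
        have h2 : 0 < a := by
          have h3 : 0 ≤ a := Complex.arg_nonneg_iff.2 hupos.le
          refine lt_of_le_of_ne h3 fun e => hupos.ne' ?_
          exact (Complex.arg_eq_zero_iff.1 e.symm).2
        linarith
    have h0 : (y * Complex.exp (-(a : ℂ) * Complex.I)).im = 0 := by
      rw [hval, ← ha, sub_self, Real.sin_zero, mul_zero]
    rw [hcomb', Finset.sum_mul, Complex.im_sum] at h0
    simp only [mul_assoc, Complex.im_ofReal_mul] at h0
    have hall := (Finset.sum_eq_zero_iff_of_nonneg fun k _ =>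
      mul_nonneg (hp k) (hpos k).le).1 h0
    have : ∀ k, p k = 0 := fun k =>
      (mul_eq_zero.1 (hall k (Finset.mem_univ k))).resolve_right (hpos k).ne'
    have h1 := (hw i).2
    simp [hcomb, this] at h1
  obtain ⟨k, hk⟩ := key
  refine ⟨k, ?_⟩
  have hwk := isLaw_update hw i (hu k)
  have h1 := (pick_maskE hG hwk i).argSum_eq hz
  have h2 := (pick_maskE hG hw i).argSum_eq hz
  have hm : ∀ c, (maskEF G i c).IsHermitian := fun c => Cartan.isHermitian_mask (hG c) _
  rw [← echar_eval_eq hG hwk, ← echar_eval_eq hm hwk, echar_eval, echar_eval] at h1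
  rw [← echar_eval_eq hG hw, ← echar_eval_eq hm hw, echar_eval, echar_eval] at h2
  rw [roots_maskE_update hw i (hu k)] at h1
  change _ = Complex.arg (v k) at h1
  change _ = Complex.arg y at h2
  linarith

/-- Some law among those averaging to the present one raises the potential by at most `2 γ`. -/
theorem exists_law_potential_le (h : NearStep t η γ f) (hη : 0 < η) {G : Fin r → Matrix ι ι ℂ}
    (hG : ∀ c, (G c).PosSemidef) (hG1 : ∀ c, (1 - G c).PosSemidef) {w : ι → Fin r → ℝ}
    (hw : IsLaw w) (i : ι) (p : K → ℝ) (u : K → Fin r → ℝ)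
    (hp : ∀ k, 0 ≤ p k) (hu : ∀ k, (∀ c, 0 ≤ u k c) ∧ ∑ c, u k c = 1)
    (hcomb : ∀ c, w i c = ∑ k, p k * u k c) :
    ∃ k, potential G (update w i (u k)) f ≤ potential G w f + 2 * γ := by
  have hz : 0 < ((t : ℂ) + η * Complex.I).im := by simpa using hη
  obtain ⟨k, hk⟩ := exists_law_le (fun c => (hG c).1) hw i p u hp hu hcomb hz
  refine ⟨k, ?_⟩
  have hwk := isLaw_update hw i (hu k)
  obtain ⟨hm, hm1⟩ := posSemidef_maskEF hG hG1 i
  have hH := fun c => (hG c).1
  have e1 := h.pick_error hη (pick_maskE hH hwk i) ⟨zero_le_one, le_rfl⟩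
    (fun s hs => roots_mem_Icc hG hG1 hwk hs) (fun s hs => roots_mem_Icc hm hm1 hwk hs)
  have e2 := h.pick_error hη (pick_maskE hH hw i) ⟨zero_le_one, le_rfl⟩
    (fun s hs => roots_mem_Icc hG hG1 hw hs) (fun s hs => roots_mem_Icc hm hm1 hw hs)
  rw [roots_maskE_update hw i (hu k)] at e1
  rw [abs_le] at e1 e2
  have hstep : ((roots G (update w i (u k))).map (step t η)).sum ≤
      ((roots G w).map (step t η)).sum := by
    rw [sum_step_eq hη, sum_step_eq hη, card_roots G hwk, card_roots G hw]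
    have := Real.pi_pos
    gcongr
  simp only [potential]
  linarith [e1.1, e1.2, e2.1, e2.2]

/-- Uniform laws: roots lie below the MSS bound. -/
theorem roots_le_of_uniform (hB : FamilyRootBound) {α : ℝ} (hr : 0 < r) (hα : 0 ≤ α)
    {G : Fin r → Matrix ι ι ℂ} (hG : ∀ c, (G c).PosSemidef) (hG1 : ∀ c, (1 - G c).PosSemidef)
    (hd : ∀ c i, (G c i i).re ≤ α) {s : ℝ} (hs : s ∈ roots G (uniformLaw ι r)) :
    s ≤ (1 / Real.sqrt r + Real.sqrt α) ^ 2 := by
  by_contra hlt
  push Not at hlt
  let e := (Fintype.equivFin ι).symm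
  apply hB _ r hr (fun c => (G c).submatrix e e) α hα (fun c => (hG c).submatrix e)
    (fun c => by
      have := (hG1 c).submatrix e
      rwa [Matrix.submatrix_sub, Pi.sub_apply, Pi.sub_apply, Matrix.submatrix_one_equiv] at this)
    (fun c i => hd c _) s hlt
  have e1 : echar (fun c => (G c).submatrix e e) (uniformLaw (Fin (Fintype.card ι)) r) =
      echar G (uniformLaw ι r) :=
    echar_reindex G (uniformLaw ι r) e
  rw [e1, echar_eval_eq (fun c => (hG c).1) (isLaw_uniform hr)]
  exact Multiset.prod_eq_zero (Multiset.mem_map.2 ⟨s, hs, sub_self _⟩)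

/-- The initial increment at a point is small. -/
theorem uniform_increment_le (h : NearStep t η γ f) (hη : 0 < η) (hB : FamilyRootBound)
    {α t₀ : ℝ} (hr : 0 < r) (hα : 0 ≤ α) (ht₀ : (1 / Real.sqrt r + Real.sqrt α) ^ 2 ≤ t₀)
    (ht : t₀ < t) {G : Fin r → Matrix ι ι ℂ} (hG : ∀ c, (G c).PosSemidef) (hG1 : ∀ c, (1 - G c).PosSemidef)
    (hd : ∀ c i, (G c i i).re ≤ α) (i : ι) :
    |potential G (uniformLaw ι r) f - potential (maskEF G i) (uniformLaw ι r) f| ≤
      γ + η / (π * (t - t₀) ^ 2) := by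
  have hw := isLaw_uniform (ι := ι) hr
  obtain ⟨hm, hm1⟩ := posSemidef_maskEF hG hG1 i
  have hpick := pick_maskE (fun c => (hG c).1) hw i
  set b := min t₀ 1
  have hb : b ∈ Set.Icc (0 : ℝ) 1 :=
    ⟨le_min ((sq_nonneg _).trans ht₀) zero_le_one, min_le_right _ _⟩
  have hdm : ∀ c j, (maskEF G i c j j).re ≤ α := fun c j => by
    rw [maskEF, maskE_apply]
    split_ifs
    · exact hd c j
    · simpa using hα
  have hP : ∀ s ∈ roots G (uniformLaw ι r), s ∈ Set.Icc 0 b := fun s hs =>
    ⟨(roots_mem_Icc hG hG1 hw hs).1,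
      le_min ((roots_le_of_uniform hB hr hα hG hG1 hd hs).trans ht₀)
        (roots_mem_Icc hG hG1 hw hs).2⟩
  have hQ : ∀ s ∈ roots (maskEF G i) (uniformLaw ι r), s ∈ Set.Icc 0 b := fun s hs =>
    ⟨(roots_mem_Icc hm hm1 hw hs).1,
      le_min ((roots_le_of_uniform hB hr hα hm hm1 hdm hs).trans ht₀)
        (roots_mem_Icc hm hm1 hw hs).2⟩
  have e1 := h.pick_error hη hpick hb hP hQ
  have e2 := hpick.abs_sum_sub_le (e := step t η) (e' := step' t η) (a := 0) (b := b)
    (M := η / (π * (t - t₀) ^ 2)) (fun x => hasDerivAt_step hη x) (continuous_step' hη)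
    (fun x hx => by
      rw [abs_of_nonneg (step'_nonneg hη x)]
      exact step'_le hη ht (hx.2.trans (min_le_left _ _))) ⟨le_rfl, hb.1⟩ hP hQ
  have hz : step t η 0 = 0 := by simp [step]
  simp only [hz, abs_zero, add_zero, zero_add, sub_zero] at e2
  have hM : 0 ≤ η / (π * (t - t₀) ^ 2) := by have := Real.pi_pos; positivity
  simp only [potential]
  have e3 := e2.trans (mul_le_of_le_one_right hM hb.2)
  rw [abs_le] at e1 e3 ⊢
  constructor <;> linarith [e1.1, e1.2, e3.1, e3.2]

end Vale.Agent.P078.Quad
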