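import Vale.Agent.P078.Cartan.Quad.Phi
import Vale.Agent.P078.Cartan.Quad.Profile
import Vale.Agent.P078.Cartan.Quad.State
import Vale.Agent.P078.Cartan.Core

/-!
The potential and the density of a state of laws and decoupled points, as set functions on an
orbit.
-/

namespace Vale.Agent.P078.Quad

open Matrix Polynomial Function
open scoped ComplexOrder
open Vale.Agent.P078.Cartan (mob)

set_option linter.unusedSectionVars false

section Finite

variable {ι κ : Type*} [Fintype ι] [DecidableEq ι] [Fintype κ] [DecidableEq κ] {r R : ℕ}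

theorem Phi_congr {G : Fin R → Matrix ι ι ℂ} {w : ι → Fin R → ℝ} {i : ι}
    {G' : Fin R → Matrix κ κ ℂ} {w' : κ → Fin R → ℝ} {j : κ} (h : echar G w = echar G' w')
    (h' : echar (maskEF G i) w = echar (maskEF G' j) w') (f : ℝ[X]) :
    Phi G w f i = Phi G' w' f j := by
  rw [Phi, Phi, minor, minor, h, h']

theorem Phi_reindex (G : Fin R → Matrix ι ι ℂ) (w : ι → Fin R → ℝ) (e : κ ≃ ι) (f : ℝ[X])
    (a : κ) : Phi (fun c => (G c).submatrix e e) (w ∘ e) f a = Phi G w f (e a) := by
  refine Phi_congr (echar_reindex G w e) ?_ f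
  have : maskEF (fun c => (G c).submatrix e e) a =
      fun c => (maskEF G (e a) c).submatrix e e := by
    funext c
    ext i j
    simp [maskEF, Cartan.maskE_apply]
  rw [this, echar_reindex]

theorem Phi_conj (G : Fin R → Matrix ι ι ℂ) (w : ι → Fin R → ℝ) (d : ι → ℂ)
    (hd : ∀ i, ‖d i‖ = 1) (f : ℝ[X]) (a : ι) :
    Phi (fun c => Matrix.of fun i j => star (d i) * G c i j * d j) w f a = Phi G w f a := by
  refine Phi_congr (echar_conj G w d hd) ?_ f
  have : maskEF (fun c => Matrix.of fun i j => star (d i) * G c i j * d j) a =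
      fun c => Matrix.of fun i j => star (d i) * maskEF G a c i j * d j := by
    funext c
    ext i j
    simp only [maskEF, Cartan.maskE_apply, Matrix.of_apply]
    split_ifs <;> simp
  rw [this, echar_conj _ w d hd]

theorem echar_mask (G : Fin R → Matrix ι ι ℂ) {w : ι → Fin R → ℝ} (hw : IsLaw w) (U : Finset ι) :
    echar (maskF G U) w = echar (fun c => (G c).submatrix (fun i : U => (i : ι))
      fun i : U => (i : ι)) (fun i : U => w i) * X ^ Fintype.card {i // i ∉ U} := by
  let e : U ⊕ {i // i ∉ U} ≃ ι := Equiv.sumCompl (fun i => i ∈ U)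
  have h1 : (fun c => (maskF G U c).submatrix e e) = fun c =>
      fromBlocks ((G c).submatrix (fun i : U => (i : ι)) fun i : U => (i : ι)) 0 0 0 := by
    ext c (a | a) (b | b) <;> simp [maskF, mask, e, a.2, b.2]
  have h2 : w ∘ e = Sum.elim (fun i : U => w i) (fun i : {i // i ∉ U} => w i) := by
    ext (a | a) <;> rfl
  rw [← echar_reindex (maskF G U) w e, h1, h2, echar_fromBlocks]
  congr 1
  exact echar_zero fun i => hw _

theorem Phi_mask (G : Fin R → Matrix ι ι ℂ) {w : ι → Fin R → ℝ} (hw : IsLaw w) {f : ℝ[X]}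
    (hf : f.eval 0 = 0) {U : Finset ι} {i : ι} (hi : i ∈ U) :
    Phi (maskF G U) w f i = Phi (fun c => (G c).submatrix (fun a : U => (a : ι))
      fun a : U => (a : ι)) (fun a : U => w a) f ⟨i, hi⟩ := by
  have hU : IsLaw fun a : U => w a := fun a => hw _
  have hn : 0 < Fintype.card U := Fintype.card_pos_iff.2 ⟨⟨i, hi⟩⟩
  have h1 := echar_mask G hw U
  have h2 := echar_mask (maskEF G i) hw U
  rw [← maskEF_maskF] at h2
  have e : (fun c => (maskEF G i c).submatrix (fun a : U => (a : ι)) fun a : U => (a : ι)) =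
      maskEF (fun c => (G c).submatrix (fun a : U => (a : ι)) fun a : U => (a : ι)) ⟨i, hi⟩ := by
    funext c
    ext a b
    simp [maskEF, Cartan.maskE_apply, Subtype.ext_iff]
  rw [e] at h2
  rw [Phi_eq_rem (maskF G U) w hf i, Phi_eq_rem _ _ hf, h1, h2, ← mul_assoc,
    rem_cancel (echar_monic _ hU) (monic_X_pow _) (by rw [echar_natDegree _ hU]; exact hn)]

theorem base_conj (M : Matrix ι ι ℂ) (d : ι → ℂ) (hd : ∀ i, ‖d i‖ = 1) (b : Fin 2) :
    base (Matrix.of fun i j => star (d i) * M i j * d j) b =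
      Matrix.of fun i j => star (d i) * base M b i j * d j := by
  have hdd : ∀ i, star (d i) * d i = 1 := fun i => by
    rw [RCLike.star_def, ← Complex.normSq_eq_conj_mul_self, Complex.normSq_eq_norm_sq, hd]
    norm_num
  unfold base
  split_ifs
  · rfl
  · ext i j
    rcases eq_or_ne i j with rfl | h
    · simp only [Matrix.sub_apply, Matrix.one_apply_eq, Matrix.of_apply]
      linear_combination -(hdd i)
    · simp only [Matrix.sub_apply, Matrix.one_apply_ne h, Matrix.of_apply]
      ring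

theorem fam_conj (M : Matrix ι ι ℂ) (d : ι → ℂ) (hd : ∀ i, ‖d i‖ = 1) (dec : Fin 2 → ι → Bool) :
    (fam (Matrix.of fun i j => star (d i) * M i j * d j) dec : Fin (r * 2) → Matrix ι ι ℂ) =
      fun c => Matrix.of fun i j => star (d i) * fam M dec c i j * d j := by
  funext c
  ext i j
  simp only [fam, base_conj M d hd, Matrix.of_apply]
  split_ifs <;> simp

theorem fam_submatrix (M : Matrix ι ι ℂ) (dec : Fin 2 → ι → Bool) {g : κ → ι} (hg : Injective g) :
    (fam (M.submatrix g g) (fun b a => dec b (g a)) : Fin (r * 2) → Matrix κ κ ℂ) =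
      fun c => (fam M dec c).submatrix g g := by
  funext c
  ext i j
  simp only [fam, base, Matrix.of_apply, Matrix.submatrix_apply, ne_eq, hg.eq_iff]
  split_ifs <;> simp [Matrix.one_apply, hg.eq_iff]

theorem posSemidef_fam {G : Matrix ι ι ℂ} (hG : G.PosSemidef) (hG1 : (1 - G).PosSemidef)
    (hdiag : ∀ i, G i i = 1 / 2) (d : Fin 2 → ι → Bool) (s : Fin (r * 2)) :
    (fam G d s).PosSemidef ∧ (1 - fam G d s).PosSemidef := by
  have hb : ∀ b i, base G b i i = 1 / 2 := fun b i => by
    unfold base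
    split_ifs
    · exact hdiag i
    · rw [Matrix.sub_apply, Matrix.one_apply_eq, hdiag]; norm_num
  obtain ⟨hb0, hb1⟩ : (base G (side s)).PosSemidef ∧ (1 - base G (side s)).PosSemidef := by
    unfold base
    split_ifs
    · exact ⟨hG, hG1⟩
    · exact ⟨hG1, by rwa [sub_sub_cancel]⟩
  set U : Finset ι := Finset.univ.filter fun i => d (side s) i = false with hU
  have e : fam G d s = Cartan.mask (base G (side s)) U +
      Matrix.diagonal fun i => if i ∈ U then (0 : ℂ) else 1 / 2 := by
    ext i j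
    rcases eq_or_ne i j with rfl | h
    · simp only [fam, Cartan.mask, Matrix.of_apply, Matrix.add_apply, Matrix.diagonal_apply_eq, hb]
      by_cases hi : d (side s) i = false <;> simp [hU, hi]
    · simp only [fam, Cartan.mask, Matrix.of_apply, Matrix.add_apply,
        Matrix.diagonal_apply_ne _ h, add_zero, hU, Finset.mem_filter, Finset.mem_univ, true_and]
      cases d (side s) i <;> cases d (side s) j <;> simp [h]
  obtain ⟨h1, h2⟩ := Cartan.posSemidef_mask hb0 hb1 U
  refine ⟨e ▸ h1.add (Matrix.PosSemidef.diagonal fun i => ?_), ?_⟩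
  · split_ifs <;> simp [Complex.le_def]
  · have e' : 1 - fam G d s = Cartan.mask (1 - base G (side s)) U +
        Matrix.diagonal fun i => if i ∈ U then (0 : ℂ) else 1 / 2 := by
      rw [e]
      ext i j
      rcases eq_or_ne i j with rfl | h
      · simp only [Cartan.mask, Matrix.of_apply, Matrix.sub_apply, Matrix.add_apply,
          Matrix.one_apply_eq, Matrix.diagonal_apply_eq]
        by_cases hi : i ∈ U <;> simp [hi, hb] <;> norm_num
      · simp only [Cartan.mask, Matrix.of_apply, Matrix.sub_apply, Matrix.add_apply,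
          Matrix.one_apply_ne h, Matrix.diagonal_apply_ne _ h]
        split_ifs <;> simp
    rw [e']
    refine Matrix.PosSemidef.add ?_ (Matrix.PosSemidef.diagonal fun i => ?_)
    · rw [Cartan.mask_eq_mul]; exact hb1.conjTranspose_mul_mul_same _
    · split_ifs <;> simp [Complex.le_def]

theorem fam_apply_eq_zero {G : Matrix ι ι ℂ} (d : Fin 2 → ι → Bool) (s : Fin (r * 2)) {i j : ι}
    (hne : i ≠ j) (h : G i j = 0) : fam G d s i j = 0 := by
  simp only [fam, base, Matrix.of_apply]
  split_ifs <;> simp [Matrix.one_apply_ne hne, h]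

end Finite

/-! ### Set functions on an orbit -/

section Orbit

open Filter Topology
open Vale.Agent.P078.Cartan (OrbitModel)

variable {Ω : Type} [TopologicalSpace Ω] [CompactSpace Ω] [T2Space Ω] [TotallyDisconnectedSpace Ω]
  [DecidableEq Ω]
  {L : ℕ} {α : ℝ} (O : OrbitModel Ω L α)
variable {ι : Type*} [Fintype ι] [DecidableEq ι] {r : ℕ}

/-- All diagonal entries are one half. -/
def HalfDiag : Prop := ∀ w ω, O.ent w w ω = 1 / 2

/-- The family of the states over labelled points. -/
noncomputable def famAt (d : Fin 2 → Ω → Bool) (ω : Ω) (φ : ι → List (Fin L)) :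
    Fin (r * 2) → Matrix ι ι ℂ :=
  fam (O.lblMat ω φ) fun b i => d b (O.act (φ i) ω)

theorem posSemidef_famAt (hO : HalfDiag O) (d : Fin 2 → Ω → Bool) {ω : Ω} {φ : ι → List (Fin L)}
    (hinj : Injective fun i => O.act (φ i) ω) (s : Fin (r * 2)) :
    (famAt O d ω φ s).PosSemidef ∧ (1 - famAt O d ω φ s).PosSemidef :=
  posSemidef_fam (O.posSemidef_lblMat hinj).1 (O.posSemidef_lblMat hinj).2 (fun _ => hO _ _) _ s

theorem famAt_re_diag (hO : HalfDiag O) (d : Fin 2 → Ω → Bool) (ω : Ω) (φ : ι → List (Fin L))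
    (s : Fin (r * 2)) (i : ι) : (famAt O d ω φ s i i).re = 1 / 2 := by
  rw [famAt, fam_diag, base]
  have : O.lblMat ω φ i i = 1 / 2 := hO _ _
  split_ifs
  · rw [this]; norm_num
  · rw [Matrix.sub_apply, Matrix.one_apply_eq, this]; norm_num

/-- The potential of a set of points. -/
noncomputable def V (w : Ω → Fin (r * 2) → ℝ) (d : Fin 2 → Ω → Bool) (f : ℝ[X]) (S : Finset Ω) :
    ℝ :=
  if h : S.Nonempty then
    potential (famAt O d h.choose fun a : S => O.name h.choose a) (fun a : S => w a) f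
  else 0

/-- The density at a point of a set of points. -/
noncomputable def P (w : Ω → Fin (r * 2) → ℝ) (d : Fin 2 → Ω → Bool) (f : ℝ[X]) (v : Ω)
    (S : Finset Ω) : ℝ :=
  if h : v ∈ S then
    Phi (famAt O d v fun a : S => O.name v a) (fun a : S => w a) f ⟨v, h⟩
  else 0

variable {w : Ω → Fin (r * 2) → ℝ} {d : Fin 2 → Ω → Bool}

theorem famAt_gauge (d : Fin 2 → Ω → Bool) {φ φ' : ι → List (Fin L)} {ω ω' : Ω}
    (hinj : Injective fun i => O.act (φ i) ω)
    (h : ∀ i, O.act (φ i) ω = O.act (φ' i) ω') :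
    ∃ u : ι → ℂ, (∀ i, ‖u i‖ = 1) ∧ (famAt O d ω' φ' : Fin (r * 2) → Matrix ι ι ℂ) =
      fun c => Matrix.of fun i j => star (u i) * famAt O d ω φ c i j * u j := by
  obtain ⟨u, hu, he⟩ := O.gauge' hinj h
  refine ⟨u, hu, ?_⟩
  unfold famAt
  simp only [← h]
  rw [he, fam_conj _ u hu]

theorem V_eq (w : Ω → Fin (r * 2) → ℝ) (d : Fin 2 → Ω → Bool) (f : ℝ[X]) (φ : ι → List (Fin L))
    (ω : Ω) (hinj : Injective fun i => O.act (φ i) ω) :
    V O w d f (Finset.univ.image fun i => O.act (φ i) ω) =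
      potential (famAt O d ω φ) (fun i => w (O.act (φ i) ω)) f := by
  set S := Finset.univ.image fun i => O.act (φ i) ω with hS
  unfold V
  split_ifs with hne
  · obtain ⟨i₀, -, hi₀⟩ := Finset.mem_image.1 hne.choose_spec
    let e : ι ≃ S := Equiv.ofBijective
      (fun i => ⟨O.act (φ i) ω, Finset.mem_image_of_mem _ (Finset.mem_univ i)⟩)
      ⟨fun i j hij => hinj (congrArg Subtype.val hij), fun a => by
        obtain ⟨i, -, hi⟩ := Finset.mem_image.1 a.2
        exact ⟨i, Subtype.ext hi⟩⟩
    have hname : ∀ i, O.act (φ i) ω = O.act (O.name hne.choose (e i : Ω)) hne.choose := fun i =>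
      (O.act_name (w := φ i ++ O.rev (φ i₀))
        (by rw [O.act_append, ← hi₀, O.act_rev])).symm
    obtain ⟨u, hu, he⟩ := famAt_gauge O (r := r) d hinj
      (φ' := fun i => O.name hne.choose (e i : Ω)) hname
    refine potential_congr ?_ f
    rw [← echar_reindex _ (fun a : S => w a) e]
    have : (fun c => (famAt O d hne.choose (fun a : S => O.name hne.choose a) c).submatrix e e :
        Fin (r * 2) → Matrix ι ι ℂ) =
        famAt O d hne.choose fun i => O.name hne.choose (e i : Ω) := by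
      unfold famAt
      rw [← fam_submatrix _ _ e.injective]
      rfl
    rw [this, he, echar_conj _ _ u hu]
    rfl
  · have : IsEmpty ι := ⟨fun i => hne ⟨_, Finset.mem_image_of_mem _ (Finset.mem_univ i)⟩⟩
    have h0 : roots (famAt O d ω φ) (fun i => w (O.act (φ i) ω)) = 0 := by
      rw [roots, Multiset.map_eq_zero]
      apply Multiset.card_eq_zero.1
      have := (echar (famAt O d ω φ) fun i => w (O.act (φ i) ω)).card_roots'
      have h' := echar_natDegree_le (famAt O d ω φ) fun i => w (O.act (φ i) ω)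
      simp only [Fintype.card_eq_zero] at h'
      omega
    simp [potential, h0]

theorem P_eq (w : Ω → Fin (r * 2) → ℝ) (d : Fin 2 → Ω → Bool) (f : ℝ[X]) (φ : ι → List (Fin L))
    (ω : Ω) (hinj : Injective fun i => O.act (φ i) ω) (i₀ : ι) :
    P O w d f (O.act (φ i₀) ω) (Finset.univ.image fun i => O.act (φ i) ω) =
      Phi (famAt O d ω φ) (fun i => w (O.act (φ i) ω)) f i₀ := by
  set S := Finset.univ.image fun i => O.act (φ i) ω with hS
  set v := O.act (φ i₀) ω with hv
  have hvS : v ∈ S := Finset.mem_image_of_mem _ (Finset.mem_univ i₀)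
  unfold P
  rw [dif_pos hvS]
  let e : ι ≃ S := Equiv.ofBijective
    (fun i => ⟨O.act (φ i) ω, Finset.mem_image_of_mem _ (Finset.mem_univ i)⟩)
    ⟨fun i j hij => hinj (congrArg Subtype.val hij), fun a => by
      obtain ⟨i, -, hi⟩ := Finset.mem_image.1 a.2
      exact ⟨i, Subtype.ext hi⟩⟩
  have hname : ∀ i, O.act (φ i) ω = O.act (O.name v (e i : Ω)) v := fun i =>
    (O.act_name (w := φ i ++ O.rev (φ i₀)) (by rw [O.act_append, hv, O.act_rev])).symm
  obtain ⟨u, hu, he⟩ := famAt_gauge O (r := r) d hinj (φ' := fun i => O.name v (e i : Ω)) hname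
  have h1 : (⟨v, hvS⟩ : S) = e i₀ := rfl
  rw [h1, ← Phi_reindex _ _ e f]
  have h2 : (fun c => (famAt O d v (fun a : S => O.name v a) c).submatrix e e :
      Fin (r * 2) → Matrix ι ι ℂ) = famAt O d v fun i => O.name v (e i : Ω) := by
    unfold famAt
    rw [← fam_submatrix _ _ e.injective]
    rfl
  rw [h2, he, Phi_conj _ _ u hu]
  rfl

theorem V_map (hw : IsLaw w) {f : ℝ[X]} (hf : f.eval 0 = 0) (φ : ι → List (Fin L)) (ω : Ω)
    (hinj : Injective fun i => O.act (φ i) ω) (U : Finset ι) :
    V O w d f (U.map ⟨fun i => O.act (φ i) ω, hinj⟩) =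
      potential (maskF (famAt O d ω φ) U) (fun i => w (O.act (φ i) ω)) f := by
  rw [potential_mask _ (fun i => hw _) U hf]
  have h := V_eq O w d f (fun i : U => φ i) ω (fun a b h => Subtype.ext (hinj h))
  have e : (U.map ⟨fun i => O.act (φ i) ω, hinj⟩) =
      Finset.univ.image fun i : U => O.act (φ i) ω := by
    ext x; simp
  rw [e, h]
  unfold famAt
  rw [← fam_submatrix _ _ Subtype.val_injective]
  rfl

theorem P_map (hw : IsLaw w) {f : ℝ[X]} (hf : f.eval 0 = 0) (φ : ι → List (Fin L)) (ω : Ω)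
    (hinj : Injective fun i => O.act (φ i) ω) (i₀ : ι) (U : Finset ι) :
    P O w d f (O.act (φ i₀) ω) (U.map ⟨fun i => O.act (φ i) ω, hinj⟩) =
      Phi (maskF (famAt O d ω φ) U) (fun i => w (O.act (φ i) ω)) f i₀ := by
  by_cases h : i₀ ∈ U
  · have hP := P_eq O w d f (fun i : U => φ i) ω (fun a b h => Subtype.ext (hinj h)) ⟨i₀, h⟩
    have e : (U.map ⟨fun i => O.act (φ i) ω, hinj⟩) =
        Finset.univ.image fun i : U => O.act (φ i) ω := by
      ext x; simp
    rw [e, hP, Phi_mask _ (fun i => hw _) hf h]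
    unfold famAt
    rw [← fam_submatrix _ _ Subtype.val_injective]
    rfl
  · rw [P, dif_neg, Phi_mask_of_notMem _ (fun i => hw _) hf h]
    simp only [Finset.mem_map, Function.Embedding.coeFn_mk]
    rintro ⟨i, hi, e⟩
    exact h (hinj e ▸ hi)

theorem famAt_gap {φ : ι → List (Fin L)} {ω : Ω} {i j : ι}
    (hne : O.act (φ i) ω ≠ O.act (φ j) ω)
    (h : ∀ g, O.T g (O.act (φ i) ω) ≠ O.act (φ j) ω) (c : Fin (r * 2)) :
    famAt O d ω φ c i j = 0 :=
  fam_apply_eq_zero _ c (fun e => hne (by rw [e])) (O.lblMat_gap hne h)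

/-- The coefficients of the potential and of the density vanish at sets with a gap or too many
points. -/
theorem mob_eq_zero (hO : HalfDiag O) (hw : IsLaw w) {f : ℝ[X]} (hf : f.eval 0 = 0)
    {S : Finset Ω} (hS : O.SameOrbit S)
    (h : f.natDegree < S.card ∨ ∃ A B : Finset Ω, A ∪ B = S ∧ Disjoint A B ∧ A.Nonempty ∧
      B.Nonempty ∧ O.Gap A B) :
    mob (V O w d f) S = 0 ∧ ∀ v ∈ S, mob (P O w d f v) S = 0 := by
  obtain ⟨φ, ω, hφ⟩ := O.exists_labels hS
  have hinj : Injective fun a : S => O.act (φ a) ω := fun a b e =>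
    Subtype.ext (by simpa [hφ] using e)
  set emb : S ↪ Ω := ⟨fun a => O.act (φ a) ω, hinj⟩
  have hmap : (Finset.univ : Finset S).map emb = S := by
    ext x; simp [emb, hφ]
  have hG : ∀ c : Fin (r * 2), (famAt O d ω φ c).IsHermitian := fun c =>
    (posSemidef_famAt O hO d hinj c).1.1
  have split : ∀ (ψ : Finset S → ℝ), (∀ A B : Finset S, Disjoint A B →
      (∀ c : Fin (r * 2), ∀ a ∈ A, ∀ b ∈ B,
        famAt O d ω φ c a b = 0 ∧ famAt O d ω φ c b a = 0) → ψ (A ∪ B) = ψ A + ψ B) →
      (∃ A B : Finset Ω, A ∪ B = S ∧ Disjoint A B ∧ A.Nonempty ∧ B.Nonempty ∧ O.Gap A B) →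
      mob ψ Finset.univ = 0 := by
    rintro ψ hψ ⟨A, B, hAB, hd, ⟨a, ha⟩, ⟨b, hb⟩, hgap⟩
    refine Cartan.mob_eq_zero_of_split (A := Finset.univ.filter fun x : S => (x : Ω) ∈ A)
      (B := Finset.univ.filter fun x : S => (x : Ω) ∈ B) ?_ ?_
      ⟨⟨a, hAB ▸ Finset.mem_union_left _ ha⟩, by simp [ha]⟩
      ⟨⟨b, hAB ▸ Finset.mem_union_right _ hb⟩, by simp [hb]⟩ ?_
    · ext x
      have hx : (x : Ω) ∈ A ∪ B := by rw [hAB]; exact x.2
      simpa using Finset.mem_union.1 hx
    · rw [Finset.disjoint_filter]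
      exact fun x _ hx hx' => Finset.disjoint_left.1 hd hx hx'
    · intro T _
      conv_lhs => rw [show T = (T ∩ Finset.univ.filter fun x : S => (x : Ω) ∈ A) ∪
        (T ∩ Finset.univ.filter fun x : S => (x : Ω) ∈ B) by
          rw [← Finset.inter_union_distrib_left]
          ext x
          have hx : (x : Ω) ∈ A ∪ B := by rw [hAB]; exact x.2
          simp [Finset.mem_union.1 hx]]
      refine hψ _ _ ?_ ?_
      · rw [Finset.disjoint_left]
        intro x hx hx'
        simp only [Finset.mem_inter, Finset.mem_filter] at hx hx'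
        exact Finset.disjoint_left.1 hd hx.2.2 hx'.2.2
      · intro c x hx y hy
        simp only [Finset.mem_inter, Finset.mem_filter] at hx hy
        have hne : (x : Ω) ≠ y := fun e => Finset.disjoint_left.1 hd hx.2.2 (e ▸ hy.2.2)
        exact ⟨famAt_gap O (by rw [hφ, hφ]; exact hne)
            (by rw [hφ, hφ]; exact hgap _ hx.2.2 _ hy.2.2) c,
          famAt_gap O (by rw [hφ, hφ]; exact hne.symm)
            (by rw [hφ, hφ]; exact (OrbitModel.Gap.symm O hgap) _ hy.2.2 _ hx.2.2) c⟩
  constructor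
  · conv_lhs => rw [← hmap]
    rw [Cartan.mob_map, Cartan.mob_congr fun U _ => V_map O hw hf φ ω hinj U]
    rcases h with hc | hgap
    · exact potential_mask_mob_eq_zero hG (fun i => hw _) hf (by simpa using hc)
    · exact split _ (fun A B hd hz => potential_mask_union _ (fun i => hw _) hd hz hf) hgap
  · intro v hv
    conv_lhs => rw [← hmap]
    rw [Cartan.mob_map, show v = O.act (φ ⟨v, hv⟩) ω from (hφ ⟨v, hv⟩).symm,
      Cartan.mob_congr fun U _ => P_map O hw hf φ ω hinj ⟨v, hv⟩ U]
    rcases h with hc | hgap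
    · exact Phi_mob_eq_zero _ (fun i => hw _) f _ (by simpa using hc)
    · exact split _ (fun A B hd hz => Phi_mask_union (fun i => hw _) hd hz hf _) hgap

/-! ### Continuity -/

theorem continuous_famAt (d₀ : Fin 2 → ι → Bool) (φ : ι → List (Fin L)) :
    Continuous fun ω => (fam (O.lblMat ω φ) d₀ : Fin (r * 2) → Matrix ι ι ℂ) :=
  continuous_pi fun c => continuous_matrix fun i j => by
    simp only [fam, base, Cartan.OrbitModel.lblMat, Matrix.of_apply]
    split_ifs
    · exact continuous_const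
    · exact (O.ent (φ i) (φ j)).continuous
    · simp only [Matrix.sub_apply, Matrix.of_apply]
      exact continuous_const.sub (O.ent (φ i) (φ j)).continuous

theorem eventually_const (hwc : IsLocallyConstant w) (hdc : ∀ b, IsLocallyConstant (d b))
    (φ : ι → List (Fin L)) (ω₀ : Ω) :
    ∀ᶠ ω in 𝓝 ω₀, (fun i => w (O.act (φ i) ω)) = (fun i => w (O.act (φ i) ω₀)) ∧
      (fun b i => d b (O.act (φ i) ω)) = fun b i => d b (O.act (φ i) ω₀) := by
  filter_upwards [eventually_all.2 fun i =>
      (hwc.comp_continuous (O.continuous_act (φ i))).eventually_eq ω₀,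
    eventually_all.2 fun b => eventually_all.2 fun i =>
      ((hdc b).comp_continuous (O.continuous_act (φ i))).eventually_eq ω₀] with ω h1 h2
  exact ⟨funext h1, funext fun b => funext fun i => h2 b i⟩

theorem locCont_V (hO : HalfDiag O) (hwc : IsLocallyConstant w) (hw : IsLaw w)
    (hdc : ∀ b, IsLocallyConstant (d b)) {f : ℝ[X]} (hf : f.eval 0 = 0) :
    O.LocCont fun _ S => V O w d f S := by
  intro n φ a ω₀ hinj
  obtain ⟨U, hU, hUo, hω₀⟩ := eventually_nhds_iff.1
    ((O.eventually_injective hinj).and (eventually_const O hwc hdc φ ω₀))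
  set d₀ : Fin 2 → Fin n → Bool := fun b i => d b (O.act (φ i) ω₀)
  have hM : Continuous fun ω : U => (fam (O.lblMat (ω : Ω) φ) d₀ : Fin (r * 2) → _) :=
    (continuous_famAt O d₀ φ).comp continuous_subtype_val
  have hH : ∀ (ω : U) (c : Fin (r * 2)), (fam (O.lblMat (ω : Ω) φ) d₀ c).IsHermitian := fun ω c =>
    (posSemidef_fam (O.posSemidef_lblMat (hU ω.1 ω.2).1).1
      (O.posSemidef_lblMat (hU ω.1 ω.2).1).2 (fun _ => hO _ _) d₀ c).1.1
  have hc := continuous_potential (G := fun ω : U => fam (O.lblMat (ω : Ω) φ) d₀) hH hM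
    (w := fun i => w (O.act (φ i) ω₀)) (fun i => hw _) hf
  have : ContinuousOn (fun ω => V O w d f (Finset.univ.image fun i => O.act (φ i) ω)) U := by
    rw [continuousOn_iff_continuous_restrict]
    refine hc.congr fun ω => ?_
    obtain ⟨h1, h2, h3⟩ := hU ω.1 ω.2
    rw [Set.restrict_apply, V_eq O w d f φ ω h1, famAt, h2, h3]
  exact this.continuousAt (hUo.mem_nhds hω₀)

theorem locCont_P (hwc : IsLocallyConstant w) (hw : IsLaw w)
    (hdc : ∀ b, IsLocallyConstant (d b)) (f : ℝ[X]) :
    O.LocCont fun v S => P O w d f v S := by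
  intro n φ a ω₀ hinj
  by_cases ha : ∃ i, O.act a ω₀ = O.act (φ i) ω₀
  · obtain ⟨i₀, hi₀⟩ := ha
    obtain ⟨U, hU, hUo, hω₀⟩ := eventually_nhds_iff.1
      (((O.eventually_injective hinj).and (O.eventually_eq_iff a (φ i₀) ω₀)).and
        (eventually_const O hwc hdc φ ω₀))
    set d₀ : Fin 2 → Fin n → Bool := fun b i => d b (O.act (φ i) ω₀)
    have hM : Continuous fun ω : U => (fam (O.lblMat (ω : Ω) φ) d₀ : Fin (r * 2) → _) :=
      (continuous_famAt O d₀ φ).comp continuous_subtype_val
    have hc := continuous_Phi hM (w := fun i => w (O.act (φ i) ω₀)) (fun i => hw _) f i₀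
    have : ContinuousOn
        (fun ω => P O w d f (O.act a ω) (Finset.univ.image fun i => O.act (φ i) ω)) U := by
      rw [continuousOn_iff_continuous_restrict]
      refine hc.congr fun ω => ?_
      obtain ⟨⟨h1, h1'⟩, h2, h3⟩ := hU ω.1 ω.2
      rw [Set.restrict_apply, h1'.2 hi₀, P_eq O w d f φ ω h1, famAt, h2, h3]
    exact this.continuousAt (hUo.mem_nhds hω₀)
  · push Not at ha
    refine (continuousAt_const (y := (0 : ℝ))).congr ?_
    filter_upwards [eventually_all.2 fun i => O.eventually_eq_iff a (φ i) ω₀] with ω hω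
    rw [P, dif_neg]
    simp only [Finset.mem_image, Finset.mem_univ, true_and, not_exists]
    exact fun i e => ha i ((hω i).1 e.symm)

end Orbit

end Vale.Agent.P078.Quad
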