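import Vale.Agent.P078.Cartan.Quad.Batch

/-!
Colouring with priorities: near every point a set of good colours for each pattern of earlier
colours, equivariant under renaming the colours, and the first good colour in the order given by
a permutation.
-/

namespace Vale.Agent.P078.Quad

open Polynomial Function Filter Topology
open scoped ComplexOrder Real
open Vale.Agent.P078.Cartan (OrbitModel NearStep)
open Vale.Agent.P078.Cartan.OrbitModel (wordsLE mem_wordsLE)

set_option linter.unusedSectionVars false

section Finite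

variable {ι : Type*} [Fintype ι] [DecidableEq ι] {r R : ℕ}

/-- Renaming the states leaves the potential unchanged. -/
theorem potential_perm_states (G : Fin R → Matrix ι ι ℂ) (w : ι → Fin R → ℝ)
    (e : Equiv.Perm (Fin R)) (hG : ∀ s, G (e s) = G s) (f : ℝ[X]) :
    potential G (fun i s => w i (e s)) f = potential G w f := by
  refine potential_congr ?_ f
  unfold echar
  refine Fintype.sum_equiv ((Equiv.refl ι).arrowCongr e) _ _ fun s => ?_
  have h1 : pinch G ((Equiv.refl ι).arrowCongr e s) = pinch G s := by
    ext i j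
    simp [pinch, hG, e.injective.eq_iff]
  rw [h1]
  simp [Cartan.weight]

/-- Renaming colours, as a permutation of the states. -/
def permState (σ : Equiv.Perm (Fin r)) : Equiv.Perm (Fin (r * 2)) :=
  finProdFinEquiv.symm.trans ((σ.prodCongr (Equiv.refl (Fin 2))).trans finProdFinEquiv)

theorem colour_permState (σ : Equiv.Perm (Fin r)) (s : Fin (r * 2)) :
    colour (permState σ s) = σ (colour s) := by
  simp [permState, colour]

theorem side_permState (σ : Equiv.Perm (Fin r)) (s : Fin (r * 2)) :
    side (permState σ s) = side s := by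
  simp [permState, side]

/-- The law of a colour, uniform if there is none yet. -/
noncomputable def lawOf : Option (Fin r) → Fin (r * 2) → ℝ
  | none => uniformLaw Unit (r * 2) ()
  | some c => half c

theorem isLaw_lawOf (hr : 0 < r) (o : Option (Fin r)) :
    (∀ s, 0 ≤ lawOf o s) ∧ ∑ s, lawOf o s = 1 := by
  cases o with
  | none => exact Cartan.isLaw_uniform (Nat.mul_pos hr two_pos) ()
  | some c => exact isLaw_half c

theorem lawOf_permState (σ : Equiv.Perm (Fin r)) (o : Option (Fin r)) (s : Fin (r * 2)) :
    lawOf (o.map σ) (permState σ s) = lawOf o s := by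
  cases o with
  | none => simp [lawOf, uniformLaw]
  | some c => simp [lawOf, half, colour_permState]

end Finite

/-- The colours seen at the words of a window. -/
abbrev Pattern (L r : ℕ) : Type := List (Fin L) → Option (Fin r)

/-- The good colours of every pattern. -/
abbrev Rule (L r : ℕ) : Type := Pattern L r → Finset (Fin r)

/-- Renaming the colours of a pattern renames the good colours. -/
def Rule.Equivariant {L r : ℕ} (R : Rule L r) : Prop :=
  ∀ (σ : Equiv.Perm (Fin r)) (P : Pattern L r),
    R (fun x => (P x).map σ) = (R P).map σ.toEmbedding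

/-- The least element of a set of colours. -/
noncomputable def least {r : ℕ} [NeZero r] (T : Finset (Fin r)) : Fin r :=
  if h : T.Nonempty then T.min' h else 0

/-- The first good colour in the order of a permutation. -/
noncomputable def pick {r : ℕ} [NeZero r] (p : Equiv.Perm (Fin r)) (S : Finset (Fin r)) : Fin r :=
  p (least (Finset.univ.filter fun i => p i ∈ S))

theorem pick_map {r : ℕ} [NeZero r] (σ p : Equiv.Perm (Fin r)) (S : Finset (Fin r)) :
    pick (σ * p) (S.map σ.toEmbedding) = σ (pick p S) := by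
  have e : (Finset.univ.filter fun i => (σ * p) i ∈ S.map σ.toEmbedding) =
      Finset.univ.filter fun i => p i ∈ S := by
    ext i
    simp
  unfold pick
  rw [e, Equiv.Perm.mul_apply]

theorem pick_mem {r : ℕ} [NeZero r] (p : Equiv.Perm (Fin r)) {S : Finset (Fin r)}
    (h : S.Nonempty) : pick p S ∈ S := by
  obtain ⟨c, hc⟩ := h
  have hne : (Finset.univ.filter fun i => p i ∈ S).Nonempty := ⟨p.symm c, by simp [hc]⟩
  rw [pick, least, dif_pos hne]
  exact (Finset.mem_filter.1 (Finset.min'_mem _ hne)).2

section Orbit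

variable {Ω : Type} [TopologicalSpace Ω] [CompactSpace Ω] [T2Space Ω] [TotallyDisconnectedSpace Ω]
  [DecidableEq Ω]
  {L : ℕ} {α : ℝ} (O : OrbitModel Ω L α) {r : ℕ}

/-- A locally constant choice of an index that works near every point. -/
theorem exists_locConst_choice {ι : Type*} (p : ι → Ω → Prop)
    (h : ∀ ω, ∃ i, ∀ᶠ y in 𝓝 ω, p i y) :
    ∃ f : Ω → ι, IsLocallyConstant f ∧ ∀ ω, p (f ω) ω := by
  classical
  choose g hg using h
  choose C hC hωC hCsub using fun ω => compact_exists_isClopen_in_isOpen isOpen_interior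
    (mem_interior_iff_mem_nhds.2 (hg ω))
  obtain ⟨s, hs⟩ := isCompact_univ.elim_finite_subcover C (fun ω => (hC ω).2)
    fun ω _ => Set.mem_iUnion.2 ⟨ω, hωC ω⟩
  let l := s.toList
  let F : Fin l.length → Ω → ℝ := fun j ω => if ω ∈ C (l.get j) then 0 else 1
  have hF : ∀ j, Continuous (F j) := fun j => IsLocallyConstant.continuous (by
    rw [IsLocallyConstant.iff_eventually_eq]
    intro ω
    by_cases hω : ω ∈ C (l.get j)
    · filter_upwards [(hC _).2.mem_nhds hω] with y hy
      simp only [F, if_pos hω, if_pos hy]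
    · filter_upwards [(hC _).compl.2.mem_nhds hω] with y hy
      simp only [F, if_neg hω, if_neg (show y ∉ C (l.get j) from hy)])
  obtain ⟨k, hk, hk'⟩ := OrbitModel.exists_choice F hF (1 / 2) fun ω => by
    obtain ⟨x, hx, hωx⟩ := Set.mem_iUnion₂.1 (hs (Set.mem_univ ω))
    obtain ⟨j, hj⟩ := List.get_of_mem (Finset.mem_toList.2 hx)
    refine ⟨j, ?_⟩
    have hω' : ω ∈ C (l.get j) := hj.symm ▸ hωx
    simp only [F, if_pos hω']
    norm_num
  refine ⟨fun ω => g (l.get (k ω)), hk.comp fun j => g (l.get j), fun ω => ?_⟩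
  have hmem : ω ∈ C (l.get (k ω)) := by
    by_contra hcon
    have := hk' ω
    simp only [F, if_neg hcon] at this
    norm_num at this
  exact interior_subset (s := {y | p (g (l.get (k ω))) y}) (hCsub _ hmem)

/-- Nothing decoupled. -/
def noDec : Fin 2 → Ω → Bool := fun b _ => (fun _ : Fin 2 => false) b

theorem isLocallyConstant_noDec (b : Fin 2) : IsLocallyConstant (noDec (Ω := Ω) b) :=
  IsLocallyConstant.const _

/-- The good colours near a point. -/
theorem exists_rule (hO : HalfDiag O) (hr : 0 < r) {t η γ : ℝ} {f : ℝ[X]}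
    (hf : NearStep t η γ f) (hη : 0 < η) (hγ : 0 < γ) (m : ℕ) (ω₀ : Ω) :
    ∃ R : Rule L r, R.Equivariant ∧ ∀ᶠ ω in 𝓝 ω₀, ∀ (P : Pattern L r) (w : Ω → Fin (r * 2) → ℝ),
      (∀ x ∈ wordsLE L m, w (O.act x ω) = lawOf (P x)) → P [] = none →
      (R P).Nonempty ∧ ∀ c ∈ R P,
        V O (update w ω (half c)) noDec f (O.ball ω m) - V O w noDec f (O.ball ω m) ≤ 3 * γ := by
  obtain ⟨n, ψ₀, i₀, hev₀⟩ := O.exists_chart ω₀ m
  obtain ⟨-, hball, -⟩ := hev₀.self_of_nhds
  have hlen : ∀ i, ∃ x : List (Fin L), x.length ≤ m ∧ O.act x ω₀ = O.act (ψ₀ i) ω₀ := fun i =>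
    O.mem_ball.1 (hball ▸ Finset.mem_image_of_mem _ (Finset.mem_univ i))
  choose ψ hψlen hψ using hlen
  have hev : ∀ᶠ ω in 𝓝 ω₀, Injective (fun i => O.act (ψ i) ω) ∧
      O.ball ω m = Finset.univ.image (fun i => O.act (ψ i) ω) ∧ O.act (ψ i₀) ω = ω := by
    filter_upwards [hev₀, eventually_all.2 fun i => O.eventually_eq_iff (ψ i) (ψ₀ i) ω₀]
      with ω h h'
    have e : (fun i => O.act (ψ i) ω) = fun i => O.act (ψ₀ i) ω :=
      funext fun i => (h' i).2 (hψ i)
    rw [e, show O.act (ψ i₀) ω = O.act (ψ₀ i₀) ω from congrFun e i₀]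
    exact h
  obtain ⟨hinj₀, -, -⟩ := hev.self_of_nhds
  let G : Ω → Fin (r * 2) → Matrix (Fin n) (Fin n) ℂ := fun ω => famAt O noDec ω ψ
  let Ψ : (Fin n → Option (Fin r)) → Fin r → Ω → ℝ := fun u c ω =>
    potential (G ω) (update (fun i => lawOf (u i)) i₀ (half c)) f
      - potential (G ω) (fun i => lawOf (u i)) f
  have hlaw : ∀ u : Fin n → Option (Fin r), IsLaw fun i => lawOf (u i) := fun u i =>
    isLaw_lawOf hr _
  have hcont : ∀ u c, ContinuousAt (Ψ u c) ω₀ := by
    obtain ⟨U, hU, hUo, hω₀⟩ := eventually_nhds_iff.1 hev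
    intro u c
    have hM : Continuous fun ω : U => G ω :=
      (continuous_famAt O (fun _ _ => false) ψ).comp continuous_subtype_val
    have hH : ∀ (ω : U) s, (G ω s).IsHermitian := fun ω s =>
      (posSemidef_famAt O hO _ (hU ω.1 ω.2).1 s).1.1
    have h : ContinuousOn (Ψ u c) U := by
      rw [continuousOn_iff_continuous_restrict]
      exact (continuous_potential hH hM (isLaw_update (hlaw u) i₀ (isLaw_half c)) hf.zero).sub
        (continuous_potential hH hM (hlaw u) hf.zero)
    exact h.continuousAt (hUo.mem_nhds hω₀)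
  refine ⟨fun P => Finset.univ.filter fun c => Ψ (fun i => P (ψ i)) c ω₀ ≤ 5 / 2 * γ, ?_, ?_⟩
  · intro σ P
    ext c
    simp only [Finset.mem_filter, Finset.mem_univ, true_and, Finset.mem_map_equiv]
    have key : Ψ (fun i => (P (ψ i)).map σ) c ω₀ = Ψ (fun i => P (ψ i)) (σ.symm c) ω₀ := by
      have hG : ∀ s, G ω₀ (permState σ s) = G ω₀ s := fun s => by
        simp only [G, famAt, fam, side_permState]
      simp only [Ψ]
      rw [← potential_perm_states (G ω₀) (update (fun i => lawOf ((P (ψ i)).map σ)) i₀ (half c))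
          (permState σ) hG, ← potential_perm_states (G ω₀) (fun i => lawOf ((P (ψ i)).map σ))
          (permState σ) hG]
      congr 2
      · funext i s
        rcases eq_or_ne i i₀ with rfl | h
        · rw [update_self, update_self]
          simp [half, colour_permState, Equiv.eq_symm_apply]
        · rw [update_of_ne h, update_of_ne h, lawOf_permState]
      · funext i s
        rw [lawOf_permState]
    rw [key]
  · have hclose : ∀ᶠ ω in 𝓝 ω₀, ∀ u c, Ψ u c ω < Ψ u c ω₀ + γ / 2 :=
      eventually_all.2 fun u => eventually_all.2 fun c =>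
        (hcont u c).eventually (gt_mem_nhds (by linarith))
    filter_upwards [hev, hclose] with ω hω hcl P w hwP hP0
    obtain ⟨hinj, hb, h0⟩ := hω
    set u : Fin n → Option (Fin r) := fun i => P (ψ i)
    have hwu : (fun i => w (O.act (ψ i) ω)) = fun i => lawOf (u i) :=
      funext fun i => hwP _ (mem_wordsLE.2 (hψlen i))
    refine ⟨?_, fun c hc => ?_⟩
    · have hP := fun s : Fin (r * 2) => posSemidef_famAt O hO (noDec (Ω := Ω)) hinj₀ s
      obtain ⟨c, hc⟩ := exists_law_potential_le (K := Fin r) hf hη (fun s => (hP s).1)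
        (fun s => (hP s).2) (hlaw u) i₀ (fun _ => 1 / r) half (fun _ => by positivity) isLaw_half
        (fun s => by
          have h1 : lawOf (u i₀) = w ω := by rw [← congrFun hwu i₀, h0]
          have h2 : w ω = lawOf (P []) := hwP [] (mem_wordsLE.2 (Nat.zero_le _))
          rw [h1, h2, hP0]
          exact uniform_eq_half s)
      exact ⟨c, Finset.mem_filter.2 ⟨Finset.mem_univ _, by simp only [Ψ, G]; linarith⟩⟩
    · have hc' : Ψ u c ω₀ ≤ 5 / 2 * γ := (Finset.mem_filter.1 hc).2
      have e1 : (fun i => update w ω (half c) (O.act (ψ i) ω)) =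
          update (fun i => lawOf (u i)) i₀ (half c) := by
        funext i
        rcases eq_or_ne i i₀ with rfl | h
        · rw [h0, update_self, update_self]
        · rw [update_of_ne h, update_of_ne fun e => h (hinj (e.trans h0.symm))]
          exact congrFun hwu i
      rw [hb, V_eq O _ noDec f ψ ω hinj, V_eq O _ noDec f ψ ω hinj, e1, hwu]
      have := hcl u c
      simp only [Ψ, G] at this hc' ⊢
      linarith

end Orbit

end Vale.Agent.P078.Quad
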