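import Vale.Agent.P078.Cartan.Quad.Local
import Vale.Agent.P078.Cartan.Arrow

/-!
Decoupling a point in some states decreases every convex sum over the expected roots.
-/

namespace Vale.Agent.P078.Quad

open Matrix Polynomial Function
open Vale.Agent.P078.Cartan (RealPoly den den_real den_eval_ne_zero PickLike ZerosIn zeroSum
  zeroSum_mono realPoly_of_eval_im isLaw_dirac_update weight_update det_updateRow_single_congr
  im_div_nonneg rootProd maskE_apply sum_weight)
open scoped ComplexOrder

set_option linter.unusedSectionVars false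

variable {ι : Type*} [Fintype ι] [DecidableEq ι] {r : ℕ}

/-- In the states of `Z` the point `i` keeps only its diagonal entry. -/
def decF (G : Fin r → Matrix ι ι ℂ) (i : ι) (Z : Finset (Fin r)) : Fin r → Matrix ι ι ℂ :=
  fun c => Matrix.of fun j k => if c ∈ Z ∧ j ≠ k ∧ (j = i ∨ k = i) then 0 else G c j k

theorem decF_apply (G : Fin r → Matrix ι ι ℂ) (i : ι) (Z : Finset (Fin r)) (c : Fin r) (j k : ι) :
    decF G i Z c j k = if c ∈ Z ∧ j ≠ k ∧ (j = i ∨ k = i) then 0 else G c j k := rfl

theorem isHermitian_decF {G : Fin r → Matrix ι ι ℂ} (hG : ∀ c, (G c).IsHermitian) (i : ι)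
    (Z : Finset (Fin r)) (c : Fin r) : (decF G i Z c).IsHermitian := by
  ext j k
  simp only [conjTranspose_apply, decF_apply]
  by_cases h : c ∈ Z ∧ j ≠ k ∧ (j = i ∨ k = i)
  · rw [if_pos ⟨h.1, h.2.1.symm, h.2.2.symm⟩, if_pos h, star_zero]
  · rw [if_neg h, if_neg fun h' => h ⟨h'.1, h'.2.1.symm, h'.2.2.symm⟩]
    exact (hG c).apply j k

theorem maskEF_decF (G : Fin r → Matrix ι ι ℂ) (i : ι) (Z : Finset (Fin r)) :
    maskEF (decF G i Z) i = maskEF G i := by
  funext c
  ext j k
  simp only [maskEF, maskE_apply, decF_apply]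
  by_cases h : j ≠ i ∧ k ≠ i
  · rw [if_pos h, if_pos h, if_neg fun h' => h'.2.2.elim h.1 h.2]
  · rw [if_neg h, if_neg h]

theorem pinch_decF_of_notMem (G : Fin r → Matrix ι ι ℂ) (i : ι) (Z : Finset (Fin r))
    (s : ι → Fin r) (h : s i ∉ Z) : pinch (decF G i Z) s = pinch G s := by
  ext j k
  simp only [pinch, Matrix.of_apply]
  split_ifs with hjk
  · rw [decF_apply, if_neg]
    rintro ⟨h1, -, rfl | rfl⟩
    · exact h h1
    · exact h (hjk ▸ h1)
  · rfl

theorem rest_decF_of_notMem (G : Fin r → Matrix ι ι ℂ) (w : ι → Fin r → ℝ) (i : ι)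
    (Z : Finset (Fin r)) (z : ι → ℂ) {c : Fin r} (h : c ∉ Z) :
    rest (decF G i Z) (update w i (dirac c)) i z = rest G (update w i (dirac c)) i z := by
  unfold rest Fdet
  refine Finset.sum_congr rfl fun s _ => ?_
  by_cases hs : s i = c
  · rw [pinch_decF_of_notMem G i Z s (hs ▸ h)]
  · rw [weight_update, Cartan.dirac, if_neg hs]
    simp

theorem rest_decF_of_mem (G : Fin r → Matrix ι ι ℂ) (w : ι → Fin r → ℝ) (i : ι)
    (Z : Finset (Fin r)) (z : ι → ℂ) {c : Fin r} (h : c ∈ Z) :
    rest (decF G i Z) (update w i (dirac c)) i z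
      = -(G c i i) * lead G (update w i (dirac c)) i z := by
  unfold rest lead Fdet
  rw [Finset.mul_sum]
  refine Finset.sum_congr rfl fun s _ => ?_
  by_cases hs : s i = c
  · rw [mul_left_comm]
    congr 1
    rw [← maskEF_decF G i Z, pinch_maskE]
    set M := diagonal (update z i 0) - pinch (decF G i Z) s with hM
    have h1 : M = M.updateRow i ((-(G c i i)) • Pi.single i 1) := by
      ext j k
      rcases eq_or_ne j i with rfl | hj
      · rcases eq_or_ne j k with rfl | hk
        · simp [hM, pinch, decF_apply, hs]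
        · simp [hM, pinch, decF_apply, hs, hk, h, Ne.symm hk]
      · rw [updateRow_ne hj]
    rw [h1, det_updateRow_smul, det_updateRow_single_congr (N :=
      diagonal (update z i 1) - maskE (pinch (decF G i Z) s) i)]
    · congr 2
      ext j k
      rcases eq_or_ne j i with rfl | hj
      · rcases eq_or_ne j k with rfl | hk
        · simp [maskE_apply]
        · simp [maskE_apply, hk, Ne.symm hk]
      · rw [updateRow_ne hj]
    · intro j k hj hk
      simp [hM, maskE_apply, hj, hk, diagonal_apply]
  · rw [weight_update, Cartan.dirac, if_neg hs]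
    simp

theorem echar_coeff_pred (G : Fin r → Matrix ι ι ℂ) {w : ι → Fin r → ℝ} (hw : IsLaw w)
    [Nonempty ι] :
    (echar G w).coeff (Fintype.card ι - 1) = -∑ j, ∑ c, (w j c : ℂ) * G c j j := by
  have htr : ∀ s : ι → Fin r, (pinch G s).charpoly.coeff (Fintype.card ι - 1)
      = -∑ j, G (s j) j j := fun s => by
    have h := trace_eq_neg_charpoly_coeff (pinch G s)
    rw [← neg_eq_iff_eq_neg.2 h]
    simp [Matrix.trace, pinch]
  have hmarg : ∀ (j : ι) (f : Fin r → ℂ),
      ∑ s : ι → Fin r, weight w s * f (s j) = ∑ c, (w j c : ℂ) * f c := fun j f => by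
    set g : ι → Fin r → ℂ := fun k c => if k = j then (w k c : ℂ) * f c else (w k c : ℂ)
    have h1 : ∀ s : ι → Fin r, weight w s * f (s j) = ∏ k, g k (s k) := fun s => by
      have e : ∏ k ∈ Finset.univ.erase j, g k (s k)
          = ∏ k ∈ Finset.univ.erase j, (w k (s k) : ℂ) :=
        Finset.prod_congr rfl fun k hk => if_neg (Finset.ne_of_mem_erase hk)
      rw [Cartan.weight, ← Finset.mul_prod_erase _ (fun k => (w k (s k) : ℂ)) (Finset.mem_univ j),
        ← Finset.mul_prod_erase _ (fun k => g k (s k)) (Finset.mem_univ j), e]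
      simp only [g, if_true]
      ring
    rw [Finset.sum_congr rfl fun s _ => h1 s, ← Fintype.prod_sum g,
      Finset.prod_eq_single j (fun k _ hk => ?_) (by simp)]
    · simp [g]
    · simp only [g, if_neg hk]
      exact_mod_cast (hw k).2
  simp only [echar, finsetSum_coeff, coeff_C_mul, htr, mul_neg, Finset.sum_neg_distrib,
    Finset.mul_sum]
  rw [Finset.sum_comm]
  exact congrArg Neg.neg (Finset.sum_congr rfl fun j _ => hmarg j fun c => G c j j)

theorem echar_eq_den {G : Fin r → Matrix ι ι ℂ} (hG : ∀ c, (G c).IsHermitian)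
    {w : ι → Fin r → ℝ} (hw : IsLaw w) : echar G w = den (roots G w) :=
  Polynomial.funext fun z => by
    rw [echar_eval_eq hG hw]
    simp [den, rootProd, eval_multiset_prod, Multiset.map_map]

theorem roots_den (L : Multiset ℝ) : (den L).roots.map Complex.re = L := by
  have e : den L = ((L.map fun a : ℝ => (a : ℂ)).map fun b => X - C b).prod := by
    rw [den, Multiset.map_map]
    rfl
  rw [e, roots_multiset_prod_X_sub_C, Multiset.map_map]
  simp

theorem zeroSum_den (φ : ℝ → ℝ) (L : Multiset ℝ) : zeroSum φ (den L) = (L.map φ).sum := by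
  rw [zeroSum, roots_den]

/-- The rest of the parent is the combination of the rests of the children. -/
theorem rest_split (G : Fin r → Matrix ι ι ℂ) (w : ι → Fin r → ℝ) (i : ι) (z : ι → ℂ) :
    rest G w i z = ∑ c, (w i c : ℂ) * rest G (update w i (dirac c)) i z :=
  Fdet_split G w i _

/-- Decoupling the point `i` in the states of `Z` decreases convex sums over the roots. -/
theorem potential_decF_le {G : Fin r → Matrix ι ι ℂ} (hG : ∀ c, (G c).IsHermitian)
    {w : ι → Fin r → ℝ} (hw : IsLaw w) (i : ι) (Z : Finset (Fin r)) {f : ℝ[X]} {I : Set ℝ}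
    (hf : ConvexOn ℝ I fun x => f.eval x) (hI : ∀ x ∈ roots G w, x ∈ I) :
    potential (decF G i Z) w f ≤ potential G w f := by
  have : Nonempty ι := ⟨i⟩
  have hG' := isHermitian_decF hG i Z
  have hGm : ∀ c, (maskEF G i c).IsHermitian := fun c => Cartan.isHermitian_mask (hG c) _
  have hcard : 0 < Fintype.card ι := Fintype.card_pos
  set n := Fintype.card ι
  -- the polynomial of the minor
  set Em := echar (maskEF G i) w with hEm
  have hEm0 : Em.IsRoot 0 := by
    rw [IsRoot, echar_eval, Fdet_maskE, zero_mul]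
  set m := Em /ₘ (X - C 0) with hm_def
  have hXm : X * m = Em := by
    have := mul_divByMonic_eq_iff_isRoot.2 hEm0
    rw [← hm_def, map_zero, sub_zero] at this
    exact this
  have hmmon : m.Monic := monic_X.of_mul_monic_left (hXm ▸ echar_monic _ hw)
  have hmdeg : m.natDegree = n - 1 := by
    have h := congrArg natDegree hXm
    rw [natDegree_X_mul hmmon.ne_zero, echar_natDegree _ hw] at h
    omega
  set L := m.roots.map Complex.re with hLdef
  have hmL : m = den L := by
    have hreal : ∀ x ∈ m.roots, x.im = 0 := fun x hx => root_im hGm hw (by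
      rw [← hEm, ← hXm, eval_mul, show m.eval x = 0 from isRoot_of_mem_roots hx, mul_zero])
    conv_lhs => rw [(IsAlgClosed.splits m).eq_prod_roots_of_monic hmmon]
    rw [den, hLdef, Multiset.map_map]
    congr 1
    refine Multiset.map_congr rfl fun x hx => ?_
    simp only [Function.comp_apply]
    rw [show ((x.re : ℝ) : ℂ) = x from Complex.ext rfl (by simp [hreal x hx])]
  have hLcard : Multiset.card L = n - 1 := by
    rw [hLdef, Multiset.card_map, IsAlgClosed.card_roots_eq_natDegree, hmdeg]
  have hlead : ∀ z : ℂ, z ≠ 0 → lead G w i (fun _ => z) = (den L).eval z := fun z hz => by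
    have h := congrArg (fun p => Polynomial.eval z p) hXm
    simp only [eval_mul, eval_X, hEm, echar_eval, Fdet_maskE] at h
    rw [← hmL]
    exact (mul_left_cancel₀ hz h).symm
  -- the pivot
  set a : ℝ := ∑ c, w i c * (G c i i).re with hadef
  have hdiag : ∀ c, (G c i i) = ((G c i i).re : ℂ) := fun c =>
    ((hG c).coe_re_apply_self i).symm
  have haC : (a : ℂ) = ∑ c, (w i c : ℂ) * G c i i := by
    rw [hadef, Complex.ofReal_sum]
    exact Finset.sum_congr rfl fun c _ => by rw [Complex.ofReal_mul, ← hdiag]
  set P := (X - C (a : ℂ)) * den L with hP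
  have hPm : P = X * m - C (a : ℂ) * m := by rw [hP, ← hmL, sub_mul]
  -- both families
  have fam : ∀ H : Fin r → Matrix ι ι ℂ, (∀ c, (H c).IsHermitian) → (∀ c, H c i i = G c i i) →
      maskEF H i = maskEF G i →
      RealPoly (P - echar H w) ∧ (P - echar H w).degree < Multiset.card L ∧
        ∀ z : ℂ, 0 < z.im → (P - echar H w).eval z / (den L).eval z
          = -∑ c, (w i c : ℂ) * (G c i i + rest H (update w i (dirac c)) i (fun _ => z)
              / lead G w i fun _ => z) := by
    intro H hH hHd hHm
    refine ⟨?_, ?_, fun z hz => ?_⟩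
    · have h1 : (echar H w).map (starRingEnd ℂ) = echar H w := by
        rw [echar_eq_den hH hw]; exact den_real _
      show (P - echar H w).map _ = _
      rw [Polynomial.map_sub, h1, hP, Polynomial.map_mul,
        show (den L).map (starRingEnd ℂ) = den L from den_real L]
      simp
    · rw [hLcard, degree_lt_iff_coeff_zero]
      intro k hk
      have hPn : P.natDegree = n := by
        rw [hP, ← hmL, natDegree_mul (X_sub_C_ne_zero _) hmmon.ne_zero, natDegree_X_sub_C, hmdeg]
        omega
      rcases lt_trichotomy k n with hlt | rfl | hgt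
      · obtain rfl : k = n - 1 := by omega
        have e1 := echar_coeff_pred H hw
        have e2 := echar_coeff_pred (maskEF G i) hw
        rw [← hEm, ← hXm] at e2
        rw [coeff_sub, hPm, coeff_sub, e2, coeff_C_mul, e1]
        have e3 : m.coeff (n - 1) = 1 := hmdeg ▸ hmmon.coeff_natDegree
        rw [e3, mul_one, haC, sub_neg_eq_add, ← Finset.add_sum_erase
          _ (fun j => ∑ c, (w j c : ℂ) * H c j j) (Finset.mem_univ i),
          ← Finset.add_sum_erase _ (fun j => ∑ c, (w j c : ℂ) * maskEF G i c j j)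
            (Finset.mem_univ i)]
        have e4 : ∑ c, (w i c : ℂ) * maskEF G i c i i = 0 := by simp [maskEF, maskE_apply]
        have e5 : ∑ j ∈ Finset.univ.erase i, ∑ c, (w j c : ℂ) * maskEF G i c j j
            = ∑ j ∈ Finset.univ.erase i, ∑ c, (w j c : ℂ) * H c j j := by
          refine Finset.sum_congr rfl fun j hj => Finset.sum_congr rfl fun c _ => ?_
          have hji : j ≠ i := by simpa using hj
          rw [← hHm]
          simp [maskEF, maskE_apply, hji]
        rw [e4, e5, Finset.sum_congr rfl fun c _ => show (w i c : ℂ) * H c i i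
          = (w i c : ℂ) * G c i i by rw [hHd]]
        ring
      · rw [coeff_sub, echar_coeff_card H hw]
        have : P.Monic := (monic_X_sub_C _).mul (hmL ▸ hmmon)
        have h := this.coeff_natDegree
        rw [hPn] at h
        rw [h, sub_self]
      · rw [coeff_sub, coeff_eq_zero_of_natDegree_lt (hPn ▸ hgt),
          coeff_eq_zero_of_natDegree_lt (by rw [echar_natDegree H hw]; exact hgt), sub_zero]
    · have hz0 : z ≠ 0 := fun e => by simp [e] at hz
      have hd0 : (den L).eval z ≠ 0 := den_eval_ne_zero fun b _ e => by simp [e] at hz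
      have e1 : (echar H w).eval z = z * lead G w i (fun _ => z) + rest H w i fun _ => z := by
        rw [echar_eval]
        conv_lhs => rw [← update_eq_self i (fun _ : ι => z), Fdet_affine]
        rw [lead, hHm]
        rfl
      rw [eval_sub, e1, hP, eval_mul, eval_sub, eval_X, eval_C, hlead z hz0, rest_split H, haC]
      simp only [mul_add, Finset.sum_add_distrib, mul_div_assoc', ← Finset.sum_div]
      field_simp
      ring
  obtain ⟨hqr, hqd, hqe⟩ := fam G hG (fun _ => rfl) rfl
  obtain ⟨hq'r, hq'd, hq'e⟩ := fam (decF G i Z) hG'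
    (fun c => by simp [decF_apply]) (maskEF_decF G i Z)
  have hchild : ∀ (H : Fin r → Matrix ι ι ℂ), (∀ c, (H c).IsHermitian) →
      maskEF H i = maskEF G i → ∀ (z : ℂ), 0 < z.im → ∀ c, 0 ≤ w i c *
        (G c i i + rest H (update w i (dirac c)) i (fun _ => z) / lead G w i fun _ => z).im := by
    intro H hH hHm z hz c
    refine mul_nonneg ((hw i).1 c) ?_
    rw [Complex.add_im, show (G c i i).im = 0 by rw [hdiag]; simp, zero_add]
    have hl : lead G w i (fun _ => z) = lead H (update w i (dirac c)) i fun _ => z := by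
      rw [lead_dirac H hw, lead, lead, hHm]
    rw [hl]
    have hwc := isLaw_dirac_update hw i c
    refine im_div_nonneg (lead_ne_zero hH hwc i fun _ => hz) fun b hb => ?_
    rw [← Fdet_affine]
    refine Fdet_ne_zero hH hwc fun j => ?_
    rcases eq_or_ne j i with rfl | hj
    · simpa using hb
    · simpa [update_of_ne hj] using hz
  have hsub : PickLike L ((P - echar G w) - (P - echar (decF G i Z) w)) := ⟨0, fun z hz => by
    rw [eval_sub, sub_div, hqe z hz, hq'e z hz, neg_sub_neg, ← Finset.sum_sub_distrib,
      Complex.im_sum]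
    refine Finset.sum_nonpos fun c _ => ?_
    by_cases hc : c ∈ Z
    · rw [rest_decF_of_mem G w i Z _ hc, lead_dirac G hw, neg_mul, neg_div, mul_div_assoc,
        div_self (lead_ne_zero hG hw i fun _ => hz), mul_one, add_neg_cancel, mul_zero,
        zero_sub, Complex.neg_im, Complex.im_ofReal_mul, Left.neg_nonpos_iff]
      exact hchild G hG rfl z hz c
    · rw [rest_decF_of_notMem G w i Z _ hc, sub_self, Complex.zero_im]⟩
  have hq'p : PickLike L (P - echar (decF G i Z) w) := ⟨0, fun z hz => by
    rw [hq'e z hz, Complex.neg_im, neg_nonpos, Complex.im_sum]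
    refine Finset.sum_nonneg fun c _ => ?_
    rw [Complex.im_ofReal_mul]
    exact hchild _ hG' (maskEF_decF G i Z) z hz c⟩
  have hsimp : ∀ H, (X - C (a : ℂ)) * den L - (P - echar H w) = echar H w := fun H => by
    rw [hP]; ring
  have key := zeroSum_mono hf L a hqr hq'r hqd hq'd hsub hq'p (by
    rw [hsimp, echar_eq_den hG hw, ZerosIn, roots_den]
    exact hI)
  rw [hsimp, hsimp, echar_eq_den hG hw, echar_eq_den hG' hw, zeroSum_den, zeroSum_den] at key
  exact key

end Vale.Agent.P078.Quad
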