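import Vale.Agent.P078.Cartan.Quad.SetFun
import Vale.Agent.P078.Cartan.Quad.Decouple

/-!
Changing one batch of far apart points: the effect on the traced averaged increment.
-/

namespace Vale.Agent.P078.Quad

open Polynomial Function Filter Topology
open scoped ComplexOrder Real
open Vale.Agent.P078.Cartan (OrbitModel mob NearStep)

set_option linter.unusedSectionVars false

variable {Ω : Type} [TopologicalSpace Ω] [CompactSpace Ω] [T2Space Ω] [TotallyDisconnectedSpace Ω]
  [DecidableEq Ω]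
  {L : ℕ} {α : ℝ} (O : OrbitModel Ω L α) {r : ℕ}
variable {w w' : Ω → Fin (r * 2) → ℝ} {d d' : Fin 2 → Ω → Bool}

theorem V_congr {S : Finset Ω} (hw : ∀ a ∈ S, w a = w' a) (hd : ∀ b, ∀ a ∈ S, d b a = d' b a)
    (f : ℝ[X]) : V O w d f S = V O w' d' f S := by
  unfold V
  split_ifs with hne
  · congr 1
    · unfold famAt
      congr 1
      funext b a
      beta_reduce
      by_cases hreach : ∃ u, O.act u hne.choose = (a : Ω)
      · obtain ⟨u, hu⟩ := hreach
        rw [O.act_name hu]
        exact hd b a a.2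
      · have hne' : (a : Ω) ≠ hne.choose := fun e => hreach ⟨[], by rw [e]; rfl⟩
        have : O.name hne.choose (a : Ω) = [] := by
          unfold OrbitModel.name
          rw [if_neg hne', dif_neg hreach]
        rw [this]
        exact hd b _ hne.choose_spec
    · exact funext fun a => hw a a.2
  · rfl

/-- The averaged increment of a state. -/
noncomputable def shareC (hO : HalfDiag O) (hwc : IsLocallyConstant w) (hw : IsLaw w)
    (hdc : ∀ b, IsLocallyConstant (d b)) {f : ℝ[X]} (hf : f.eval 0 = 0) (m : ℕ) : C(Ω, ℝ) :=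
  ⟨fun ω => O.spread (fun _ S => mob (V O w d f) S) m ω ω,
    O.continuous_spread_self (locCont_V O hO hwc hw hdc hf).mob m⟩

theorem shareC_apply (hO : HalfDiag O) (hwc : IsLocallyConstant w) (hw : IsLaw w)
    (hdc : ∀ b, IsLocallyConstant (d b)) {f : ℝ[X]} (hf : f.eval 0 = 0) (m : ℕ) (ω : Ω) :
    shareC O hO hwc hw hdc hf m ω =
      ∑ S ∈ (O.ball ω m).powerset with ω ∈ S, mob (V O w d f) S / S.card := by
  simp only [shareC, ContinuousMap.coe_mk, OrbitModel.spread, and_self]

/-- If only the points of one batch change and each window potential rises by at most `c`, then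
the traced averaged increment rises by at most `c` times the size of the batch. -/
theorem μ_share_le_of_batch (hO : HalfDiag O) {f : ℝ[X]} (hf : f.eval 0 = 0) {m : ℕ}
    (hm : f.natDegree ≤ m) {N : ℕ} {B : Ω → Fin N} (hB : IsLocallyConstant B)
    (hsep : ∀ u v, v ∈ O.ball u m → B u = B v → u = v) (i : Fin N)
    (hwc : IsLocallyConstant w) (hw : IsLaw w) (hdc : ∀ b, IsLocallyConstant (d b))
    (hwc' : IsLocallyConstant w') (hw' : IsLaw w') (hdc' : ∀ b, IsLocallyConstant (d' b))
    (hsame : ∀ ω, B ω ≠ i → w' ω = w ω ∧ ∀ b, d' b ω = d b ω) {c : ℝ}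
    (hle : ∀ ω, B ω = i → V O w' d' f (O.ball ω m) - V O w d f (O.ball ω m) ≤ c) :
    O.μ (shareC O hO hwc' hw' hdc' hf m) ≤
      O.μ (shareC O hO hwc hw hdc hf m) + c * O.μ (OrbitModel.batchC hB i) := by
  set D : Finset Ω → ℝ := fun S => mob (V O w' d' f) S - mob (V O w d f) S with hD
  set g : Ω → Finset Ω → ℝ := fun v S => if B v = i then D S else 0 with hgdef
  have hg : O.LocCont g := by
    have hp : IsLocallyConstant fun v => B v = i := hB.comp fun j => j = i
    have h1 : O.LocCont fun _ S => mob (V O w' d' f) S := (locCont_V O hO hwc' hw' hdc' hf).mob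
    have h2 : O.LocCont fun _ S => mob (V O w d f) S := (locCont_V O hO hwc hw hdc hf).mob
    exact (h1.sub O h2).indicator O hp
  have hsupp : ∀ S, O.SameOrbit S → D S ≠ 0 → ∀ a ∈ S, S ⊆ O.ball a m := by
    intro S hS hne a ha
    by_cases hc : S.card ≤ m
    · refine O.subset_ball_of_no_gap (Nat.le_succ_of_le hc) (fun hgap => hne ?_) ha
      simp only [hD, (mob_eq_zero O hO hw' hf hS (Or.inr hgap)).1,
        (mob_eq_zero O hO hw hf hS (Or.inr hgap)).1, sub_zero]
    · refine absurd ?_ hne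
      have hc' : f.natDegree < S.card := by omega
      simp only [hD, (mob_eq_zero O hO hw' hf hS (Or.inl hc')).1,
        (mob_eq_zero O hO hw hf hS (Or.inl hc')).1, sub_zero]
  have hsum : ∀ S, O.SameOrbit S → ∑ v ∈ S, g v S = D S := by
    intro S hS
    by_cases hne : D S = 0
    · simp [hgdef, hne]
    by_cases hex : ∃ v ∈ S, B v = i
    · obtain ⟨v, hv, hBv⟩ := hex
      rw [Finset.sum_eq_single v]
      · simp [hgdef, hBv]
      · intro u hu huv
        simp only [hgdef]
        rw [if_neg]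
        exact fun hBu => huv (hsep v u (hsupp S hS hne v hv hu) (hBv.trans hBu.symm)).symm
      · exact fun h => absurd hv h
    · push Not at hex
      refine absurd ?_ hne
      simp only [hD, sub_eq_zero]
      exact Cartan.mob_congr fun T hT => V_congr O (fun a ha => (hsame a (hex a (hT ha))).1)
        (fun b a ha => (hsame a (hex a (hT ha))).2 b) f
  obtain ⟨F, G, hF, hG, hμ⟩ := O.transport (O.spread g m) m (O.continuous_spread hg m)
  have hG' : G = shareC O hO hwc' hw' hdc' hf m - shareC O hO hwc hw hdc hf m := by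
    ext ω
    rw [hG, O.sum_spread_right (g := g)
      (fun v S _ hS hne a ha => hsupp S hS (fun e => hne (by simp [hgdef, e])) a ha)]
    simp only [ContinuousMap.sub_apply, shareC_apply, ← Finset.sum_sub_distrib]
    refine Finset.sum_congr rfl fun S hS => ?_
    simp only [Finset.mem_filter, Finset.mem_powerset] at hS
    rw [hsum S (O.sameOrbit_of_subset_ball hS.1), ← sub_div]
  have hF' : ∀ ω, F ω ≤ (c • OrbitModel.batchC hB i) ω := by
    intro ω
    rw [hF, O.sum_spread_left]
    show _ ≤ c * (if B ω = i then (1 : ℝ) else 0)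
    by_cases hBω : B ω = i
    · rw [if_pos hBω, mul_one]
      simp only [hgdef, if_pos hBω, hD, Finset.sum_sub_distrib, Cartan.sum_mob_mem]
      have hno : ∀ a ∈ (O.ball ω m).erase ω, B a ≠ i := fun a ha hBa =>
        (Finset.mem_erase.1 ha).1 (hsep ω a (Finset.mem_erase.1 ha).2 (hBω.trans hBa.symm)).symm
      have e1 : V O w' d' f ((O.ball ω m).erase ω) = V O w d f ((O.ball ω m).erase ω) :=
        V_congr O (fun a ha => (hsame a (hno a ha)).1) (fun b a ha => (hsame a (hno a ha)).2 b) f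
      rw [e1]
      linarith [hle ω hBω]
    · simp [hgdef, if_neg hBω]
  have := O.μ_mono hF'
  rw [hμ, hG', map_sub, map_smul, smul_eq_mul] at this
  linarith

/-- Uniform laws, nothing decoupled: the averaged increment is small. -/
theorem μ_share_uniform_le (hO : HalfDiag O) (hB : FamilyRootBound) {t t₀ η γ : ℝ} {f : ℝ[X]}
    (hf : NearStep t η γ f) (hη : 0 < η) (hr : 0 < r)
    (ht₀ : (1 / Real.sqrt (r * 2 : ℕ) + Real.sqrt (1 / 2)) ^ 2 ≤ t₀) (ht : t₀ < t) (m : ℕ)
    (hwc : IsLocallyConstant fun _ : Ω => uniformLaw Unit (r * 2) ())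
    (hw : IsLaw fun _ : Ω => uniformLaw Unit (r * 2) ())
    (hdc : ∀ b : Fin 2, IsLocallyConstant fun _ : Ω => (fun _ : Fin 2 => false) b) :
    O.μ (shareC O hO hwc hw hdc hf.zero m) ≤ γ + η / (π * (t - t₀) ^ 2) := by
  refine (O.μ_mono (g := ContinuousMap.const Ω _) fun ω => ?_).trans (O.μ_const _).le
  rw [shareC_apply, ContinuousMap.const_apply]
  refine (le_abs_self _).trans (Cartan.abs_share_le (φ := V O _ _ f) (O.self_mem_ball ω m)
    fun U hU hωU => ?_)
  set φ : O.ball ω m → List (Fin L) := fun a => O.name ω a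
  have hinj := O.injective_name_ball ω m
  set emb : O.ball ω m ↪ Ω := ⟨fun a => O.act (φ a) ω, hinj⟩ with hemb
  let U' : Finset (O.ball ω m) := Finset.univ.filter fun a => (a : Ω) ∈ U
  set i₀ : O.ball ω m := ⟨ω, O.self_mem_ball ω m⟩ with hi₀def
  have hval : ∀ a : O.ball ω m, emb a = (a : Ω) := fun a => O.act_name_ball a
  have e1 : U'.map emb = U := by
    ext x
    simp only [U', Finset.mem_map, Finset.mem_filter, Finset.mem_univ, true_and, hval]
    exact ⟨fun ⟨a, ha, e⟩ => e ▸ ha, fun h => ⟨⟨x, hU h⟩, h, rfl⟩⟩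
  have e2 : (U'.erase i₀).map emb = U.erase ω := by
    rw [Finset.map_erase, e1, hval]
  set d₀ : Fin 2 → Ω → Bool := fun b _ => (fun _ : Fin 2 => false) b
  have v1 : V O _ d₀ f U = potential (maskF (famAt O d₀ ω φ) U')
      (uniformLaw (O.ball ω m) (r * 2)) f :=
    (congrArg (V O _ d₀ f) e1.symm).trans (V_map O hw hf.zero φ ω hinj U')
  have v2 : V O _ d₀ f (U.erase ω) = potential (maskF (famAt O d₀ ω φ) (U'.erase i₀))
      (uniformLaw (O.ball ω m) (r * 2)) f :=
    (congrArg (V O _ d₀ f) e2.symm).trans (V_map O hw hf.zero φ ω hinj (U'.erase i₀))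
  have e3 : maskF (famAt O d₀ ω φ) (U'.erase i₀) =
      maskEF (maskF (famAt O d₀ ω φ : Fin (r * 2) → _) U') i₀ := by
    funext c
    ext a b
    simp only [maskF, maskEF, Cartan.maskE_apply, mask, Matrix.of_apply, Finset.mem_erase]
    by_cases ha : a = i₀ <;> by_cases hb : b = i₀ <;> simp [ha, hb]
  have hP := fun c : Fin (r * 2) => posSemidef_famAt O hO d₀ hinj c
  have hm : ∀ c, (maskF (famAt O d₀ ω φ) U' c : Matrix _ _ ℂ).PosSemidef ∧
      (1 - maskF (famAt O d₀ ω φ : Fin (r * 2) → _) U' c).PosSemidef := fun c =>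
    Cartan.posSemidef_mask (hP c).1 (hP c).2 U'
  have hd : ∀ (c : Fin (r * 2)) a, (maskF (famAt O d₀ ω φ) U' c a a).re ≤ 1 / 2 := fun c a => by
    simp only [maskF, mask, Matrix.of_apply]
    split_ifs
    · exact le_of_eq (famAt_re_diag O hO _ _ _ _ _)
    · norm_num
  have := uniform_increment_le hf hη hB (Nat.mul_pos hr two_pos) (by norm_num : (0 : ℝ) ≤ 1 / 2)
    ht₀ ht (fun c => (hm c).1) (fun c => (hm c).2) hd i₀
  rw [← e3, ← v1, ← v2] at this
  exact this

theorem V_ball (w : Ω → Fin (r * 2) → ℝ) (d : Fin 2 → Ω → Bool) (f : ℝ[X]) (ω : Ω) (m : ℕ) :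
    V O w d f (O.ball ω m) = potential (famAt O d ω fun a : O.ball ω m => O.name ω a)
      (fun a : O.ball ω m => w (O.act (O.name ω a) ω)) f := by
  conv_lhs => rw [← O.image_name_ball ω m]
  exact V_eq O w d f (fun a : O.ball ω m => O.name ω a) ω (O.injective_name_ball ω m)

theorem update_name_ball (w : Ω → Fin (r * 2) → ℝ) (ω : Ω) (m : ℕ) (a : Fin (r * 2) → ℝ) :
    (fun x : O.ball ω m => update w ω a (O.act (O.name ω x) ω)) =
      update (fun x : O.ball ω m => w (O.act (O.name ω x) ω)) ⟨ω, O.self_mem_ball ω m⟩ a := by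
  funext x
  rcases eq_or_ne x ⟨ω, O.self_mem_ball ω m⟩ with rfl | h
  · rw [update_self, O.act_name_ball, update_self]
  · rw [update_of_ne h, update_of_ne]
    rw [O.act_name_ball]
    exact fun e => h (Subtype.ext e)

theorem continuous_V_ball (hO : HalfDiag O) (hwc : IsLocallyConstant w) (hw : IsLaw w)
    (hdc : ∀ b, IsLocallyConstant (d b)) {f : ℝ[X]} (hf : f.eval 0 = 0) (m : ℕ) :
    Continuous fun ω => V O w d f (O.ball ω m) := by
  rw [continuous_iff_continuousAt]
  intro ω₀
  obtain ⟨n, ψ, i₀, hev⟩ := O.exists_chart ω₀ m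
  obtain ⟨hi, -, -⟩ := hev.self_of_nhds
  refine ((locCont_V O hO hwc hw hdc hf) n ψ [] ω₀ hi).congr ?_
  filter_upwards [hev] with ω hω
  rw [hω.2.1]

theorem continuous_V_update (hO : HalfDiag O) (hwc : IsLocallyConstant w) (hw : IsLaw w)
    (hdc : ∀ b, IsLocallyConstant (d b)) {f : ℝ[X]} (hf : f.eval 0 = 0) (m : ℕ) (c : Fin r) :
    Continuous fun ω => V O (update w ω (half c)) d f (O.ball ω m) := by
  rw [continuous_iff_continuousAt]
  intro ω₀
  obtain ⟨n, ψ, i₀, hev⟩ := O.exists_chart ω₀ m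
  obtain ⟨U, hU, hUo, hω₀⟩ := eventually_nhds_iff.1 (hev.and (eventually_const O hwc hdc ψ ω₀))
  let w₀ : Fin n → Fin (r * 2) → ℝ := update (fun i => w (O.act (ψ i) ω₀)) i₀ (half c)
  have hw₀ : IsLaw w₀ := isLaw_update (fun i => hw _) i₀ (isLaw_half c)
  set d₀ : Fin 2 → Fin n → Bool := fun b i => d b (O.act (ψ i) ω₀)
  have hM : Continuous fun ω : U => (fam (O.lblMat (ω : Ω) ψ) d₀ : Fin (r * 2) → _) :=
    (continuous_famAt O d₀ ψ).comp continuous_subtype_val
  have hH : ∀ (ω : U) (c : Fin (r * 2)), (fam (O.lblMat (ω : Ω) ψ) d₀ c).IsHermitian := fun ω c =>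
    (posSemidef_fam (O.posSemidef_lblMat (hU ω.1 ω.2).1.1).1
      (O.posSemidef_lblMat (hU ω.1 ω.2).1.1).2 (fun _ => hO _ _) d₀ c).1.1
  have hc := continuous_potential (G := fun ω : U => fam (O.lblMat (ω : Ω) ψ) d₀) hH hM hw₀ hf
  have : ContinuousOn (fun ω => V O (update w ω (half c)) d f (O.ball ω m)) U := by
    rw [continuousOn_iff_continuous_restrict]
    refine hc.congr fun ω => ?_
    obtain ⟨⟨hi, hb, h0⟩, h2, h3⟩ := hU ω.1 ω.2
    rw [Set.restrict_apply, hb, V_eq O _ d f ψ ω hi, famAt, h3]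
    congr 1
    funext i
    rcases eq_or_ne i i₀ with rfl | h
    · simp only [w₀]
      rw [update_self, h0, update_self]
    · simp only [w₀]
      rw [update_of_ne h, update_of_ne]
      · exact (congrFun h2 i).symm
      · exact fun e => h (hi (e.trans h0.symm))
  exact this.continuousAt (hUo.mem_nhds hω₀)

/-- Colouring one batch. -/
theorem exists_colour_step (hO : HalfDiag O) (hr : 0 < r) {t η γ : ℝ} {f : ℝ[X]}
    (hf : NearStep t η γ f) (hη : 0 < η) (hγ : 0 < γ) {m : ℕ} (hm : f.natDegree ≤ m)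
    {N : ℕ} {B : Ω → Fin N} (hB : IsLocallyConstant B)
    (hsep : ∀ u v, v ∈ O.ball u m → B u = B v → u = v) (i : Fin N)
    (hwc : IsLocallyConstant w) (hw : IsLaw w) (hdc : ∀ b, IsLocallyConstant (d b))
    (hunif : ∀ ω, B ω = i → w ω = uniformLaw Unit (r * 2) ()) :
    ∃ (v : Ω → Fin (r * 2) → ℝ) (hvc : IsLocallyConstant v) (hv : IsLaw v),
      (∀ ω, B ω ≠ i → v ω = w ω) ∧ (∀ ω, B ω = i → ∃ c, v ω = half c) ∧
      O.μ (shareC O hO hvc hv hdc hf.zero m) ≤
        O.μ (shareC O hO hwc hw hdc hf.zero m) + 3 * γ * O.μ (OrbitModel.batchC hB i) := by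
  have : Nonempty (Fin r) := ⟨⟨0, hr⟩⟩
  have hex : ∀ ω, B ω = i → ∃ c : Fin r,
      V O (update w ω (half c)) d f (O.ball ω m) - V O w d f (O.ball ω m) ≤ 2 * γ := by
    intro ω hω
    set φ : O.ball ω m → List (Fin L) := fun a => O.name ω a
    have hP := fun c : Fin (r * 2) =>
      posSemidef_famAt O hO d (O.injective_name_ball ω m) c
    obtain ⟨c, hc⟩ := exists_law_potential_le (K := Fin r) hf hη (fun c => (hP c).1)
      (fun c => (hP c).2) (w := fun x : O.ball ω m => w (O.act (φ x) ω)) (fun x => hw _)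
      ⟨ω, O.self_mem_ball ω m⟩ (fun _ => 1 / r) half (fun _ => by positivity) isLaw_half
      (fun s => by
        show w (O.act (O.name ω (⟨ω, _⟩ : O.ball ω m)) ω) s = _
        rw [O.act_name_ball, hunif ω hω]
        exact uniform_eq_half s)
    refine ⟨c, ?_⟩
    rw [V_ball, V_ball, update_name_ball]
    linarith
  obtain ⟨κ, hκ, hκle⟩ := OrbitModel.exists_choice
    (fun c ω => (if B ω = i then (1 : ℝ) else 0) *
      (V O (update w ω (half c)) d f (O.ball ω m) - V O w d f (O.ball ω m)))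
    (fun c => (hB.comp fun j => if j = i then (1 : ℝ) else 0).continuous.mul
      ((continuous_V_update O hO hwc hw hdc hf.zero m c).sub
        (continuous_V_ball O hO hwc hw hdc hf.zero m)))
    (3 * γ)
    (fun ω => by
      by_cases h : B ω = i
      · obtain ⟨c, hc⟩ := hex ω h
        exact ⟨c, by rw [if_pos h, one_mul]; linarith⟩
      · exact ⟨Classical.arbitrary _, by rw [if_neg h, zero_mul]; linarith⟩)
  let v : Ω → Fin (r * 2) → ℝ := fun ω => if B ω = i then half (κ ω) else w ω
  have hvc : IsLocallyConstant v := by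
    rw [IsLocallyConstant.iff_eventually_eq]
    intro ω
    filter_upwards [hB.eventually_eq ω, hκ.eventually_eq ω, hwc.eventually_eq ω] with y h1 h2 h3
    simp only [v, h1, h2, h3]
  have hv : IsLaw v := fun ω => by
    simp only [v]
    split_ifs
    · exact isLaw_half _
    · exact hw ω
  refine ⟨v, hvc, hv, fun ω h => if_neg h, fun ω h => ⟨κ ω, if_pos h⟩, ?_⟩
  refine μ_share_le_of_batch O hO hf.zero hm hB hsep i hwc hw hdc hvc hv hdc
    (fun ω h => ⟨if_neg h, fun _ => rfl⟩) fun ω hω => ?_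
  have e2 : V O v d f (O.ball ω m) = V O (update w ω (half (κ ω))) d f (O.ball ω m) :=
    V_congr O (fun a ha => by
      rcases eq_or_ne a ω with rfl | h
      · rw [update_self]; exact if_pos hω
      · rw [update_of_ne h]
        exact if_neg fun hBa => h (hsep ω a ha (hω.trans hBa.symm)).symm) (fun _ _ _ => rfl) f
  rw [e2]
  have := hκle ω
  rw [if_pos hω, one_mul] at this
  exact this.le

/-- Decoupling all sides but `b₀` at one batch. -/
theorem μ_decouple_step_le (hO : HalfDiag O) {φ : ℝ[X]} (hφ0 : φ.eval 0 = 0)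
    (hconv : ConvexOn ℝ (Set.Icc (0 : ℝ) 1) fun x => φ.eval x) {m : ℕ} (hm : φ.natDegree ≤ m)
    {N : ℕ} {B : Ω → Fin N} (hB : IsLocallyConstant B)
    (hsep : ∀ u v, v ∈ O.ball u m → B u = B v → u = v) (i : Fin N) (b₀ : Fin 2)
    (hwc : IsLocallyConstant w) (hw : IsLaw w) (hdc : ∀ b, IsLocallyConstant (d b))
    (hdc' : ∀ b, IsLocallyConstant (d' b))
    (hd' : ∀ b ω, d' b ω = (d b ω || (decide (B ω = i) && decide (b ≠ b₀)))) :
    O.μ (shareC O hO hwc hw hdc' hφ0 m) ≤ O.μ (shareC O hO hwc hw hdc hφ0 m) := by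
  have h := μ_share_le_of_batch O hO hφ0 hm hB hsep i hwc hw hdc hwc hw hdc'
    (fun ω h => ⟨rfl, fun b => by rw [hd']; simp [h]⟩) (c := 0) fun ω hω => ?_
  · linarith
  set ψ : O.ball ω m → List (Fin L) := fun a => O.name ω a
  set i₀ : O.ball ω m := ⟨ω, O.self_mem_ball ω m⟩ with hi₀
  have hinj := O.injective_name_ball ω m
  set Z : Finset (Fin (r * 2)) := Finset.univ.filter fun s => side s ≠ b₀
  have e : (famAt O d' ω ψ : Fin (r * 2) → _) = decF (famAt O d ω ψ) i₀ Z := by
    funext s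
    ext a b
    simp only [decF_apply, famAt, fam, Matrix.of_apply, Z, Finset.mem_filter, Finset.mem_univ,
      true_and]
    have key : ∀ x : O.ball ω m, d' (side s) (O.act (ψ x) ω) = true ↔
        d (side s) (O.act (ψ x) ω) = true ∨ (x = i₀ ∧ side s ≠ b₀) := by
      intro x
      rw [hd', show O.act (ψ x) ω = (x : Ω) from O.act_name_ball x]
      simp only [Bool.or_eq_true, Bool.and_eq_true, decide_eq_true_eq]
      refine or_congr_right (and_congr_left fun _ => ⟨fun hx => ?_, fun hx => by rw [hx]; exact hω⟩)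
      exact Subtype.ext (hsep ω x x.2 (hω.trans hx.symm)).symm
    simp only [key]
    split_ifs <;> first
      | rfl
      | (exfalso; tauto)
  have hP := fun c : Fin (r * 2) => posSemidef_famAt O hO d hinj c
  rw [V_ball, V_ball, e]
  have := potential_decF_le (fun c => (hP c).1.1)
    (w := fun x : O.ball ω m => w (O.act (ψ x) ω)) (fun x => hw _) i₀ Z hconv
    (fun x hx => roots_mem_Icc (fun c => (hP c).1) (fun c => (hP c).2) (fun x => hw _) hx)
  linarith

/-- The traced averaged increment is the traced density. -/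
theorem exists_P_transport (hO : HalfDiag O) {f : ℝ[X]} (hf : f.eval 0 = 0) {m : ℕ}
    (hm : f.natDegree ≤ m) (hwc : IsLocallyConstant w) (hw : IsLaw w)
    (hdc : ∀ b, IsLocallyConstant (d b)) :
    ∃ F : C(Ω, ℝ), (∀ ω, F ω = P O w d f ω (O.ball ω m)) ∧
      O.μ F = O.μ (shareC O hO hwc hw hdc hf m) := by
  set g : Ω → Finset Ω → ℝ := fun v S => mob (P O w d f v) S with hgdef
  have hsupp : ∀ v S, v ∈ S → O.SameOrbit S → g v S ≠ 0 → ∀ a ∈ S, S ⊆ O.ball a m := by
    intro v S hv hS hne a ha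
    by_cases hc : S.card ≤ m + 1
    · exact O.subset_ball_of_no_gap hc
        (fun hgap => hne ((mob_eq_zero O hO hw hf hS (Or.inr hgap)).2 v hv)) ha
    · exact absurd ((mob_eq_zero O hO hw hf hS (Or.inl (by omega))).2 v hv) hne
  have hP0 : ∀ {v : Ω} {S : Finset Ω}, v ∉ S → P O w d f v S = 0 := fun h => by
    rw [P, dif_neg h]
  have hVP : ∀ T, O.SameOrbit T → V O w d f T = ∑ v ∈ T, P O w d f v T := by
    intro T hT
    obtain ⟨φ, ω, hφ⟩ := O.exists_labels hT
    have hinj : Injective fun a : T => O.act (φ a) ω := fun a b e =>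
      Subtype.ext (by simpa [hφ] using e)
    have himg : (Finset.univ.image fun a : T => O.act (φ a) ω) = T := by
      ext x; simp [hφ]
    have h1 := V_eq O w d f φ ω hinj
    rw [himg] at h1
    rw [h1, ← sum_Phi (fun c => (posSemidef_famAt O hO d hinj c).1.1) (fun a => hw _) f,
      ← Finset.sum_coe_sort T]
    refine Finset.sum_congr rfl fun a _ => ?_
    have h2 := P_eq O w d f φ ω hinj a
    rw [himg, hφ] at h2
    exact h2.symm
  have hg : O.LocCont g := (locCont_P O hwc hw hdc f).mob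
  obtain ⟨F, G, hF, hG, hμ⟩ := O.transport (O.spread g m) m (O.continuous_spread hg m)
  refine ⟨F, fun ω => ?_, ?_⟩
  · rw [hF, O.sum_spread_left]
    simp only [hgdef]
    rw [Cartan.sum_mob_mem, hP0 (Finset.notMem_erase ω _), sub_zero]
  · rw [hμ]
    congr 1
    ext ω
    rw [hG, O.sum_spread_right hsupp, shareC_apply]
    refine Finset.sum_congr rfl fun S hS => ?_
    simp only [Finset.mem_filter, Finset.mem_powerset] at hS
    congr 1
    rw [← Cartan.mob_sum]
    refine (Cartan.mob_congr fun T hT => ?_).symm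
    rw [hVP T (O.sameOrbit_of_subset_ball (hT.trans hS.1))]
    exact Finset.sum_subset hT fun v _ hv => hP0 hv

/-- Positivity of the density: a smaller function has a smaller traced increment. -/
theorem μ_share_compare (hO : HalfDiag O) {f φ : ℝ[X]} (hf : f.eval 0 = 0) (hφ : φ.eval 0 = 0)
    {c : ℝ} (hle : ∀ x ∈ Set.Icc (0 : ℝ) 1, φ.eval x ≤ f.eval x + c) {m : ℕ}
    (hmf : f.natDegree ≤ m) (hmφ : φ.natDegree ≤ m) (hwc : IsLocallyConstant w) (hw : IsLaw w)
    (hdc : ∀ b, IsLocallyConstant (d b)) :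
    O.μ (shareC O hO hwc hw hdc hφ m) ≤ O.μ (shareC O hO hwc hw hdc hf m) + c := by
  obtain ⟨F, hF, hμF⟩ := exists_P_transport O hO hf hmf hwc hw hdc
  obtain ⟨G, hG, hμG⟩ := exists_P_transport O hO hφ hmφ hwc hw hdc
  rw [← hμF, ← hμG]
  have h := O.μ_mono (f := G) (g := F + ContinuousMap.const Ω c) fun ω => by
    rw [ContinuousMap.add_apply, ContinuousMap.const_apply, hF, hG, P, P,
      dif_pos (O.self_mem_ball ω m), dif_pos (O.self_mem_ball ω m)]
    set i₀ : O.ball ω m := ⟨ω, O.self_mem_ball ω m⟩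
    have hP := fun s : Fin (r * 2) => posSemidef_famAt O hO d (O.injective_name_ball ω m) s
    have hw' : IsLaw fun a : O.ball ω m => w a := fun a => hw _
    have h0 := Phi_nonneg (fun s => (hP s).1.1) hw' (f := f + C c * 1 + C (-1) * φ) (fun s hs => by
      have := hle s (roots_mem_Icc (fun s => (hP s).1) (fun s => (hP s).2) hw' hs)
      simp only [eval_add, eval_mul, eval_C, eval_one]
      linarith) i₀
    rw [Phi_add, Phi_add, Phi_C_mul, Phi_C_mul, Phi_one _ hw'] at h0
    linarith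
  rw [map_add, O.μ_const] at h
  exact h

end Vale.Agent.P078.Quad
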