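import Vale.Agent.P078.Cartan.Mixture

/-!
Expected characteristic polynomials of random pinchings of a family of matrices: in the block of
the state `c` the matrix `G c` is used.
-/

namespace Vale.Agent.P078.Quad

open Polynomial
open scoped ComplexOrder

export Vale.Agent.P078.Cartan (weight IsLaw uniformLaw dirac mask maskE)

variable {ι : Type*} [Fintype ι] [DecidableEq ι] {r : ℕ}

/-- The pinching of a family by a labelling: the block of the state `c` is taken from `G c`. -/
def pinch (G : Fin r → Matrix ι ι ℂ) (s : ι → Fin r) : Matrix ι ι ℂ :=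
  Matrix.of fun i j => if s i = s j then G (s i) i j else 0

/-- The family with the rows and columns outside `U` set to zero. -/
def maskF (G : Fin r → Matrix ι ι ℂ) (U : Finset ι) : Fin r → Matrix ι ι ℂ :=
  fun c => mask (G c) U

/-- The family with the point `i` removed. -/
def maskEF (G : Fin r → Matrix ι ι ℂ) (i : ι) : Fin r → Matrix ι ι ℂ :=
  fun c => maskE (G c) i

/-- The expected `det (diag z - pinching)`. -/
noncomputable def Fdet (G : Fin r → Matrix ι ι ℂ) (w : ι → Fin r → ℝ) (z : ι → ℂ) : ℂ :=
  ∑ s : ι → Fin r, weight w s * (Matrix.diagonal z - pinch G s).det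

/-- The expected characteristic polynomial. -/
noncomputable def echar (G : Fin r → Matrix ι ι ℂ) (w : ι → Fin r → ℝ) : ℂ[X] :=
  ∑ s : ι → Fin r, C (weight w s) * (pinch G s).charpoly

/-- The root bound for uniform states. -/
def FamilyRootBound : Prop :=
  ∀ (n R : ℕ), 0 < R → ∀ (G : Fin R → Matrix (Fin n) (Fin n) ℂ) (α : ℝ), 0 ≤ α →
    (∀ c, (G c).PosSemidef) → (∀ c, (1 - G c).PosSemidef) → (∀ c i, (G c i i).re ≤ α) →
    ∀ x : ℝ, (1 / Real.sqrt R + Real.sqrt α) ^ 2 < x →
      (echar G (uniformLaw (Fin n) R)).eval (x : ℂ) ≠ 0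

end Vale.Agent.P078.Quad
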