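import Vale.Agent.P078.Cartan.Quad.Expected

/-!
Stability of expected characteristic polynomials for a family of matrices, and the convex
combination structure over the state of one point.
-/

namespace Vale.Agent.P078.Quad

set_option linter.unusedSectionVars false

open Matrix Function
open Vale.Agent.P078.Cartan (isLaw_dirac_update weight_update weight_split maskE_apply maskE_maskE isHermitian_mask det_updateRow_single_congr det_diagonal_update im_div_nonneg)
open scoped ComplexOrder

variable {ι : Type*} [Fintype ι] [DecidableEq ι] {r : ℕ}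

/-- Conditioning on the colour of one point. -/
theorem Fdet_split (G : Fin r → Matrix ι ι ℂ) (w : ι → Fin r → ℝ) (i : ι) (z : ι → ℂ) :
    Fdet G w z = ∑ c, (w i c : ℂ) * Fdet G (update w i (dirac c)) z := by
  unfold Fdet
  simp only [Finset.mul_sum]
  rw [Finset.sum_comm]
  refine Finset.sum_congr rfl fun s _ => ?_
  rw [weight_split w i s, Finset.sum_mul]
  simp only [mul_assoc]

theorem isHermitian_pinch {G : Fin r → Matrix ι ι ℂ} (hG : ∀ c, (G c).IsHermitian) (s : ι → Fin r) :
    (pinch G s).IsHermitian := by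
  ext j k
  simp only [conjTranspose_apply, pinch, Matrix.of_apply]
  by_cases h : s j = s k
  · rw [if_pos h, if_pos h.symm, h]; exact (hG (s k)).apply j k
  · rw [if_neg h, if_neg (Ne.symm h)]; simp

theorem pinch_maskE (G : Fin r → Matrix ι ι ℂ) (i : ι) (s : ι → Fin r) :
    pinch (maskEF G i) s = maskE (pinch G s) i := by
  ext j k
  simp only [pinch, maskEF, Matrix.of_apply, maskE_apply]
  split_ifs <;> rfl

/-- The coefficient of `z i`. -/
noncomputable def lead (G : Fin r → Matrix ι ι ℂ) (w : ι → Fin r → ℝ) (i : ι) (z : ι → ℂ) : ℂ :=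
  Fdet (maskEF G i) w (update z i 1)

/-- The constant part in `z i`. -/
noncomputable def rest (G : Fin r → Matrix ι ι ℂ) (w : ι → Fin r → ℝ) (i : ι) (z : ι → ℂ) : ℂ :=
  Fdet G w (update z i 0)

theorem Fdet_affine (G : Fin r → Matrix ι ι ℂ) (w : ι → Fin r → ℝ) (i : ι) (z : ι → ℂ) (a : ℂ) :
    Fdet G w (update z i a) = a * lead G w i z + rest G w i z := by
  unfold lead rest Fdet
  simp only [det_diagonal_update (pinch G _) z i a, pinch_maskE, Finset.mul_sum,
    ← Finset.sum_add_distrib]
  exact Finset.sum_congr rfl fun s _ => by ring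

theorem rest_maskE (G : Fin r → Matrix ι ι ℂ) (w : ι → Fin r → ℝ) (i : ι) (z : ι → ℂ) :
    rest (maskEF G i) w i z = 0 := by
  unfold rest Fdet
  refine Finset.sum_eq_zero fun s _ => ?_
  rw [det_eq_zero_of_row_eq_zero i fun k => ?_, mul_zero]
  simp [pinch, maskEF, maskE_apply, diagonal_apply]

theorem maskEF_maskEF (G : Fin r → Matrix ι ι ℂ) (i : ι) : maskEF (maskEF G i) i = maskEF G i :=
  funext fun c => maskE_maskE (G c) i

theorem lead_maskE (G : Fin r → Matrix ι ι ℂ) (w : ι → Fin r → ℝ) (i : ι) (z : ι → ℂ) :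
    lead (maskEF G i) w i z = lead G w i z := by
  rw [lead, lead, maskEF_maskEF]

/-- Without the point `i` its colour is irrelevant. -/
theorem lead_dirac_eq (G : Fin r → Matrix ι ι ℂ) (w : ι → Fin r → ℝ) (i : ι) (z : ι → ℂ) (c c' : Fin r) :
    lead G (update w i (dirac c)) i z = lead G (update w i (dirac c')) i z := by
  unfold lead Fdet
  have hinv : Function.Involutive
      fun s : ι → Fin r => update s i (Equiv.swap c c' (s i)) := by
    intro s; simp
  refine Fintype.sum_equiv (hinv.toPerm _) _ _ fun s => ?_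
  simp only [Function.Involutive.coe_toPerm]
  congr 1
  · simp only [weight_update, update_self, dirac]
    congr 1
    · simp only [Equiv.swap_apply_eq_iff, Equiv.swap_apply_right]
    · exact Finset.prod_congr rfl fun j hj => by rw [update_of_ne (Finset.ne_of_mem_erase hj)]
  · congr 2
    ext j k
    simp only [pinch, maskEF, Matrix.of_apply, maskE_apply]
    by_cases h : j ≠ i ∧ k ≠ i
    · rw [update_of_ne h.1, update_of_ne h.2]
    · simp [h]

theorem lead_dirac (G : Fin r → Matrix ι ι ℂ) {w : ι → Fin r → ℝ} (hw : IsLaw w) (i : ι) (z : ι → ℂ)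
    (c : Fin r) : lead G (update w i (dirac c)) i z = lead G w i z := by
  conv_rhs => rw [lead, Fdet_split _ w i]
  have : ∀ c', (w i c' : ℂ) * Fdet (maskEF G i) (update w i (dirac c')) (update z i 1) =
      (w i c' : ℂ) * lead G (update w i (dirac c)) i z := fun c' => by
    rw [← lead_dirac_eq G w i z c' c]; rfl
  rw [Finset.sum_congr rfl fun c' _ => this c', ← Finset.sum_mul, ← Complex.ofReal_sum,
    (hw i).2, Complex.ofReal_one, one_mul]

theorem Fdet_dirac_ne_zero {G : Fin r → Matrix ι ι ℂ} (hG : ∀ c, (G c).IsHermitian) (s₀ : ι → Fin r) {z : ι → ℂ}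
    (hz : ∀ i, 0 < (z i).im) : Fdet G (fun i => dirac (s₀ i)) z ≠ 0 := by
  have hw : ∀ s, weight (fun i => dirac (s₀ i)) s = if s = s₀ then 1 else 0 := by
    intro s
    split_ifs with h
    · subst h; simp [weight, dirac]
    · obtain ⟨i, hi⟩ := Function.ne_iff.1 h
      exact Finset.prod_eq_zero (Finset.mem_univ i) (by simp [dirac, hi])
  have : Fdet G (fun i => dirac (s₀ i)) z = (diagonal z - pinch G s₀).det := by
    simp [Fdet, hw]
  rw [this]
  intro hdet
  obtain ⟨v, hv, hMv⟩ := exists_mulVec_eq_zero_iff.2 hdet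
  have hP := (isHermitian_pinch hG s₀).im_star_dotProduct_mulVec_self v
  rw [sub_mulVec, sub_eq_zero] at hMv
  rw [← hMv] at hP
  simp only [dotProduct, mulVec_diagonal, Pi.star_apply, RCLike.star_def, map_sum] at hP
  have hval : ∀ i, RCLike.im (starRingEnd ℂ (v i) * (z i * v i)) =
      (z i).im * Complex.normSq (v i) := by
    intro i
    rw [mul_left_comm, ← Complex.normSq_eq_conj_mul_self, RCLike.im_eq_complex_im,
      Complex.mul_im]
    simp
  simp only [hval] at hP
  have hnn : ∀ i ∈ Finset.univ, 0 ≤ (z i).im * Complex.normSq (v i) :=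
    fun i _ => mul_nonneg (hz i).le (Complex.normSq_nonneg _)
  obtain ⟨i, hi⟩ := Function.ne_iff.1 hv
  have := (Finset.sum_eq_zero_iff_of_nonneg hnn).1 hP i (Finset.mem_univ i)
  exact (mul_pos (hz i) (Complex.normSq_pos.2 hi)).ne' this

/-- Stability. -/
theorem Fdet_ne_zero {G : Fin r → Matrix ι ι ℂ} (hG : ∀ c, (G c).IsHermitian) {w : ι → Fin r → ℝ} (hw : IsLaw w)
    {z : ι → ℂ} (hz : ∀ i, 0 < (z i).im) : Fdet G w z ≠ 0 := by
  suffices h : ∀ R : Finset ι, ∀ w : ι → Fin r → ℝ, IsLaw w → (∀ i ∉ R, ∃ c, w i = dirac c) →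
      ∀ G : Fin r → Matrix ι ι ℂ, (∀ c, (G c).IsHermitian) → ∀ z : ι → ℂ, (∀ i, 0 < (z i).im) → Fdet G w z ≠ 0 from
    h Finset.univ w hw (fun i hi => (hi (Finset.mem_univ i)).elim) G hG z hz
  intro R
  induction R using Finset.induction_on with
  | empty =>
    intro w _ hd G hG z hz
    choose s₀ hs₀ using fun i => hd i (Finset.notMem_empty i)
    rw [funext hs₀]
    exact Fdet_dirac_ne_zero hG s₀ hz
  | @insert i R hi ih =>
    intro w hw hd G hG z hz
    have hwc : ∀ c, ∀ j ∉ R, ∃ c', update w i (dirac c) j = dirac c' := by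
      intro c j hj
      rcases eq_or_ne j i with rfl | hji
      · exact ⟨c, update_self ..⟩
      · rw [update_of_ne hji]; exact hd j (by simp [hji, hj])
    have hstab : ∀ c, ∀ G : Fin r → Matrix ι ι ℂ, (∀ c, (G c).IsHermitian) → ∀ a : ℂ, 0 < a.im →
        a * lead G (update w i (dirac c)) i z + rest G (update w i (dirac c)) i z ≠ 0 := by
      intro c G hG a ha
      rw [← Fdet_affine]
      refine ih _ (isLaw_dirac_update hw i c) (hwc c) G hG _ fun j => ?_
      rcases eq_or_ne j i with rfl | hji
      · simpa using ha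
      · simpa [update_of_ne hji] using hz j
    have hlead : ∀ c : Fin r, lead G w i z ≠ 0 := by
      intro c e
      have := hstab c (maskEF G i) (fun c => isHermitian_mask (hG c) _) (z i) (hz i)
      rw [rest_maskE, lead_maskE, lead_dirac G hw, e] at this
      simp at this
    rw [← update_eq_self i z, Fdet_affine]
    have hne : ∃ c, w i c ≠ 0 := by
      by_contra h
      push Not at h
      simpa [h] using (hw i).2
    obtain ⟨c₀, -⟩ := hne
    have hg := hlead c₀
    have hpos : ∀ c, 0 ≤ (rest G (update w i (dirac c)) i z / lead G w i z).im := fun c => by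
      have := im_div_nonneg (g := lead G (update w i (dirac c)) i z)
        (by rwa [lead_dirac G hw]) (hstab c G hG)
      rwa [lead_dirac G hw] at this
    intro e
    have e' : z i + rest G w i z / lead G w i z = 0 := by
      field_simp
      linear_combination e
    have hr : rest G w i z / lead G w i z =
        ∑ c, (w i c : ℂ) * (rest G (update w i (dirac c)) i z / lead G w i z) := by
      rw [rest, Fdet_split G w i, Finset.sum_div]
      exact Finset.sum_congr rfl fun c _ => mul_div_assoc _ _ _
    have := congrArg Complex.im e'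
    rw [hr, Complex.add_im, Complex.im_sum, Complex.zero_im] at this
    simp only [Complex.im_ofReal_mul] at this
    have hs : 0 ≤ ∑ c, w i c * (rest G (update w i (dirac c)) i z / lead G w i z).im :=
      Finset.sum_nonneg fun c _ => mul_nonneg ((hw i).1 c) (hpos c)
    linarith [hz i]

theorem lead_ne_zero {G : Fin r → Matrix ι ι ℂ} (hG : ∀ c, (G c).IsHermitian) {w : ι → Fin r → ℝ} (hw : IsLaw w)
    (i : ι) {z : ι → ℂ} (hz : ∀ j, 0 < (z j).im) : lead G w i z ≠ 0 := by
  intro e
  apply Fdet_ne_zero (G := maskEF G i) (fun c => isHermitian_mask (hG c) _) hw hz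
  rw [← update_eq_self i z, Fdet_affine, lead_maskE, rest_maskE, e]
  simp

theorem Fdet_maskE (G : Fin r → Matrix ι ι ℂ) (w : ι → Fin r → ℝ) (i : ι) (z : ι → ℂ) :
    Fdet (maskEF G i) w z = z i * lead G w i z := by
  conv_lhs => rw [← update_eq_self i z]
  rw [Fdet_affine, lead_maskE, rest_maskE, add_zero]

/-- The ratio to the minor lies in the upper half plane. -/
theorem ratio_pos {G : Fin r → Matrix ι ι ℂ} (hG : ∀ c, (G c).IsHermitian) {w : ι → Fin r → ℝ} (hw : IsLaw w)
    (i : ι) {z : ι → ℂ} (hz : ∀ j, 0 < (z j).im) :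
    0 < (z i * Fdet G w z / Fdet (maskEF G i) w z).im := by
  have hg := lead_ne_zero hG hw i hz
  have h0 : z i ≠ 0 := fun e => by simpa [e] using hz i
  have e : z i * Fdet G w z / Fdet (maskEF G i) w z = z i + rest G w i z / lead G w i z := by
    conv_lhs => rw [Fdet_maskE, mul_div_mul_left _ _ h0, ← update_eq_self i z, Fdet_affine]
    rw [update_eq_self]
    field_simp
  rw [e, Complex.add_im]
  have := im_div_nonneg hg fun a ha => by
    rw [← Fdet_affine]
    refine Fdet_ne_zero hG hw fun j => ?_
    rcases eq_or_ne j i with rfl | hji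
    · simpa using ha
    · simpa [update_of_ne hji] using hz j
  linarith [hz i]

/-- The parent ratio is the convex combination of the child ratios. -/
theorem ratio_combination (G : Fin r → Matrix ι ι ℂ) {w : ι → Fin r → ℝ} (hw : IsLaw w) (i : ι)
    (z : ι → ℂ) :
    z i * Fdet G w z / Fdet (maskEF G i) w z =
      ∑ c, (w i c : ℂ) *
        (z i * Fdet G (update w i (dirac c)) z / Fdet (maskEF G i) (update w i (dirac c)) z) := by
  have : ∀ c, Fdet (maskEF G i) (update w i (dirac c)) z = Fdet (maskEF G i) w z := fun c => by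
    rw [Fdet_maskE, Fdet_maskE, lead_dirac G hw]
  simp only [this]
  rw [Fdet_split G w i z, Finset.mul_sum, Finset.sum_div]
  exact Finset.sum_congr rfl fun c _ => by ring

end Vale.Agent.P078.Quad
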