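import Vale.Agent.P078.Cartan.Quad.Mixture
import Vale.Agent.P078.Cartan.Roots

/-!
The real roots of the expected characteristic polynomial of a family.
-/

namespace Vale.Agent.P078.Quad

open Matrix Polynomial Function
open Vale.Agent.P078.Cartan (isLaw_dirac_update maskE_apply isHermitian_mask sum_weight rootProd Pick argSum)
open scoped ComplexOrder Real

set_option linter.unusedSectionVars false

variable {ι : Type*} [Fintype ι] [DecidableEq ι] {r : ℕ}

/-- The real parts of the roots of the expected characteristic polynomial. -/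
noncomputable def roots (G : Fin r → Matrix ι ι ℂ) (w : ι → Fin r → ℝ) : Multiset ℝ :=
  (echar G w).roots.map Complex.re

theorem echar_eval (G : Fin r → Matrix ι ι ℂ) (w : ι → Fin r → ℝ) (x : ℂ) :
    (echar G w).eval x = Fdet G w fun _ => x := by
  simp [echar, Fdet, eval_finsetSum, Matrix.eval_charpoly]

theorem echar_natDegree_le (G : Fin r → Matrix ι ι ℂ) (w : ι → Fin r → ℝ) :
    (echar G w).natDegree ≤ Fintype.card ι :=
  natDegree_sum_le_of_forall_le _ _ fun _ _ =>
    (natDegree_C_mul_le _ _).trans (charpoly_natDegree_eq_dim _).le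

theorem echar_coeff_card (G : Fin r → Matrix ι ι ℂ) {w : ι → Fin r → ℝ} (hw : IsLaw w) :
    (echar G w).coeff (Fintype.card ι) = 1 := by
  have : ∀ s : ι → Fin r, (pinch G s).charpoly.coeff (Fintype.card ι) = 1 := fun s => by
    have := (charpoly_monic (pinch G s)).coeff_natDegree
    rwa [charpoly_natDegree_eq_dim] at this
  simp [echar, finsetSum_coeff, this, sum_weight hw]

theorem echar_monic (G : Fin r → Matrix ι ι ℂ) {w : ι → Fin r → ℝ} (hw : IsLaw w) : (echar G w).Monic :=
  monic_of_natDegree_le_of_coeff_eq_one _ (echar_natDegree_le G w) (echar_coeff_card G hw)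

theorem echar_natDegree (G : Fin r → Matrix ι ι ℂ) {w : ι → Fin r → ℝ} (hw : IsLaw w) :
    (echar G w).natDegree = Fintype.card ι :=
  le_antisymm (echar_natDegree_le G w)
    (le_natDegree_of_ne_zero (by simp [echar_coeff_card G hw]))

theorem star_eval {G : Fin r → Matrix ι ι ℂ} (hG : ∀ c, (G c).IsHermitian) (w : ι → Fin r → ℝ) (x : ℂ) :
    (echar G w).eval (star x) = star ((echar G w).eval x) := by
  simp only [echar, eval_finsetSum, eval_mul, eval_C, star_sum, star_mul']
  refine Finset.sum_congr rfl fun s _ => ?_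
  have h1 : star (weight w s) = weight w s := by simp [weight, star_prod]
  rw [h1, (isHermitian_pinch hG s).charpoly_eq]
  simp [eval_prod, star_prod]

theorem root_im {G : Fin r → Matrix ι ι ℂ} (hG : ∀ c, (G c).IsHermitian) {w : ι → Fin r → ℝ} (hw : IsLaw w)
    {x : ℂ} (hx : (echar G w).eval x = 0) : x.im = 0 := by
  rcases lt_trichotomy x.im 0 with h | h | h
  · have := star_eval hG w x
    rw [hx, star_zero, echar_eval] at this
    exact absurd this (Fdet_ne_zero hG hw fun _ => by simpa using h)
  · exact h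
  · rw [echar_eval] at hx
    exact absurd hx (Fdet_ne_zero hG hw fun _ => h)

theorem card_roots (G : Fin r → Matrix ι ι ℂ) {w : ι → Fin r → ℝ} (hw : IsLaw w) :
    Multiset.card (roots G w) = Fintype.card ι := by
  rw [roots, Multiset.card_map, ← echar_natDegree G hw]
  exact IsAlgClosed.card_roots_eq_natDegree

theorem roots_map_ofReal {G : Fin r → Matrix ι ι ℂ} (hG : ∀ c, (G c).IsHermitian) {w : ι → Fin r → ℝ}
    (hw : IsLaw w) : (roots G w).map (fun t : ℝ => (t : ℂ)) = (echar G w).roots := by
  rw [roots, Multiset.map_map]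
  conv_rhs => rw [← Multiset.map_id (echar G w).roots]
  refine Multiset.map_congr rfl fun x hx => ?_
  have := root_im hG hw (isRoot_of_mem_roots hx)
  apply Complex.ext <;> simp [this]

theorem echar_eval_eq {G : Fin r → Matrix ι ι ℂ} (hG : ∀ c, (G c).IsHermitian) {w : ι → Fin r → ℝ}
    (hw : IsLaw w) (z : ℂ) : (echar G w).eval z = rootProd (roots G w) z := by
  conv_lhs => rw [(IsAlgClosed.splits (echar G w)).eval_eq_prod_roots_of_monic (echar_monic G hw)]
  rw [← roots_map_ofReal hG hw, Multiset.map_map]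
  rfl

theorem pick_maskE {G : Fin r → Matrix ι ι ℂ} (hG : ∀ c, (G c).IsHermitian) {w : ι → Fin r → ℝ} (hw : IsLaw w)
    (i : ι) : Pick (roots G w) (roots (maskEF G i) w) := by
  refine ⟨by rw [card_roots G hw, card_roots _ hw], fun z hz => ?_⟩
  rw [← echar_eval_eq hG hw, ← echar_eval_eq (G := maskEF G i) (fun c => isHermitian_mask (hG c) _) hw,
    echar_eval, echar_eval]
  exact ratio_pos hG hw i fun _ => hz

theorem roots_maskE_dirac {G : Fin r → Matrix ι ι ℂ} {w : ι → Fin r → ℝ} (hw : IsLaw w) (i : ι)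
    (c : Fin r) : roots (maskEF G i) (update w i (dirac c)) = roots (maskEF G i) w := by
  have : echar (maskEF G i) (update w i (dirac c)) = echar (maskEF G i) w :=
    Polynomial.funext fun x => by
      rw [echar_eval, echar_eval, Fdet_maskE, Fdet_maskE, lead_dirac G hw]
  rw [roots, roots, this]

/-- Some colour does not increase the argument potential. -/
theorem exists_colour_le {G : Fin r → Matrix ι ι ℂ} (hG : ∀ c, (G c).IsHermitian) {w : ι → Fin r → ℝ}
    (hw : IsLaw w) (i : ι) {z : ℂ} (hz : 0 < z.im) :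
    ∃ c : Fin r, argSum (roots G (update w i (dirac c))) z ≤ argSum (roots G w) z := by
  set v : Fin r → ℂ := fun c => z * Fdet G (update w i (dirac c)) (fun _ => z) /
      Fdet (maskEF G i) (update w i (dirac c)) (fun _ => z) with hv
  set u : ℂ := z * Fdet G w (fun _ => z) / Fdet (maskEF G i) w (fun _ => z) with hu
  have hcomb : u = ∑ c, (w i c : ℂ) * v c := ratio_combination G hw i fun _ => z
  have hvpos : ∀ c, 0 < (v c).im := fun c =>
    ratio_pos hG (isLaw_dirac_update hw i c) i fun _ => hz
  have hupos : 0 < u.im := ratio_pos hG hw i fun _ => hz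
  have key : ∃ c, Complex.arg (v c) ≤ Complex.arg u := by
    by_contra hcon
    push Not at hcon
    set a := Complex.arg u with ha
    have hval : ∀ x : ℂ, (x * Complex.exp (-(a : ℂ) * Complex.I)).im =
        ‖x‖ * Real.sin (Complex.arg x - a) := by
      intro x
      conv_lhs => rw [← Complex.norm_mul_exp_arg_mul_I x]
      rw [mul_assoc, ← Complex.exp_add, Complex.im_ofReal_mul]
      congr 1
      rw [show (Complex.arg x : ℂ) * Complex.I + -(a : ℂ) * Complex.I =
        ((Complex.arg x - a : ℝ) : ℂ) * Complex.I by push_cast; ring,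
        Complex.exp_ofReal_mul_I_im]
    have hpos : ∀ c, 0 < (v c * Complex.exp (-(a : ℂ) * Complex.I)).im := by
      intro c
      rw [hval]
      refine mul_pos (norm_pos_iff.2 fun e => ?_) (Real.sin_pos_of_pos_of_lt_pi ?_ ?_)
      · have := hvpos c; simp [e] at this
      · linarith [hcon c]
      · have h1 : Complex.arg (v c) ≤ π := Complex.arg_le_pi _
        have h2 : 0 < a := by
          have h3 : 0 ≤ a := Complex.arg_nonneg_iff.2 hupos.le
          refine lt_of_le_of_ne h3 fun e => hupos.ne' ?_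
          exact (Complex.arg_eq_zero_iff.1 e.symm).2
        linarith
    have h0 : (u * Complex.exp (-(a : ℂ) * Complex.I)).im = 0 := by
      rw [hval, ← ha, sub_self, Real.sin_zero, mul_zero]
    rw [hcomb, Finset.sum_mul, Complex.im_sum] at h0
    simp only [mul_assoc, Complex.im_ofReal_mul] at h0
    have hall := (Finset.sum_eq_zero_iff_of_nonneg fun c _ =>
      mul_nonneg ((hw i).1 c) (hpos c).le).1 h0
    have : ∀ c, w i c = 0 := fun c =>
      (mul_eq_zero.1 (hall c (Finset.mem_univ c))).resolve_right (hpos c).ne'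
    simpa [this] using (hw i).2
  obtain ⟨c, hc⟩ := key
  refine ⟨c, ?_⟩
  have hwc := isLaw_dirac_update hw i c
  have h1 := (pick_maskE hG hwc i).argSum_eq hz
  have h2 := (pick_maskE hG hw i).argSum_eq hz
  rw [← echar_eval_eq hG hwc, ← echar_eval_eq (G := maskEF G i) (fun c => isHermitian_mask (hG c) _) hwc,
    echar_eval, echar_eval] at h1
  rw [← echar_eval_eq hG hw, ← echar_eval_eq (G := maskEF G i) (fun c => isHermitian_mask (hG c) _) hw,
    echar_eval, echar_eval] at h2
  rw [roots_maskE_dirac hw] at h1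
  change _ = Complex.arg (v c) at h1
  change _ = Complex.arg u at h2
  linarith

theorem posSemidef_pinch {G : Fin r → Matrix ι ι ℂ} (hG : ∀ c, (G c).PosSemidef)
    (s : ι → Fin r) : (pinch G s).PosSemidef := by
  have e : pinch G s = ∑ c, (diagonal fun i => if s i = c then (1 : ℂ) else 0)ᴴ * G c *
      (diagonal fun i => if s i = c then (1 : ℂ) else 0) := by
    ext j k
    rw [Matrix.sum_apply, Finset.sum_eq_single (s j)]
    · simp [pinch, diagonal_conjTranspose, mul_diagonal, diagonal_mul, eq_comm (a := s k)]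
    · intro c _ hc
      simp [diagonal_conjTranspose, mul_diagonal, diagonal_mul, Ne.symm hc]
    · simp
  rw [e]
  exact posSemidef_sum _ fun c _ => (hG c).conjTranspose_mul_mul_same _

theorem pinch_one_sub (G : Fin r → Matrix ι ι ℂ) (s : ι → Fin r) :
    pinch (fun c => 1 - G c) s = 1 - pinch G s := by
  ext j k
  rcases eq_or_ne j k with rfl | h
  · simp [pinch]
  · simp only [pinch, Matrix.of_apply, Matrix.sub_apply, one_apply_ne h]
    split_ifs <;> simp

theorem eigenvalues_pinch_mem {G : Fin r → Matrix ι ι ℂ} (hG : ∀ c, (G c).PosSemidef) (hG1 : ∀ c, (1 - G c).PosSemidef)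
    (s : ι → Fin r) (i : ι) :
    (posSemidef_pinch hG s).1.eigenvalues i ∈ Set.Icc (0 : ℝ) 1 := by
  refine ⟨(posSemidef_pinch hG s).eigenvalues_nonneg i, ?_⟩
  set h := (posSemidef_pinch hG s).1
  set v : ι → ℂ := ⇑(h.eigenvectorBasis i) with hv
  have hn : star v ⬝ᵥ v = 1 := by
    have := h.eigenvectorBasis.orthonormal.1 i
    have h2 := inner_self_eq_norm_sq_to_K (𝕜 := ℂ) (h.eigenvectorBasis i)
    rw [this, EuclideanSpace.inner_eq_star_dotProduct, dotProduct_comm] at h2
    simpa [hv] using h2
  have h2 := (pinch_one_sub G s ▸ posSemidef_pinch (G := fun c => 1 - G c) hG1 s).re_dotProduct_nonneg v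
  rw [sub_mulVec, one_mulVec, dotProduct_sub, h.mulVec_eigenvectorBasis i] at h2
  change 0 ≤ RCLike.re (star v ⬝ᵥ v - star v ⬝ᵥ (h.eigenvalues i • v)) at h2
  rw [dotProduct_smul, hn] at h2
  simpa using h2

/-- For a positive contraction all roots lie in the unit interval. -/
theorem roots_mem_Icc {G : Fin r → Matrix ι ι ℂ} (hG : ∀ c, (G c).PosSemidef) (hG1 : ∀ c, (1 - G c).PosSemidef)
    {w : ι → Fin r → ℝ} (hw : IsLaw w) {t : ℝ} (ht : t ∈ roots G w) : t ∈ Set.Icc (0 : ℝ) 1 := by
  have h0 : (echar G w).eval (t : ℂ) = 0 := by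
    rw [echar_eval_eq (fun c => (hG c).1) hw]
    exact Multiset.prod_eq_zero (Multiset.mem_map.2 ⟨t, ht, sub_self _⟩)
  have hw0 : ∀ s : ι → Fin r, 0 ≤ ∏ i, w i (s i) :=
    fun s => Finset.prod_nonneg fun i _ => (hw i).1 _
  have hev : (echar G w).eval (t : ℂ) = ((∑ s : ι → Fin r, (∏ i, w i (s i)) *
      ∏ i, (t - (posSemidef_pinch hG s).1.eigenvalues i) : ℝ) : ℂ) := by
    simp only [echar, eval_finsetSum, eval_mul, eval_C]
    push_cast
    refine Finset.sum_congr rfl fun s _ => ?_
    rw [(posSemidef_pinch hG s).1.charpoly_eq, eval_prod]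
    simp [weight]
  rw [hev, Complex.ofReal_eq_zero] at h0
  have hsum : ∑ s : ι → Fin r, ∏ i, w i (s i) = 1 := by
    rw [← Fintype.prod_sum (fun i c => w i c)]
    exact Finset.prod_eq_one fun i _ => (hw i).2
  obtain ⟨s₁, hs₁⟩ : ∃ s₁ : ι → Fin r, 0 < ∏ i, w i (s₁ i) := by
    by_contra h
    push Not at h
    linarith [Finset.sum_nonpos fun s (_ : s ∈ Finset.univ) => h s]
  by_contra hmem
  rcases not_and_or.1 hmem with hlo | hhi
  · push Not at hlo
    have : 0 < ∑ s : ι → Fin r, (∏ i, w i (s i)) *
        ∏ i, ((posSemidef_pinch hG s).1.eigenvalues i - t) := by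
      refine Finset.sum_pos' (fun s _ => mul_nonneg (hw0 s) (Finset.prod_nonneg fun i _ => ?_))
        ⟨s₁, Finset.mem_univ _, mul_pos hs₁ (Finset.prod_pos fun i _ => ?_)⟩
      · linarith [(eigenvalues_pinch_mem hG hG1 s i).1]
      · linarith [(eigenvalues_pinch_mem hG hG1 s₁ i).1]
    have e : ∀ s : ι → Fin r, (∏ i, (t - (posSemidef_pinch hG s).1.eigenvalues i)) =
        (-1) ^ Fintype.card ι * ∏ i, ((posSemidef_pinch hG s).1.eigenvalues i - t) := by
      intro s
      rw [← Finset.card_univ, ← Finset.prod_const, ← Finset.prod_mul_distrib]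
      exact Finset.prod_congr rfl fun i _ => by ring
    simp only [e, mul_left_comm _ ((-1 : ℝ) ^ Fintype.card ι), ← Finset.mul_sum] at h0
    rcases mul_eq_zero.1 h0 with h | h
    · exact absurd h (by simp)
    · linarith
  · push Not at hhi
    have : 0 < ∑ s : ι → Fin r, (∏ i, w i (s i)) *
        ∏ i, (t - (posSemidef_pinch hG s).1.eigenvalues i) := by
      refine Finset.sum_pos' (fun s _ => mul_nonneg (hw0 s) (Finset.prod_nonneg fun i _ => ?_))
        ⟨s₁, Finset.mem_univ _, mul_pos hs₁ (Finset.prod_pos fun i _ => ?_)⟩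
      · linarith [(eigenvalues_pinch_mem hG hG1 s i).2]
      · linarith [(eigenvalues_pinch_mem hG hG1 s₁ i).2]
    linarith

end Vale.Agent.P078.Quad
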