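import Vale.Agent.P078.Cartan.Quad.Local
import Vale.Agent.P078.Cartan.Window

/-!
Additivity of the potential of a family across gaps.
-/

namespace Vale.Agent.P078.Quad

open Matrix Polynomial Function
open scoped ComplexOrder

set_option linter.unusedSectionVars false

variable {ι κ : Type*} [Fintype ι] [DecidableEq ι] [Fintype κ] [DecidableEq κ] {r : ℕ}

/-- A point decomposition without cross entries. -/
theorem potential_split (G : Fin r → Matrix ι ι ℂ) {w : ι → Fin r → ℝ} (hw : IsLaw w) (p : ι → Prop)
    [DecidablePred p] (h : ∀ c a b, p a → ¬p b → G c a b = 0 ∧ G c b a = 0) (f : ℝ[X]) :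
    potential G w f =
      potential (fun c => (G c).submatrix (fun a : {a // p a} => (a : ι)) fun a : {a // p a} => (a : ι))
          (fun a : {a // p a} => w a) f +
      potential (fun c => (G c).submatrix (fun a : {a // ¬p a} => (a : ι)) fun a : {a // ¬p a} => (a : ι))
          (fun a : {a // ¬p a} => w a) f := by
  let e := Equiv.sumCompl p
  rw [← potential_fromBlocks _ _ (fun a => hw _) (fun a => hw _)]
  refine potential_congr ?_ f
  rw [← echar_reindex G w e]
  congr 1
  · ext c (a | a) (b | b)
    · simp [e]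
    · simpa [e] using (h c _ _ a.2 b.2).1
    · simpa [e] using (h c _ _ b.2 a.2).2
    · simp [e]
  · ext (a | a) <;> rfl

theorem potential_mask_union (G : Fin r → Matrix ι ι ℂ) {w : ι → Fin r → ℝ} (hw : IsLaw w)
    {A B : Finset ι} (hd : Disjoint A B) (h : ∀ c, ∀ a ∈ A, ∀ b ∈ B, G c a b = 0 ∧ G c b a = 0)
    {f : ℝ[X]} (hf : f.eval 0 = 0) :
    potential (maskF G (A ∪ B)) w f = potential (maskF G A) w f + potential (maskF G B) w f := by
  have key := fun (U : Finset ι) (hU : ∀ c a b, a ∈ A → b ∉ A →
      (maskF G U c) a b = 0 ∧ (maskF G U c) b a = 0) =>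
    potential_split (maskF G U) hw (fun a => a ∈ A) hU f
  have hAB : ∀ {x}, x ∈ B → x ∉ A := fun hx hx' => Finset.disjoint_left.1 hd hx' hx
  rw [key (A ∪ B), key A, key B]
  · have z : ∀ {μ : Type _} {_ : Fintype μ} {_ : DecidableEq μ} (v : μ → Fin r → ℝ), IsLaw v →
        potential (0 : Fin r → Matrix μ μ ℂ) v f = 0 := fun v hv => by
      rw [potential, roots, echar_zero hv, roots_pow, roots_X]
      simp [Multiset.map_nsmul, Multiset.sum_nsmul, hf]
    have e1 : (fun c => (maskF G B c).submatrix (fun a : {a // a ∈ A} => (a : ι))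
        (fun a : {a // a ∈ A} => (a : ι))) = 0 := by
      ext c a b
      simp only [maskF, mask, submatrix_apply, Matrix.of_apply, Matrix.zero_apply, Pi.zero_apply]
      rw [if_neg fun hh => hAB hh.1 a.2]
    have e2 : (fun c => (maskF G A c).submatrix (fun a : {a // a ∉ A} => (a : ι))
        (fun a : {a // a ∉ A} => (a : ι))) = 0 := by
      ext c a b; simp [maskF, mask, a.2]
    have e3 : (fun c => (maskF G (A ∪ B) c).submatrix (fun a : {a // a ∈ A} => (a : ι))
        (fun a : {a // a ∈ A} => (a : ι))) = fun c => (maskF G A c).submatrix (fun a : {a // a ∈ A} => (a : ι))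
        fun a : {a // a ∈ A} => (a : ι) := by
      ext c a b; simp [maskF, mask, a.2, b.2]
    have e4 : (fun c => (maskF G (A ∪ B) c).submatrix (fun a : {a // a ∉ A} => (a : ι))
        (fun a : {a // a ∉ A} => (a : ι))) = fun c => (maskF G B c).submatrix (fun a : {a // a ∉ A} => (a : ι))
        fun a : {a // a ∉ A} => (a : ι) := by
      ext c a b; simp [maskF, mask, a.2, b.2]
    rw [e1, e2, e3, e4, z _ (fun a => hw _), z _ (fun a => hw _)]
    ring
  all_goals intro c a b ha hb
  all_goals simp only [maskF, mask, Matrix.of_apply, Finset.mem_union]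
  all_goals constructor <;> split_ifs with hh
  all_goals first
    | rfl
    | exact (h c a ha b (hh.2.resolve_left hb)).1
    | exact (h c a ha b (hh.1.resolve_left hb)).2
    | exact absurd ha (hAB hh.1)
    | exact absurd ha (hAB hh.2)
    | exact absurd hh.2 hb
    | exact absurd hh.1 hb

end Vale.Agent.P078.Quad
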